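import Crest.Agent.R27.TH.Conv
import Crest.Agent.R17.D.Bessel

/-! Row 27, THETA, block BES (owner helper14): Whittaker functions and Fourier-Bessel series. -/

set_option autoImplicit false

namespace Crest.Agent.R27.TH

open Crest.Agent.R17 (sgK sg EntBdd gth)
open Crest.Agent.R17.D (Qf KB pw)
open Crest.NumberTheoryR.EisensteinField Crest.Agent.R27.G MeasureTheory Filter Set
open scoped NumberField ComplexConjugate Classical Real Topology MatrixGroups

variable {F : Type} [Field F] [NumberField F] [Algebra K3 F]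

theorem besa_gauss (ν : ℂ) {b : ℝ} (hb : 0 < b) :
    ∫ z : ℂ, ((Real.exp (-b * ‖z‖ ^ 2) : ℝ) : ℂ) *
        conj (Complex.exp (2 * π * Complex.I * ((2 * (ν * z).re : ℝ) : ℂ))) =
      ((π / b * Real.exp (-((2 * π * ‖ν‖) ^ 2 / b)) : ℝ) : ℂ) := by
  have h := GaussianFourier.integral_cexp_neg_mul_sq_norm_add (V := ℂ) (b := b) (by simpa using hb)
    (-(4 * π * Complex.I)) (conj ν)
  have e1 : ((Module.finrank ℝ ℂ : ℕ) : ℂ) / 2 = 1 := by simp
  rw [e1, Complex.cpow_one] at h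
  refine Eq.trans (integral_congr_ae (Eventually.of_forall fun z => ?_)) (h.trans ?_)
  · simp only [← Complex.exp_conj, Complex.ofReal_exp, ← Complex.exp_add, Complex.inner, map_mul,
      Complex.conj_ofReal, Complex.conj_I, Complex.conj_conj, map_ofNat, mul_comm z ν]
    congr 1
    push_cast
    ring
  · have hb' : (b : ℂ) ≠ 0 := by exact_mod_cast hb.ne'
    push_cast
    rw [Complex.norm_conj]
    congr 2
    field_simp
    rw [Complex.I_sq]
    ring

theorem besa_main (ν : ℂ) {y : ℝ} (hy : 0 < y) :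
    ∫ z : ℂ, ((((‖z‖ ^ 2 + y ^ 2) / y) ^ (-(4 / 3) : ℝ) : ℝ) : ℂ) *
        conj (Complex.exp (2 * π * Complex.I * ((2 * (ν * z).re : ℝ) : ℂ))) =
      ((π * y / Real.Gamma (4 / 3) * ∫ T in Ioi (0 : ℝ),
        T ^ (1 / 3 - 1 : ℝ) * Real.exp (-(y * (T + (2 * π * ‖ν‖) ^ 2 / T))) : ℝ) : ℂ) := by
  have hG : 0 < Real.Gamma (4 / 3) := Real.Gamma_pos_of_pos (by norm_num)
  set E : ℂ → ℂ := fun z => conj (Complex.exp (2 * π * Complex.I * ((2 * (ν * z).re : ℝ) : ℂ))) with hE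
  have hE1 : ∀ z, ‖E z‖ = 1 := fun z => by
    simp only [hE, Complex.norm_conj, Complex.norm_exp]
    simp
  have hEc : Continuous E := by
    simp only [hE]
    fun_prop
  set G : ℝ → ℂ → ℂ := fun T z => ((T ^ (4 / 3 - 1 : ℝ) * Real.exp (-y * T) : ℝ) : ℂ) *
    (((Real.exp (-(T / y) * ‖z‖ ^ 2) : ℝ) : ℂ) * E z) with hGd
  have hpow : ∀ T : ℝ, 0 < T → T ^ (4 / 3 - 1 : ℝ) = T ^ (1 / 3 - 1 : ℝ) * T := fun T hT => by
    rw [← Real.rpow_add_one hT.ne']
    norm_num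
  have hint : Integrable (Function.uncurry G) ((volume.restrict (Ioi (0 : ℝ))).prod volume) := by
    have hm : Measurable (Function.uncurry G) := by
      have := hEc.measurable
      simp only [hGd]
      unfold Function.uncurry
      fun_prop
    rw [integrable_prod_iff hm.aestronglyMeasurable]
    constructor
    · filter_upwards [ae_restrict_mem measurableSet_Ioi] with T hT
      have hb : 0 < T / y := div_pos hT hy
      have h1 := GaussianFourier.integrable_cexp_neg_mul_sq_norm_add (V := ℂ) (b := (T / y : ℝ))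
        (by rwa [Complex.ofReal_re]) 0 0
      have h3 : Integrable fun z : ℂ => ((Real.exp (-(T / y) * ‖z‖ ^ 2) : ℝ) : ℂ) :=
        h1.congr (Eventually.of_forall fun z => by simp)
      exact (h3.mul_bdd (c := 1) hEc.aestronglyMeasurable (Eventually.of_forall fun z => (hE1 z).le)).const_mul
        ((T ^ (4 / 3 - 1 : ℝ) * Real.exp (-y * T) : ℝ) : ℂ)
    · have h1 := (integrableOn_rpow_mul_exp_neg_mul_rpow (s := 1 / 3 - 1) (p := 1) (b := y) (by norm_num)
        one_pos hy).const_mul (π * y)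
      refine (Integrable.congr h1 ?_)
      filter_upwards [ae_restrict_mem measurableSet_Ioi] with T hT
      have hT : 0 < T := hT
      have hb : 0 < T / y := div_pos hT hy
      have h2 : 0 ≤ T ^ (4 / 3 - 1 : ℝ) * Real.exp (-y * T) := by positivity
      simp only [Function.uncurry, hGd, norm_mul, hE1, mul_one, Complex.norm_real, Real.norm_eq_abs,
        Real.abs_exp, abs_of_pos (Real.rpow_pos_of_pos hT _)]
      rw [integral_const_mul, GaussianFourier.integral_rexp_neg_mul_sq_norm hb, hpow T hT, Real.rpow_one]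
      simp only [Complex.finrank_real_complex, Nat.cast_ofNat, div_self (two_ne_zero' ℝ), Real.rpow_one]
      field_simp
  have h1 : ∀ z : ℂ, ∫ T in Ioi (0 : ℝ), G T z = (Real.Gamma (4 / 3) : ℝ) *
      (((((‖z‖ ^ 2 + y ^ 2) / y) ^ (-(4 / 3) : ℝ) : ℝ) : ℂ) * E z) := fun z => by
    have hQ : 0 < (‖z‖ ^ 2 + y ^ 2) / y := by positivity
    have h2 := Real.integral_rpow_mul_exp_neg_mul_Ioi (a := 4 / 3) (by norm_num) hQ
    rw [one_div, Real.inv_rpow hQ.le, ← Real.rpow_neg hQ.le] at h2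
    rw [← mul_assoc, ← Complex.ofReal_mul, mul_comm (Real.Gamma _), ← h2, ← integral_complex_ofReal,
      ← integral_mul_const]
    refine integral_congr_ae (Eventually.of_forall fun T => ?_)
    simp only [hGd]
    rw [← mul_assoc, ← Complex.ofReal_mul, mul_assoc (T ^ _), ← Real.exp_add]
    congr 4
    field_simp
    ring
  have h2 : ∫ T in Ioi (0 : ℝ), ∫ z, G T z = ((π * y * ∫ T in Ioi (0 : ℝ),
      T ^ (1 / 3 - 1 : ℝ) * Real.exp (-(y * (T + (2 * π * ‖ν‖) ^ 2 / T))) : ℝ) : ℂ) := by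
    rw [← integral_const_mul, ← integral_complex_ofReal]
    refine setIntegral_congr_fun measurableSet_Ioi fun T hT => ?_
    have hT : 0 < T := hT
    simp only [hGd, hE]
    rw [integral_const_mul, besa_gauss ν (div_pos hT hy), ← Complex.ofReal_mul, hpow T hT,
      show -(y * (T + (2 * π * ‖ν‖) ^ 2 / T)) = -y * T + -((2 * π * ‖ν‖) ^ 2 / (T / y)) by field_simp; ring,
      Real.exp_add]
    congr 1
    field_simp
  rw [integral_integral_swap hint] at h2
  simp only [h1] at h2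
  rw [integral_const_mul] at h2
  have hG' : ((Real.Gamma (4 / 3) : ℝ) : ℂ) ≠ 0 := by exact_mod_cast hG.ne'
  refine mul_left_cancel₀ hG' (h2.trans ?_)
  rw [← Complex.ofReal_mul]
  congr 1
  field_simp

/-- Bes-a.  `Γ(s) Q^(-s) = ∫ T^(s-1) exp (-T Q) dT`, Fubini, the Fourier transform of the Gaussian
`∫ exp (-T ‖z‖²) exp (-4πi re (ν z)) = (π / T) exp (-4π² ‖ν‖² / T)`, substitute `T = (2π ‖ν‖ / y) T'` -/
theorem integral_bes {ν : ℂ} (hν : ν ≠ 0) {y : ℝ} (hy : 0 < y) :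
    ∫ z : ℂ, ((((‖z‖ ^ 2 + y ^ 2) / y) ^ (-(4 / 3) : ℝ) : ℝ) : ℂ) *
        conj (Complex.exp (2 * π * Complex.I * ((2 * (ν * z).re : ℝ) : ℂ))) =
      ((π * (2 * π) ^ (1 / 3 : ℝ) / Real.Gamma (4 / 3) : ℝ) : ℂ) *
        (((‖ν‖ ^ (1 / 3 : ℝ) * y : ℝ) : ℂ) * KB (1 / 3) (2 * π * ‖ν‖ * y)) := by
  have hn : 0 < ‖ν‖ := norm_pos_iff.2 hν
  have ha : 0 < 2 * π * ‖ν‖ := by positivity
  have hK : KB (1 / 3) (2 * π * ‖ν‖ * y) = ((∫ T in Ioi (0 : ℝ),
      T ^ (1 / 3 - 1 : ℝ) * Real.exp (-(2 * π * ‖ν‖ * y * (T + T⁻¹))) : ℝ) : ℂ) := by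
    rw [← integral_complex_ofReal, KB, mellin]
    refine setIntegral_congr_fun measurableSet_Ioi fun T hT => ?_
    have hT : 0 < T := hT
    simp only [smul_eq_mul]
    rw [Complex.ofReal_mul, Complex.ofReal_cpow hT.le]
    push_cast
    rfl
  have h1 := integral_comp_mul_left_Ioi
    (fun T : ℝ => T ^ (1 / 3 - 1 : ℝ) * Real.exp (-(y * (T + (2 * π * ‖ν‖) ^ 2 / T)))) 0 ha
  have h2 : ∫ T in Ioi (0 : ℝ), (2 * π * ‖ν‖ * T) ^ (1 / 3 - 1 : ℝ) *
      Real.exp (-(y * (2 * π * ‖ν‖ * T + (2 * π * ‖ν‖) ^ 2 / (2 * π * ‖ν‖ * T)))) =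
      (2 * π * ‖ν‖) ^ (1 / 3 - 1 : ℝ) *
        ∫ T in Ioi (0 : ℝ), T ^ (1 / 3 - 1 : ℝ) * Real.exp (-(2 * π * ‖ν‖ * y * (T + T⁻¹))) := by
    rw [← integral_const_mul]
    refine setIntegral_congr_fun measurableSet_Ioi fun T hT => ?_
    have hT : 0 < T := hT
    rw [Real.mul_rpow ha.le hT.le, mul_assoc]
    congr 4
    field_simp
  rw [h2, mul_zero, smul_eq_mul, eq_inv_mul_iff_mul_eq₀ ha.ne', ← mul_assoc, Real.rpow_sub_one ha.ne',
    mul_div_cancel₀ _ ha.ne', Real.mul_rpow (by positivity) hn.le] at h1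
  rw [besa_main ν hy, hK, ← h1]
  push_cast
  ring

/-- Bes-a.  scaling `z = y ζ`; `c = ∫ (1 + ‖ζ‖²)^(-4/3)` -/
theorem integral_bes_zero : ∃ c : ℝ, 0 < c ∧ ∀ y : ℝ, 0 < y →
    ∫ z : ℂ, ((‖z‖ ^ 2 + y ^ 2) / y) ^ (-(4 / 3) : ℝ) = c * y ^ (2 / 3 : ℝ) := by
  have hG : 0 < Real.Gamma (4 / 3) := Real.Gamma_pos_of_pos (by norm_num)
  have hG' : 0 < Real.Gamma (1 / 3) := Real.Gamma_pos_of_pos (by norm_num)
  refine ⟨π * Real.Gamma (1 / 3) / Real.Gamma (4 / 3), by positivity, fun y hy => ?_⟩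
  have h := besa_main 0 hy
  simp only [zero_mul, Complex.zero_re, mul_zero, Complex.ofReal_zero, Complex.exp_zero, map_one, mul_one,
    norm_zero, ne_eq, OfNat.ofNat_ne_zero, not_false_eq_true, zero_pow, zero_div, add_zero] at h
  rw [integral_complex_ofReal, Complex.ofReal_inj,
    Real.integral_rpow_mul_exp_neg_mul_Ioi (by norm_num) hy, one_div y, Real.inv_rpow hy.le,
    ← Real.rpow_neg hy.le] at h
  rw [h, show (2 / 3 : ℝ) = -(1 / 3) + 1 by norm_num, Real.rpow_add_one hy.ne']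
  ring

theorem besb_fub (ν : F) {h : (Pl F → ℝ) → ℂ} (hh : Tst h) : mt (kn ν h) = ∫ l : Pl F → ℝ,
    (∏ i, ∫ z : ℂ, ((((‖z‖ ^ 2 + Real.exp (l i) ^ 2) / Real.exp (l i)) ^ (-(4 / 3) : ℝ) : ℝ) : ℂ) *
      conj (Complex.exp (2 * π * Complex.I * ((2 * (em ν i * z).re : ℝ) : ℂ)))) * h l := by
  have hi := (ker_kn ν hh).int
  rw [Measure.volume_eq_prod] at hi
  rw [mt, Measure.volume_eq_prod, integral_prod_symm _ hi]
  refine integral_congr_ae (Eventually.of_forall fun l => ?_)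
  simp only
  rw [← integral_fintype_prod_volume_eq_prod, ← integral_mul_const]
  refine integral_congr_ae (Eventually.of_forall fun z => ?_)
  simp only
  rw [PP_eq, ← Real.finsetProd_rpow _ _ fun i _ => by positivity, kn, eZ, map_prod, Complex.ofReal_prod,
    Finset.prod_mul_distrib]
  exact (mul_assoc _ _ _).symm

/-- Bes-b.  Fubini (`Ker.int`), `integral_fintype_prod_volume_eq_prod`, `integral_bes` -/
theorem mt_kn : ∃ c : ℂ, c ≠ 0 ∧ ∀ ν : F, ν ≠ 0 → ∀ h, Tst h → mt (kn ν h) = c * ∫ l, WW ν l * h l := by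
  have hG := Real.Gamma_pos_of_pos (show (0 : ℝ) < 4 / 3 by norm_num)
  refine ⟨((π * (2 * π) ^ (1 / 3 : ℝ) / Real.Gamma (4 / 3) : ℝ) : ℂ) ^ Fintype.card (Pl F),
    pow_ne_zero _ (Complex.ofReal_ne_zero.2 (by positivity)), fun ν hν h hh => ?_⟩
  rw [besb_fub ν hh, ← integral_const_mul]
  refine integral_congr_ae (Eventually.of_forall fun l => ?_)
  simp only
  rw [Finset.prod_congr rfl fun i _ => integral_bes (em_ne_zero hν i) (Real.exp_pos (l i)),
    Finset.prod_mul_distrib, Finset.prod_const, Finset.card_univ, mul_assoc, WW]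

theorem mt_kn_zero : ∃ c : ℝ, 0 < c ∧ ∀ h, Tst h →
    mt (kn (0 : F) h) = c * ∫ l : Pl F → ℝ, (Real.exp (2 / 3 * ∑ i, l i) : ℝ) * h l := by
  obtain ⟨c, hc, H⟩ := integral_bes_zero
  refine ⟨c ^ Fintype.card (Pl F), pow_pos hc _, fun h hh => ?_⟩
  rw [besb_fub 0 hh, ← integral_const_mul]
  refine integral_congr_ae (Eventually.of_forall fun l => ?_)
  simp only [em_zero, Pi.zero_apply, zero_mul, Complex.zero_re, mul_zero, Complex.ofReal_zero,
    Complex.exp_zero, map_one, mul_one, integral_complex_ofReal, H _ (Real.exp_pos _)]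
  rw [← Complex.ofReal_prod, Finset.prod_mul_distrib, Finset.prod_const, Finset.card_univ, ← mul_assoc,
    ← Complex.ofReal_mul, Finset.mul_sum, Real.exp_sum]
  simp only [← Real.exp_mul, mul_comm (2 / 3 : ℝ)]

theorem besb_pos {P : (Pl F → ℝ) → ℝ} (hP : Continuous P) (h0' : ∀ l, 0 < P l) :
    ∫ l, (P l : ℂ) * h0 F l ≠ 0 := by
  have e : (fun l => (P l : ℂ) * h0 F l) = fun l => (((Icc 0 1).indicator P l : ℝ) : ℂ) := by
    funext l
    by_cases hl : l ∈ Icc (0 : Pl F → ℝ) 1 <;> simp [h0, hl]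
  rw [e, integral_complex_ofReal, integral_indicator measurableSet_Icc, Complex.ofReal_ne_zero]
  refine ((setIntegral_pos_iff_support_of_nonneg_ae (Eventually.of_forall fun l => (h0' l).le)
    (hP.continuousOn.integrableOn_compact isCompact_Icc)).2 ?_).ne'
  rw [show Function.support P = univ from eq_univ_of_forall fun l => (h0' l).ne', univ_inter,
    Real.volume_Icc_pi]
  simp

theorem besb_KB {x : ℝ} (hx : 0 < x) : KB (1 / 3) x = (‖KB (1 / 3) x‖ : ℝ) ∧ 0 < ‖KB (1 / 3) x‖ := by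
  have e : (1 / 3 : ℂ) = ((1 / 3 : ℝ) : ℂ) := by push_cast; rfl
  rw [e, R17.D.kba_real]
  refine ⟨?_, ?_⟩
  · rw [← integral_complex_ofReal]
    refine setIntegral_congr_fun measurableSet_Ioi fun T (hT : 0 < T) => ?_
    simp only [smul_eq_mul]
    rw [Complex.ofReal_mul, Complex.ofReal_cpow hT.le, Complex.ofReal_sub, Complex.ofReal_one]
  · refine (setIntegral_pos_iff_support_of_nonneg_ae ?_ (R17.D.kba_int _ hx)).2 ?_
    · filter_upwards [ae_restrict_mem measurableSet_Ioi] with T (hT : 0 < T)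
      positivity
    · refine lt_of_lt_of_le (by simp : 0 < volume (Ioi (0 : ℝ))) (measure_mono fun T hT => ⟨?_, hT⟩)
      have hT' : 0 < T := hT
      exact Function.mem_support.2 (by positivity)

theorem besb_cont {ν : F} (hν : ν ≠ 0) (i : Pl F) :
    Continuous fun l : Pl F → ℝ => KB (1 / 3) (2 * π * ‖em ν i‖ * Real.exp (l i)) := by
  have h := norm_em_pos hν i
  exact (R17.D.continuousOn_KB _).comp_continuous (by fun_prop) fun l => mem_Ioi.2 (by positivity)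

/-- Bes-b.  `KB (1/3) x` is a positive real (`kba_real`), the cube has positive volume -/
theorem mt_h0_ne : mt (kn (1 : F) (h0 F)) ≠ 0 := by
  obtain ⟨c, hc, H⟩ := mt_kn (F := F)
  rw [H 1 one_ne_zero _ tst_h0]
  refine mul_ne_zero hc ?_
  have hp : ∀ (l : Pl F → ℝ) i, 0 < 2 * π * ‖em (1 : F) i‖ * Real.exp (l i) := fun l i => by
    have h := norm_em_pos (one_ne_zero (α := F)) i
    positivity
  have e : ∀ l, WW (1 : F) l = ((∏ i, ‖em (1 : F) i‖ ^ (1 / 3 : ℝ) * Real.exp (l i) *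
      ‖KB (1 / 3) (2 * π * ‖em (1 : F) i‖ * Real.exp (l i))‖ : ℝ) : ℂ) := fun l => by
    rw [WW, Complex.ofReal_prod]
    refine Finset.prod_congr rfl fun i _ => ?_
    rw [Complex.ofReal_mul _ ‖_‖, ← (besb_KB (hp l i)).1]
  simp only [e]
  refine besb_pos (continuous_finsetProd _ fun i _ =>
    Continuous.mul (by fun_prop) (besb_cont one_ne_zero i).norm) fun l => Finset.prod_pos fun i _ => ?_
  have h := norm_em_pos (one_ne_zero (α := F)) i
  have h' := (besb_KB (hp l i)).2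
  positivity

theorem integral_h0_ne : ∫ l : Pl F → ℝ, ((Real.exp (2 / 3 * ∑ i, l i) : ℝ) : ℂ) * h0 F l ≠ 0 := by
  exact besb_pos (by fun_prop) fun l => Real.exp_pos _

theorem continuous_WW {ν : F} (hν : ν ≠ 0) : Continuous (WW ν) := by
  exact continuous_finsetProd _ fun i _ => Continuous.mul (by fun_prop) (besb_cont hν i)

theorem WW_unit (ν : F) (u : (𝓞 F)ˣ) (l : Pl F → ℝ) :
    WW ν (l + lg ((u : 𝓞 F) : F)) = WW (((u : 𝓞 F) : F) * ν) l := by
  have hu : ((u : 𝓞 F) : F) ≠ 0 := by exact_mod_cast u.ne_zero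
  have h1 : ∀ i, ‖em ((u : 𝓞 F) : F) i‖ = Real.exp (lg ((u : 𝓞 F) : F) i) := fun i =>
    (Real.exp_log (norm_em_pos hu i)).symm
  have h2 : ∏ i, ((Real.exp (2 / 3 * lg ((u : 𝓞 F) : F) i) : ℝ) : ℂ) = 1 := by
    rw [← Complex.ofReal_prod, ← Real.exp_sum, ← Finset.mul_sum, sum_lg_unit]
    simp
  rw [← one_mul (WW (_ * ν) l), ← h2, WW, WW, ← Finset.prod_mul_distrib]
  refine Finset.prod_congr rfl fun i _ => ?_
  rw [em_mul, Pi.mul_apply, norm_mul, h1, Pi.add_apply, Real.exp_add,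
    Real.mul_rpow (Real.exp_pos _).le (norm_nonneg _), ← mul_assoc (Complex.ofReal _), ← Complex.ofReal_mul,
    ← Real.exp_mul]
  have h3 : Real.exp (lg ((u : 𝓞 F) : F) i) =
      Real.exp (2 / 3 * lg ((u : 𝓞 F) : F) i) * Real.exp (lg ((u : 𝓞 F) : F) i * (1 / 3)) := by
    rw [← Real.exp_add]
    congr 1
    ring
  congr 2
  · linear_combination ‖em ν i‖ ^ (1 / 3 : ℝ) * Real.exp (l i) * h3
  · ring

theorem besc_one {b : ℝ} (hb : 0 ≤ b) : ∃ C : ℝ, 0 < C ∧ ∀ y : ℝ, 0 < y →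
    y * ‖KB (1 / 3) (2 * π * y)‖ ≤ C * (1 + y) ^ (-b) := by
  have e : (((1 / 3 : ℝ)) : ℂ) = 1 / 3 := by norm_num
  obtain ⟨C₁, h1⟩ := R17.D.KB_decay (σ := 1 / 3) (A := 1) (by rw [abs_of_pos] <;> norm_num)
  obtain ⟨C₂, h2⟩ := R17.D.KB_decay (σ := 1 / 3) (A := b + 1) (by rw [abs_of_pos] <;> linarith)
  rw [e] at h1 h2
  have hπ : 1 ≤ 2 * π := by linarith [Real.two_le_pi]
  refine ⟨(|C₁| + |C₂| + 1) * 2 ^ b, by positivity, fun y hy => ?_⟩
  have key : ∀ t : ℝ, 0 < t → 1 + y ≤ 2 * t → t ^ (-b) ≤ 2 ^ b * (1 + y) ^ (-b) := fun t ht h => by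
    have := Real.rpow_le_rpow_of_nonpos (by positivity) h (neg_nonpos.2 hb)
    rw [Real.mul_rpow (by norm_num) ht.le, Real.rpow_neg (by norm_num : (0 : ℝ) ≤ 2)] at this
    rw [← inv_mul_le_iff₀ (by positivity)]
    exact this
  have hle : ∀ {A C : ℝ}, 0 ≤ A → C * (2 * π * y) ^ (-A) ≤ |C| * y ^ (-A) := fun hA =>
    mul_le_mul (le_abs_self _) (Real.rpow_le_rpow_of_nonpos hy (by nlinarith) (neg_nonpos.2 hA)) (by positivity)
      (abs_nonneg _)
  rw [mul_assoc (_ + 1)]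
  rcases le_total y 1 with h | h
  · have h3 := key 1 one_pos (by linarith)
    rw [Real.one_rpow] at h3
    calc _ ≤ y * (|C₁| * y ^ (-1 : ℝ)) := by gcongr; exact (h1 _ (by positivity)).trans (hle zero_le_one)
      _ = |C₁| * 1 := by rw [Real.rpow_neg_one]; field_simp
      _ ≤ _ := by gcongr; linarith [abs_nonneg C₂]
  · calc _ ≤ y * (|C₂| * y ^ (-(b + 1))) := by gcongr; exact (h2 _ (by positivity)).trans (hle (by linarith))
      _ = |C₂| * y ^ (-b) := by rw [neg_add, Real.rpow_add hy, Real.rpow_neg_one]; field_simp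
      _ ≤ _ := by gcongr; exacts [by linarith [abs_nonneg C₁], key y hy (by linarith)]

/-- Bes-c.  `x ‖KB (1/3) x‖ ≤ C (1 + x)^(-b)` (`KB_decay` with `A = 1` and `A = b + 1`) -/
theorem WW_le {b : ℝ} (hb : 0 ≤ b) : ∃ C : ℝ, 0 < C ∧ ∀ ν : F, ν ≠ 0 → ∀ l : Pl F → ℝ,
    ‖WW ν l‖ ≤ C * an ν ^ (-(1 / 3) : ℝ) * ∏ i, (1 + ‖em ν i‖ * Real.exp (l i)) ^ (-b) := by
  obtain ⟨C, hC, h⟩ := besc_one hb
  refine ⟨C ^ Fintype.card (Pl F), by positivity, fun ν hν l => ?_⟩
  have e : an ν ^ (-(1 / 3) : ℝ) = ∏ i, ‖em ν i‖ ^ (-(2 / 3) : ℝ) := by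
    rw [an, ← Real.finsetProd_rpow _ _ fun i _ => sq_nonneg _]
    refine Finset.prod_congr rfl fun i _ => ?_
    rw [← Real.rpow_natCast, ← Real.rpow_mul (norm_nonneg _)]
    norm_num
  rw [e, WW, norm_prod, ← Finset.card_univ, ← Finset.prod_const, ← Finset.prod_mul_distrib, ← Finset.prod_mul_distrib]
  refine Finset.prod_le_prod (fun _ _ => norm_nonneg _) fun i _ => ?_
  have h0 := norm_em_pos hν i
  have e1 : ‖em ν i‖ ^ (1 / 3 : ℝ) = ‖em ν i‖ ^ (-(2 / 3) : ℝ) * ‖em ν i‖ := by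
    rw [← Real.rpow_add_one h0.ne']
    norm_num
  have h1 := h (‖em ν i‖ * Real.exp (l i)) (by positivity)
  rw [norm_mul, Complex.norm_real, Real.norm_of_nonneg (by positivity), e1, mul_assoc (2 * π)]
  nlinarith [mul_le_mul_of_nonneg_left h1 (Real.rpow_nonneg h0.le (-(2 / 3) : ℝ))]

theorem exists_apply_eq_norm_aux (z : Pl F → ℂ) : ∃ j, ‖z j‖ = ‖z‖ := by
  obtain ⟨j, -, hj⟩ := Finset.exists_max_image Finset.univ (fun i => ‖z i‖) Finset.univ_nonempty
  exact ⟨j, (norm_le_pi_norm z j).antisymm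
    ((pi_norm_le_iff_of_nonneg (norm_nonneg _)).2 fun i => hj i (Finset.mem_univ _))⟩

/-- Bes-c.  a summable majorant, with decay in the height `a` (`WW_le`, `summable_lat`, `InL.an_ge`;
`‖em ν‖ ≥ δ` on the lattice) -/
theorem WW_maj {m : ℕ} (hm : 0 < m) (k : ℕ) (a₀ : ℝ) {A : ℝ} (hA : 0 ≤ A) : ∃ M : F → ℝ, Summable M ∧ (∀ ν, 0 ≤ M ν) ∧
    ∀ ν : F, ν ≠ 0 → InL m ν → ∀ (a : ℝ) (l : Pl F → ℝ), a₀ ≤ a → (∀ i, a ≤ l i) →
      ‖WW ν l‖ * (1 + ‖em ν‖) ^ k ≤ M ν * Real.exp (-(A * a)) := by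
  set r := Fintype.card (Pl F) with hr
  have hr0 : 0 < r := card_Pl_pos
  obtain ⟨δ, hδ, hd⟩ := InL.an_ge (F := F) hm
  obtain ⟨C, hC, h⟩ := WW_le (F := F) (b := A + (k + (2 * r + 1))) (by positivity)
  set d : ℝ := min 1 δ with hdd
  have hd0 : 0 < d := lt_min one_pos hδ
  set c : ℝ := min 1 (Real.exp a₀) with hc
  have hc0 : 0 < c := lt_min one_pos (Real.exp_pos _)
  refine ⟨fun ν => C * δ ^ (-(1 / 3) : ℝ) * d ^ (-A) * c ^ (-(k + (2 * r + 1)) : ℝ) *
    if InL m ν then (1 + ‖em ν‖) ^ (-(2 * r + 1) : ℝ) else 0, (summable_lat hm (by linarith)).mul_left _,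
    fun ν => by beta_reduce; split_ifs <;> positivity, fun ν hν hL a l ha hl => ?_⟩
  obtain ⟨j, hj⟩ := exists_apply_eq_norm_aux (em ν)
  have hN : d ≤ ‖em ν‖ := by
    by_contra hlt
    rw [not_le] at hlt
    have h1 : an ν ≤ ‖em ν‖ := by
      have h2 : ‖em ν‖ ≤ 1 := hlt.le.trans (min_le_left _ _)
      calc an ν ≤ ∏ _i : Pl F, ‖em ν‖ ^ 2 := Finset.prod_le_prod (fun _ _ => sq_nonneg _) fun i _ => by
            gcongr; exact norm_le_pi_norm _ i
        _ = ‖em ν‖ ^ (2 * r) := by rw [Finset.prod_const, Finset.card_univ, ← pow_mul]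
        _ ≤ ‖em ν‖ := pow_le_of_le_one (norm_nonneg _) h2 (by omega)
    linarith [hd ν hν hL, min_le_right 1 δ]
  have hp : ∏ i, (1 + ‖em ν i‖ * Real.exp (l i)) ^ (-(A + (k + (2 * r + 1)))) ≤
      (1 + ‖em ν‖ * Real.exp a) ^ (-(A + (k + (2 * r + 1)))) := by
    rw [← Finset.mul_prod_erase _ _ (Finset.mem_univ j)]
    refine (mul_le_of_le_one_right (by positivity) (Finset.prod_le_one (fun _ _ => by positivity) fun i _ =>
      Real.rpow_le_one_of_one_le_of_nonpos (le_add_of_nonneg_right (by positivity)) (neg_nonpos.2 (by positivity)))).trans ?_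
    refine Real.rpow_le_rpow_of_nonpos (by positivity) ?_ (neg_nonpos.2 (by positivity))
    rw [hj]
    gcongr
    exact hl j
  have h3 : (1 + ‖em ν‖ * Real.exp a) ^ (-A) ≤ d ^ (-A) * Real.exp (-(A * a)) := by
    rw [show -(A * a) = a * -A by ring, Real.exp_mul, ← Real.mul_rpow hd0.le (Real.exp_pos _).le]
    refine Real.rpow_le_rpow_of_nonpos (by positivity) ?_ (neg_nonpos.2 hA)
    nlinarith [Real.exp_pos a]
  have h4 : (1 + ‖em ν‖ * Real.exp a) ^ (-(k + (2 * r + 1)) : ℝ) ≤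
      c ^ (-(k + (2 * r + 1)) : ℝ) * (1 + ‖em ν‖) ^ (-(k + (2 * r + 1)) : ℝ) := by
    rw [← Real.mul_rpow hc0.le (by positivity)]
    refine Real.rpow_le_rpow_of_nonpos (by positivity) ?_ (neg_nonpos.2 (by positivity))
    have h5 : c ≤ Real.exp a := (min_le_right _ _).trans (Real.exp_le_exp.2 ha)
    nlinarith [min_le_left 1 (Real.exp a₀), norm_nonneg (em ν)]
  have h5 : (1 + ‖em ν‖) ^ (-(k + (2 * r + 1)) : ℝ) * (1 + ‖em ν‖) ^ k = (1 + ‖em ν‖) ^ (-(2 * r + 1) : ℝ) := by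
    rw [← Real.rpow_add_natCast (by positivity)]
    congr 1
    ring
  have h6 : an ν ^ (-(1 / 3) : ℝ) ≤ δ ^ (-(1 / 3) : ℝ) := Real.rpow_le_rpow_of_nonpos hδ (hd ν hν hL) (by norm_num)
  rw [neg_add, Real.rpow_add (by positivity)] at hp
  simp only [if_pos hL]
  calc _ ≤ C * δ ^ (-(1 / 3) : ℝ) * (d ^ (-A) * Real.exp (-(A * a)) * (c ^ (-(k + (2 * r + 1)) : ℝ) *
        (1 + ‖em ν‖) ^ (-(k + (2 * r + 1)) : ℝ))) * (1 + ‖em ν‖) ^ k := by
        refine mul_le_mul_of_nonneg_right ((h ν hν l).trans ?_) (by positivity)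
        rw [neg_add]
        exact mul_le_mul (by gcongr) (hp.trans (by gcongr)) (by positivity) (by positivity)
    _ = _ := by rw [← h5]; ring

variable {τ : F → ℂ}

theorem Cf.mul (h : Cf τ) {f : F → ℂ} {B : ℝ} (hf : ∀ ν, ‖f ν‖ ≤ B) : Cf fun ν => τ ν * f ν := by
  obtain ⟨B', hB'⟩ := h.bdd
  obtain ⟨m, hm, hs⟩ := h.supp
  refine ⟨by simp [h.zero], ⟨B' * B, fun ν => ?_⟩, m, hm, fun ν hν => hs ν (left_ne_zero_of_mul hν)⟩
  rw [norm_mul]
  exact mul_le_mul (hB' ν) (hf ν) (norm_nonneg _) ((norm_nonneg _).trans (hB' ν))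

theorem Cf.summable (h : Cf τ) (k : ℕ) (l : Pl F → ℝ) :
    Summable fun ν : F => ‖τ ν‖ * ‖WW ν l‖ * (1 + ‖em ν‖) ^ k := by
  obtain ⟨B, hB⟩ := h.bdd
  obtain ⟨m, hm, hs⟩ := h.supp
  obtain ⟨M, hM, hM0, hMl⟩ := WW_maj (F := F) hm k (-‖l‖) le_rfl
  have hB0 := (norm_nonneg _).trans (hB 0)
  refine (hM.mul_left B).of_nonneg_of_le (fun _ => by positivity) fun ν => ?_
  by_cases h0 : τ ν = 0
  · simp only [h0, norm_zero, zero_mul]
    exact mul_nonneg hB0 (hM0 ν)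
  have h1 := hMl ν (fun e => h0 (e ▸ h.zero)) (hs ν h0) _ l le_rfl fun i =>
    (abs_le.1 ((Real.norm_eq_abs _).symm.trans_le (norm_le_pi_norm l i))).1
  rw [zero_mul, neg_zero, Real.exp_zero, mul_one] at h1
  rw [mul_assoc]
  exact mul_le_mul (hB ν) h1 (by positivity) hB0

theorem besd_cont (h : Cf τ) {W : Type} [TopologicalSpace W] {p : W → Pl F → ℝ} (hp : Continuous p)
    {g : F → W → ℂ} (hg : ∀ ν, Continuous (g ν)) {k : ℕ} (hk : ∀ ν w, ‖g ν w‖ ≤ (1 + ‖em ν‖) ^ k) :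
    Continuous fun w => ∑' ν : F, τ ν * WW ν (p w) * g ν w := by
  obtain ⟨B, hB⟩ := h.bdd
  obtain ⟨m, hm, hs⟩ := h.supp
  have hB0 : 0 ≤ B := (norm_nonneg _).trans (hB 0)
  refine continuous_iff_continuousAt.2 fun w₀ => ?_
  obtain ⟨M, hM, hM0, hle⟩ := WW_maj (F := F) hm k (-‖p w₀‖ - 1) le_rfl
  have hU : {w | ∀ i, -‖p w₀‖ - 1 < p w i} ∈ 𝓝 w₀ := by
    refine eventually_all.2 fun i => (((continuous_apply i).comp hp).tendsto w₀).eventually (lt_mem_nhds ?_)
    have := (abs_le.1 (norm_le_pi_norm (p w₀) i)).1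
    simp only [Function.comp]
    linarith
  refine (continuousOn_tsum (fun ν => Continuous.continuousOn ?_) (hM.mul_left B) fun ν w hw => ?_).continuousAt hU
  · by_cases h0 : ν = 0
    · simp only [h0, h.zero, zero_mul]
      exact continuous_const
    · exact (continuous_const.mul ((continuous_WW h0).comp hp)).mul (hg ν)
  · by_cases h0 : τ ν = 0
    · simpa [h0] using mul_nonneg hB0 (hM0 ν)
    · have h1 := hle ν (fun e => h0 (e ▸ h.zero)) (hs ν h0) _ (p w) le_rfl fun i => (hw i).le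
      rw [zero_mul, neg_zero, Real.exp_zero, mul_one] at h1
      rw [norm_mul, norm_mul, mul_assoc]
      exact mul_le_mul (hB ν) ((mul_le_mul_of_nonneg_left (hk ν w) (norm_nonneg _)).trans h1) (by positivity) hB0

/-- Bes-d.  `continuousOn_tsum` on `{w | ∀ i, a < w.2 i}` -/
theorem continuous_Th (τ₀ : ℂ) (h : Cf τ) : Continuous (Th τ₀ τ) := by
  refine Continuous.add (by fun_prop) (besd_cont h continuous_snd
    (fun ν => (continuous_eZ ν).comp continuous_fst) (k := 0) fun ν w => by simp)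

theorem continuous_fb (e : Bool) (h : Cf τ) : Continuous (fb e τ) := by
  refine besd_cont h continuous_id (fun ν => continuous_const) (k := Fintype.card (Pl F)) fun ν _ => ?_
  rw [norm_prod, ← Finset.card_univ, ← Finset.prod_const]
  refine Finset.prod_le_prod (fun _ _ => norm_nonneg _) fun i _ => ?_
  have h1 := norm_le_pi_norm (em ν) i
  have h2 : ‖pw e (em ν i)‖ = ‖em ν i‖ := by
    cases e <;> simp [pw]
  linarith

theorem Th_per {q : ℕ} (τ₀ : ℂ) (hs : ∀ ν, τ ν ≠ 0 → Dl q ν) (z : Pl F → ℂ) (l : Pl F → ℝ) (x : Lat F q) :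
    Th τ₀ τ (z + em (x : F), l) = Th τ₀ τ (z, l) := by
  unfold Th
  congr 1
  refine tsum_congr fun ν => ?_
  by_cases h0 : τ ν = 0
  · simp [h0]
  · rw [(hs ν h0).per z x.2]

theorem besd_coeff {q : ℕ} {D : Set (Pl F → ℂ)} (hD : IsFD q D) (τ₀ : ℂ) (h : Cf τ)
    (hs : ∀ ν, τ ν ≠ 0 → Dl q ν) {ν : F} (hν : Dl q ν) (l : Pl F → ℝ) :
    ∫ z in D, Th τ₀ τ (z, l) * conj (eZ ν z) = (volume.real D : ℝ) *
      if ν = 0 then τ₀ * (Real.exp (2 / 3 * ∑ i, l i) : ℝ) else τ ν * WW ν l := by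
  have h1 : Summable fun μ => τ μ * WW μ l := by
    refine Summable.of_norm ?_
    simpa using h.summable 0 l
  have h2 : Summable fun μ : F => ‖if μ = 0 then τ₀ * (Real.exp (2 / 3 * ∑ i, l i) : ℝ) else τ μ * WW μ l‖ := by
    refine (h1.update 0 (τ₀ * (Real.exp (2 / 3 * ∑ i, l i) : ℝ))).norm.congr fun μ => ?_
    rw [Function.update_apply]
  rw [← hD.coeff h2 (fun μ hμ => ?_) hν]
  · refine integral_congr_ae (Eventually.of_forall fun z => ?_)
    beta_reduce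
    rw [Summable.tsum_eq_add_tsum_ite (Summable.of_norm (by simpa only [norm_mul, norm_eZ, mul_one] using h2)) 0, Th]
    simp only [if_true, eZ_zero_left, mul_one]
    congr 2
    refine tsum_congr fun μ => ?_
    by_cases h0 : μ = 0
    · simp [h0, h.zero]
    · simp [h0]
  · by_cases h0 : μ = 0
    · exact h0 ▸ Dl.zero q
    · rw [if_neg h0] at hμ
      exact hs μ (left_ne_zero_of_mul hμ)

/-- Bes-d.  Fubini, `integral_tsum`, `IsFD.orth` -/
theorem Th_pair {q : ℕ} (hq : 0 < q) {D : Set (Pl F → ℂ)} (hD : IsFD q D) (τ₀ : ℂ) (h : Cf τ)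
    (hs : ∀ ν, τ ν ≠ 0 → Dl q ν) {ν : F} (hν : Dl q ν) {f : (Pl F → ℝ) → ℂ} (hf : Tst f) :
    ∫ w : X F, Th τ₀ τ w * (D.indicator 1 w.1 * kn ν f w) = (volume.real D : ℝ) *
      if ν = 0 then τ₀ * ∫ l : Pl F → ℝ, (Real.exp (2 / 3 * ∑ i, l i) : ℝ) * f l else τ ν * ∫ l, WW ν l * f l := by
  obtain ⟨B, hB⟩ := hf.bdd
  have hK : IsCompact (closure D ×ˢ Metric.closedBall (0 : Pl F → ℝ) B) :=
    hD.bdd.isCompact_closure.prod (isCompact_closedBall _ _)
  have hc := continuous_Th τ₀ h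
  obtain ⟨C, hC⟩ := hK.exists_bound_of_continuousOn hc.continuousOn
  have hi : Integrable (fun w : X F => Th τ₀ τ w * (D.indicator 1 w.1 * kn ν f w)) (volume.prod volume) := by
    refine Integrable.mono' ((integrable_indicator_iff hK.measurableSet).2
      (integrableOn_const (C := C * B) hK.measure_lt_top.ne)) (Measurable.aestronglyMeasurable ?_)
      (Eventually.of_forall fun w => ?_)
    · exact hc.measurable.mul (((measurable_const.indicator hD.meas).comp measurable_fst).mul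
        ((Complex.continuous_conj.comp ((continuous_eZ ν).comp continuous_fst)).measurable.mul
          (hf.meas.comp measurable_snd)))
    · by_cases hw : w ∈ closure D ×ˢ Metric.closedBall (0 : Pl F → ℝ) B
      · rw [indicator_of_mem hw, norm_mul]
        refine mul_le_mul (hC w hw) ?_ (norm_nonneg _) ((norm_nonneg _).trans (hC w hw))
        by_cases h1 : w.1 ∈ D
        · simpa [h1, kn] using (hB w.2).1
        · simpa [h1] using (norm_nonneg _).trans (hB w.2).1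
      · rw [indicator_of_notMem hw]
        by_cases h1 : w.1 ∈ D
        · have h2 : f w.2 = 0 := by
            by_contra h2
            exact hw ⟨subset_closure h1, mem_closedBall_zero_iff.2 ((hB w.2).2 h2)⟩
          simp [kn, h2]
        · simp [h1]
  have e : ∀ l : Pl F → ℝ, ∫ z : Pl F → ℂ, Th τ₀ τ (z, l) * (D.indicator 1 z * kn ν f (z, l)) =
      ((volume.real D : ℝ) * if ν = 0 then τ₀ * (Real.exp (2 / 3 * ∑ i, l i) : ℝ) else τ ν * WW ν l) * f l := fun l => by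
    rw [← besd_coeff hD τ₀ h hs hν, ← integral_mul_const, ← integral_indicator hD.meas]
    refine integral_congr_ae (Eventually.of_forall fun z => ?_)
    by_cases h1 : z ∈ D
    · simp [h1, kn, mul_assoc]
    · simp [h1]
  rw [Measure.volume_eq_prod, integral_prod_symm _ hi]
  simp only [e]
  split_ifs
  · simp only [mul_assoc, integral_const_mul]
  · simp only [mul_assoc, integral_const_mul]

end Crest.Agent.R27.TH
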