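import Crest.Agent.R27.TH.EmbB

/-! Row 27, block THETA / EMB: Fourier uniqueness in `L²` of a fundamental domain (task Emb-d). -/

set_option autoImplicit false

namespace Crest.Agent.R27.TH

open Crest.NumberTheoryR.EisensteinField Crest.Agent.R27.G NumberField MeasureTheory UnitAddTorus
open scoped ComplexConjugate Classical Real ENNReal InnerProductSpace

/-- the characters are complete in `L²` of any finite measure on the torus -/
theorem embd_torus {ι : Type} [Fintype ι] (ν : Measure (UnitAddTorus ι)) [IsFiniteMeasure ν]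
    {u : UnitAddTorus ι → ℂ} (hu : MemLp u 2 ν) (h0 : ∀ k : ι → ℤ, ∫ t, u t * conj (mFourier k t) ∂ν = 0) :
    u =ᵐ[ν] 0 := by
  have hd := (ContinuousMap.toLp_denseRange ℂ ν ℂ (p := 2) (by simp)).topologicalClosure_map_submodule
    span_mFourier_closure_eq_top
  have hle : (Submodule.span ℂ (Set.range (mFourier (d := ι)))).map
      (ContinuousMap.toLp (E := ℂ) 2 ν ℂ : C(UnitAddTorus ι, ℂ) →ₗ[ℂ] Lp ℂ 2 ν) ≤ (ℂ ∙ hu.toLp u)ᗮ := by
    rw [Submodule.map_span, Submodule.span_le]
    rintro _ ⟨_, ⟨k, rfl⟩, rfl⟩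
    rw [SetLike.mem_coe, Submodule.mem_orthogonal_singleton_iff_inner_left, L2.inner_def, ← h0 k]
    refine integral_congr_ae ?_
    filter_upwards [hu.coeFn_toLp, ContinuousMap.coeFn_toLp (p := 2) (𝕜 := ℂ) ν (mFourier k)] with t h1 h2
    simp only [ContinuousLinearMap.coe_coe, h1, h2, RCLike.inner_apply]
  have h1 := Submodule.topologicalClosure_minimal _ hle (Submodule.isClosed_orthogonal _)
  rw [hd] at h1
  have h2 := Submodule.mem_orthogonal_singleton_iff_inner_left.1 (h1 (Submodule.mem_top (x := hu.toLp u)))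
  rw [inner_self_eq_zero] at h2
  have h3 := hu.coeFn_toLp
  rw [h2] at h3
  exact h3.symm.trans (Lp.coeFn_zero _ _ _)

theorem embd_emb {Y ι : Type} [MeasurableSpace Y] [Fintype ι] (μ : Measure Y) [IsFiniteMeasure μ]
    {T : Y → UnitAddTorus ι} (hT : MeasurableEmbedding T) {u : Y → ℂ} (hu : MemLp u 2 μ)
    (h0 : ∀ k : ι → ℤ, ∫ y, u y * conj (mFourier k (T y)) ∂μ = 0) : u =ᵐ[μ] 0 := by
  have e : Function.extend T u 0 ∘ T = u := funext fun y => hT.injective.extend_apply u 0 y
  have h1 : MemLp (Function.extend T u 0) 2 (μ.map T) := by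
    rw [hT.memLp_map_measure_iff, e]
    exact hu
  have h2 := embd_torus (μ.map T) h1 fun k => by
    rw [hT.integral_map, ← h0 k]
    simp only [hT.injective.extend_apply]
  have h3 := ae_of_ae_map hT.measurable.aemeasurable h2
  filter_upwards [h3] with y hy
  rw [hT.injective.extend_apply] at hy
  exact hy

variable {F : Type} [Field F] [NumberField F] [Algebra K3 F]

/-- the torus `ℂ^r / q 𝓞` and its characters -/
theorem embd_map {q : ℕ} (hq : 0 < q) : ∃ (ι : Type) (_ : Fintype ι) (T : (Pl F → ℂ) → UnitAddTorus ι),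
    Continuous T ∧ (∀ z z', T z = T z' → ∃ x ∈ Lat F q, z' = z + em x) ∧
      ∀ k : ι → ℤ, ∃ ν : F, Dl q ν ∧ ∀ z, eZ ν z = mFourier k (T z) := by
  obtain ⟨b, hb⟩ := exists_emBasis F
  have hq' : (q : ℝ) ≠ 0 := by exact_mod_cast hq.ne'
  refine ⟨_, inferInstance, fun z j => ((b.repr z j / q : ℝ) : UnitAddCircle), ?_, fun z z' h => ?_,
    fun k => ?_⟩
  · refine continuous_pi fun j => (AddCircle.continuous_mk' 1).comp (Continuous.div_const ?_ _)
    exact (b.coord j).continuous_of_finiteDimensional
  · have h1 : ∀ j, ∃ n : ℤ, b.repr z' j - b.repr z j = q * n := fun j => by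
      have h2 := congrFun h j
      simp only at h2
      rw [eq_comm, ← sub_eq_zero, ← AddCircle.coe_sub, AddCircle.coe_eq_zero_iff] at h2
      obtain ⟨n, hn⟩ := h2
      refine ⟨n, ?_⟩
      rw [zsmul_eq_mul, mul_one, ← sub_div, eq_div_iff hq'] at hn
      rw [← hn, mul_comm]
    choose n hn using h1
    refine ⟨_, ⟨∑ j, n j • RingOfIntegers.basis F j, rfl⟩, ?_⟩
    rw [← sub_eq_iff_eq_add', ← b.sum_repr (z' - z)]
    funext i
    simp only [map_sub, Finsupp.sub_apply, hn, hb, Finset.sum_apply, Pi.smul_apply, em, map_mul, map_natCast,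
      map_sum, integralBasis_apply, Finset.mul_sum, Complex.real_smul, zsmul_eq_mul]
    refine Finset.sum_congr rfl fun j _ => ?_
    simp [mul_assoc]
  · obtain ⟨ν, hν⟩ : ∃ ν : F, ∀ j, Algebra.trace ℚ F (ν * integralBasis F j) = k j / q := by
      refine ⟨((Algebra.traceForm ℚ F).toDual (traceForm_nondegenerate ℚ F)).symm
        ((integralBasis F).constr ℚ fun j => (k j / q : ℚ)), fun j => ?_⟩
      rw [← Algebra.traceForm_apply, LinearMap.BilinForm.apply_toDual_symm_apply, Module.Basis.constr_basis]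
    have key : ∀ z : Pl F → ℂ, ∑ i, 2 * (em ν i * z i).re = ∑ j, k j * (b.repr z j / q) := fun z => by
      conv_lhs => rw [← b.sum_repr z]
      simp only [Finset.sum_apply, Pi.smul_apply, Finset.mul_sum, Complex.re_sum, mul_smul_comm,
        Complex.smul_re, smul_eq_mul]
      rw [Finset.sum_comm]
      refine Finset.sum_congr rfl fun j _ => ?_
      have h1 := trace_eq (ν * integralBasis F j)
      rw [hν, em_mul, ← hb] at h1
      simp only [← Finset.mul_sum]
      simp only [Pi.mul_apply, ← Finset.mul_sum] at h1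
      rw [mul_left_comm, ← h1]
      push_cast
      ring
    refine ⟨ν, fun a => ?_, fun z => ?_⟩
    · have h1 : Algebra.trace ℚ F (ν * (q * a)) =
          ((∑ j, (RingOfIntegers.basis F).repr a j * k j : ℤ) : ℚ) := by
        have hq2 : (q : ℚ) ≠ 0 := by exact_mod_cast hq.ne'
        conv_lhs => rw [← (integralBasis F).sum_repr (a : F)]
        simp only [Finset.mul_sum, map_sum, integralBasis_repr_apply]
        push_cast
        refine Finset.sum_congr rfl fun j _ => ?_
        rw [mul_left_comm, ← nsmul_eq_mul, map_nsmul, mul_smul_comm, map_smul, hν]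
        simp only [nsmul_eq_mul, smul_eq_mul, eq_intCast]
        field_simp
      rw [eT, h1]
      simpa [mul_comm] using Complex.exp_int_mul_two_pi_mul_I (∑ j, (RingOfIntegers.basis F).repr a j * k j)
    · rw [eZ_eq, key]
      simp only [mFourier, ContinuousMap.coe_mk, fourier_coe_apply, ← Complex.exp_sum]
      congr 1
      push_cast
      rw [Finset.mul_sum]
      refine Finset.sum_congr rfl fun j _ => ?_
      ring

theorem embd_four {q : ℕ} {D : Set (Pl F → ℂ)} (h : IsFD q D) (hq : 0 < q) {u : (Pl F → ℂ) → ℂ}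
    (hu : MemLp u 2 (volume.restrict D)) (h0 : ∀ ν : F, Dl q ν → ∫ z in D, u z * conj (eZ ν z) = 0) :
    u =ᵐ[volume.restrict D] 0 := by
  obtain ⟨ι, _, T, hT, hi, hk⟩ := embd_map (F := F) hq
  have hinj : Set.InjOn T D := fun z hz z' hz' e => by
    obtain ⟨x, hx, rfl⟩ := hi z z' e
    have := (h.uniq z).unique (y₁ := ⟨x, hx⟩) (y₂ := 0) hz' (by simpa using hz)
    rw [show x = 0 from congrArg Subtype.val this]
    simp
  have hE := hT.continuousOn.measurableEmbedding h.meas hinj
  have hv := MeasurableEmbedding.subtype_coe h.meas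
  have hm : (Measure.comap Subtype.val volume : Measure D).map Subtype.val = volume.restrict D :=
    map_comap_subtype_coe h.meas _
  have : IsFiniteMeasure (Measure.comap Subtype.val volume : Measure D) := by
    constructor
    rw [hv.comap_apply, Subtype.coe_image_univ]
    exact h.volume_ne_top.lt_top
  rw [← hm] at hu h0 ⊢
  rw [hv.memLp_map_measure_iff] at hu
  have h1 := embd_emb _ hE hu fun k => by
    obtain ⟨ν, h1, h2⟩ := hk k
    have h3 := h0 ν h1
    rw [hv.integral_map] at h3
    simpa [h2] using h3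
  exact hv.ae_map_iff.2 h1

end Crest.Agent.R27.TH
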