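import Crest.Agent.R27.TH.EmbC
import Crest.Agent.R27.TH.EmbD
import Crest.Agent.R27.Ku.Emb
import Crest.Agent.R27.Ku.Unit
import Crest.Agent.R27.Ku.Pois

/-! Row 27, THETA, block EMB (owner helper94): embeddings, lattices, fundamental domains, partitions of unity.
The basic API (`em_*`, `an_*`, `lg_*`, `eZ_*`, `trace_eq`, `exists_FD`, `Dl.sub`, `exists_pou`, `Pou.shift`, `Pou.neg`, ...)
is in `EmbA`, `EmbB`, `EmbC`. -/

set_option autoImplicit false

namespace Crest.Agent.R27.TH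

open Crest.Agent.R17 (sgK sg EntBdd gth)
open Crest.Agent.R17.D (Qf KB pw)
open Crest.NumberTheoryR.EisensteinField Crest.Agent.R27.G MeasureTheory Filter Set
open scoped NumberField ComplexConjugate Classical Real Topology MatrixGroups

variable {F : Type} [Field F] [NumberField F] [Algebra K3 F]

theorem em_eq_zero {x : F} (i : Pl F) : em x i = 0 ↔ x = 0 := map_eq_zero i.1

theorem exists_plEquiv : ∃ e : Pl F ⊕ Pl F ≃ (F →+* ℂ), (∀ i, e (Sum.inl i) = i.1) ∧
    ∀ i, e (Sum.inr i) = NumberField.ComplexEmbedding.conjugate i.1 :=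
  ⟨plEquiv F, fun _ => rfl, fun _ => rfl⟩

theorem an_coe (a : 𝓞 F) : an (a : F) = Ideal.absNorm (Ideal.span {a}) := an_int a

theorem InL.an_ge {m : ℕ} (hm : 0 < m) : ∃ δ : ℝ, 0 < δ ∧ ∀ x : F, x ≠ 0 → InL m x → δ ≤ an x :=
  ⟨_, by positivity, fun _ h0 hx => InL.an_ge' hm hx h0⟩

theorem exp_sum_lg {x : F} (hx : x ≠ 0) : Real.exp (2 * ∑ i, lg x i) = an x := by
  rw [sum_lg hx, Real.exp_log (an_pos hx)]

theorem prod_em {x : F} (_ : x ≠ 0) : ∏ i, em x i = ang x * (Real.sqrt (an x) : ℝ) := prod_em' x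

/-- Emb-a.  `Algebra.norm_eq_prod_embeddings` for `F / K3` with `ℂ` a `K3`-algebra through `sgK`;
`Algebra.algebraMap_intNorm` -/
theorem prod_em_coe (a : 𝓞 F) : ∏ i, em (a : F) i = sg (Algebra.intNorm R17.O (𝓞 F) a) := by
  let : Algebra K3 ℂ := sgK.toRingHom.toAlgebra
  have : IsScalarTower ℚ K3 F := IsScalarTower.rat
  have : FiniteDimensional K3 F := Module.Finite.right ℚ K3 F
  have h1 := Algebra.algebraMap_intNorm (A := R17.O) (K := K3) (L := F) a
  have h2 := Algebra.norm_eq_prod_embeddings K3 ℂ (a : F)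
  refine Eq.trans ?_ (h2.symm.trans (congrArg (algebraMap K3 ℂ) h1.symm))
  exact Fintype.prod_equiv
    (⟨fun i => ⟨i.1, i.2⟩, fun σ => ⟨σ.toRingHom, σ.commutes⟩, fun _ => rfl, fun _ => rfl⟩ :
      Pl F ≃ (F →ₐ[K3] ℂ)) _ _ fun _ => rfl

theorem eZ_add (ν : F) (z z' : Pl F → ℂ) : eZ ν (z + z') = eZ ν z * eZ ν z' := eZ_add_right ν z z'

theorem finite_box {m : ℕ} (hm : 0 < m) (B : ℝ) : {x : F | InL m x ∧ ∀ i, ‖em x i‖ ≤ B}.Finite :=
  finite_InL hm B

theorem exists_basis : ∃ b : Module.Basis (Module.Free.ChooseBasisIndex ℤ (𝓞 F)) ℝ (Pl F → ℂ),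
    ∀ j, b j = em ((NumberField.RingOfIntegers.basis F j : 𝓞 F) : F) := by
  obtain ⟨b, hb⟩ := exists_emBasis F
  exact ⟨b, fun j => by rw [hb, NumberField.integralBasis_apply]⟩

theorem embb_int {b : ℝ} (hb : 2 * (Fintype.card (Pl F) : ℝ) < b) :
    Summable fun a : 𝓞 F => ‖em (a : F)‖ ^ (-b) := by
  obtain ⟨e, he⟩ := exists_emBasis F
  set L : Submodule ℤ (Pl F → ℂ) := Submodule.span ℤ (Set.range e) with hL
  have hr : Module.finrank ℤ L = 2 * Fintype.card (Pl F) := by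
    rw [ZLattice.rank ℝ L, Module.finrank_pi_fintype]
    simp [mul_comm]
  have hs := ZLattice.summable_norm_rpow L (-b) (by rw [hr]; push_cast; linarith)
  have hmem : ∀ a : 𝓞 F, em (a : F) ∈ L := fun a => by
    have e1 : Set.range e = (emA (F := F)).toIntLinearMap '' Set.range (NumberField.integralBasis F) := by
      rw [← Set.range_comp]
      exact congrArg _ (funext he)
    rw [hL, e1, ← Submodule.map_span]
    exact ⟨a, (NumberField.mem_span_integralBasis F).2 ⟨a, rfl⟩, rfl⟩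
  have hinj : Function.Injective fun a : 𝓞 F => (⟨_, hmem a⟩ : L) := fun a a' h =>
    NumberField.RingOfIntegers.coe_injective (em_injective (congrArg Subtype.val h))
  exact (hs.comp_injective hinj).congr fun a => rfl

theorem embb_pos {a : 𝓞 F} (h0 : a ≠ 0) : 0 < ‖em (a : F)‖ :=
  norm_pos_iff.2 fun h => h0 (NumberField.RingOfIntegers.coe_injective
    (em_injective (h.trans (by rw [map_zero, em_zero]))))

/-- Emb-b.  `Ku.summable_decay` (or `ZLattice.summable_norm_rpow`) in the coordinates of `exists_basis` -/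
theorem summable_lat {m : ℕ} (hm : 0 < m) {b : ℝ} (hb : 2 * (Fintype.card (Pl F) : ℝ) < b) :
    Summable fun x : F => if InL m x then (1 + ‖em x‖) ^ (-b) else 0 := by
  have hm' : (m : F) ≠ 0 := by exact_mod_cast hm.ne'
  have hmR : (0 : ℝ) < m := by exact_mod_cast hm
  have hb0 : 0 < b := lt_of_le_of_lt (by positivity) hb
  have hinj : Function.Injective fun a : 𝓞 F => (a : F) / m := fun a a' h =>
    NumberField.RingOfIntegers.coe_injective ((div_left_inj' hm').1 h)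
  refine (hinj.summable_iff fun x hx => if_neg ?_).1 ?_
  · rintro ⟨a, ha⟩
    exact hx ⟨a, by simp only [← ha, mul_div_cancel_left₀ _ hm']⟩
  refine Summable.of_norm_bounded_eventually ((embb_int hb).mul_left ((m : ℝ) ^ b)) ?_
  filter_upwards [Filter.eventually_cofinite_ne (0 : 𝓞 F)] with a h0
  have hpos := embb_pos h0
  have he : em (a : F) = (m : ℂ) • em ((a : F) / m) := by
    funext i
    rw [Pi.smul_apply, smul_eq_mul, ← em_natCast m i, ← Pi.mul_apply, ← em_mul, mul_div_cancel₀ _ hm']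
  have hn : ‖em (a : F)‖ / m = ‖em ((a : F) / m)‖ := by
    rw [he, norm_smul, Complex.norm_natCast, mul_div_cancel_left₀ _ hmR.ne']
  rw [Function.comp_apply, if_pos ⟨a, mul_div_cancel₀ _ hm'⟩, Real.norm_of_nonneg (by positivity), ← hn]
  refine (Real.rpow_le_rpow_of_nonpos (div_pos hpos hmR) (le_add_of_nonneg_left zero_le_one)
    (by linarith)).trans_eq ?_
  rw [Real.div_rpow hpos.le hmR.le, Real.rpow_neg hmR.le, div_inv_eq_mul, mul_comm]

/-- Emb-b.  compare with `summable_lat` (`m = 1`) -/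
theorem summable_gauss {a : ℝ} (ha : 0 < a) :
    Summable fun x : 𝓞 F => Real.exp (-(a * ∑ i, ‖em (x : F) i‖ ^ 2)) := by
  set k := Fintype.card (Pl F) + 1 with hk
  have hb : 2 * (Fintype.card (Pl F) : ℝ) < ((2 * k : ℕ) : ℝ) := by
    rw [hk]
    push_cast
    linarith
  refine Summable.of_norm_bounded_eventually ((embb_int hb).mul_left (k.factorial / a ^ k)) ?_
  filter_upwards [Filter.eventually_cofinite_ne (0 : 𝓞 F)] with x h0
  have hpos := embb_pos h0
  have h1 : ‖em (x : F)‖ ≤ Real.sqrt (∑ i, ‖em (x : F) i‖ ^ 2) :=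
    (pi_norm_le_iff_of_nonneg (Real.sqrt_nonneg _)).2 fun i => Real.le_sqrt_of_sq_le
      (Finset.single_le_sum (f := fun i => ‖em (x : F) i‖ ^ 2) (fun _ _ => by positivity) (Finset.mem_univ i))
  have h2 : ‖em (x : F)‖ ^ 2 ≤ ∑ i, ‖em (x : F) i‖ ^ 2 :=
    (pow_le_pow_left₀ hpos.le h1 2).trans_eq (Real.sq_sqrt (by positivity))
  have h3 := (Real.pow_div_factorial_le_exp (a * ‖em (x : F)‖ ^ 2) (by positivity) k).trans
    (Real.exp_le_exp.2 (mul_le_mul_of_nonneg_left h2 ha.le))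
  rw [Real.norm_of_nonneg (Real.exp_pos _).le, Real.exp_neg, Real.rpow_neg hpos.le, Real.rpow_natCast]
  refine (inv_anti₀ (by positivity) h3).trans_eq ?_
  rw [mul_pow, ← pow_mul]
  field_simp

section FD
variable {q : ℕ} {D : Set (Pl F → ℂ)}

theorem IsFD.vol_ne_top (h : IsFD q D) : volume D ≠ ⊤ := h.volume_ne_top

theorem IsFD.vol_pos (h : IsFD q D) (_ : 0 < q) : 0 < volume.real D := h.real_pos

/-- Emb-c.  the translates `D + x` tile the space (`IsFD.fund`, `latEquiv`, `hasSum_integral_iUnion_ae` or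
`IsFD.integral_tsum` with `IsFD.lintegral_eq` for the summability) -/
theorem IsFD.hasSum (h : IsFD q D) (hq : 0 < q) {f : (Pl F → ℂ) → ℂ} (hf : Integrable f) :
    HasSum (fun x : Lat F q => ∫ z in D, f (z + em (x : F))) (∫ z, f z) := by
  have _ := hq
  rw [h.integral_tsum hf]
  refine Summable.hasSum (Summable.of_enorm ?_)
  refine ne_top_of_le_ne_top hf.2.ne ?_
  rw [h.lintegral_eq (fun z => ‖f z‖ₑ)]
  exact ENNReal.tsum_le_tsum fun x => enorm_integral_le_lintegral_enorm _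

/-- Emb-c.  `finite_InL` with `m = 1` -/
theorem IsFD.cover (h : IsFD q D) (hq : 0 < q) {C : Set (Pl F → ℂ)} (hC : Bornology.IsBounded C) :
    ∃ S : Finset (Lat F q), ∀ z ∈ C, ∃ x ∈ S, z + em (x : F) ∈ D := by
  have _ := hq
  obtain ⟨B, hB⟩ := hC.exists_norm_le
  obtain ⟨B', hB'⟩ := h.bdd.exists_norm_le
  have hfin : {x : Lat F q | ∀ i, ‖em (x : F) i‖ ≤ B' + B}.Finite := by
    refine Set.Finite.subset ((finite_InL (F := F) Nat.one_pos (B' + B)).preimage
      (Subtype.val_injective (p := fun x => x ∈ Lat F q)).injOn) ?_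
    rintro ⟨x, a, rfl⟩ hx
    exact ⟨⟨q * a, by simp⟩, hx⟩
  refine ⟨hfin.toFinset, fun z hz => ?_⟩
  obtain ⟨x, hx, -⟩ := h.uniq z
  refine ⟨x, ?_, hx⟩
  rw [Set.Finite.mem_toFinset]
  intro i
  refine (norm_le_pi_norm (em (x : F)) i).trans ?_
  calc ‖em (x : F)‖ = ‖(z + em (x : F)) - z‖ := by rw [add_sub_cancel_left]
    _ ≤ ‖z + em (x : F)‖ + ‖z‖ := norm_sub_le _ _
    _ ≤ B' + B := add_le_add (hB' _ hx) (hB _ hz)

/-- two fundamental domains give the same integral of a periodic function -/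
theorem IsFD.integral_eq {D' : Set (Pl F → ℂ)} (h : IsFD q D) (h' : IsFD q D') (_ : 0 < q)
    {f : (Pl F → ℂ) → ℂ} (hf : ∀ z (x : Lat F q), f (z + em (x : F)) = f z) :
    ∫ z in D, f z = ∫ z in D', f z := h.indep h' fun z x hx => hf z ⟨x, hx⟩

theorem IsFD.orth (h : IsFD q D) (_ : 0 < q) {ν : F} (hν : Dl q ν) (h0 : ν ≠ 0) : ∫ z in D, eZ ν z = 0 :=
  h.orth' hν h0

/-- Emb-d.  Fourier uniqueness.  Extend `u` periodically from `D`, pass to the cube of `q • b`, then to `UnitAddTorus`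
(`UnitAddTorus.mFourierBasis`, `mFourierCoeff_eq_integral`); the characters are `eZ ν`, `ν = ∑ k j b' j / q`, `b'` the
trace dual basis. -/
theorem IsFD.four_uniq (h : IsFD q D) (hq : 0 < q) {u : (Pl F → ℂ) → ℂ} (hu : MemLp u 2 (volume.restrict D))
    (h0 : ∀ ν : F, Dl q ν → ∫ z in D, u z * conj (eZ ν z) = 0) : u =ᵐ[volume.restrict D] 0 :=
  embd_four h hq hu h0

end FD

theorem Dl.zero (q : ℕ) : Dl q (0 : F) := fun _ => by
  rw [← eZ_em, eZ_zero_left]

theorem Dl.mul {q : ℕ} {ν : F} (h : Dl q ν) (a : 𝓞 F) : Dl q (a * ν) := fun b => by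
  have := h (a * b)
  rw [← this]
  congr 1
  push_cast
  ring

theorem Dl.of_inL {q : ℕ} {ν : F} (h : InL q ν) : Dl q ν := h.dl

/-- Emb-e.  a common denominator of the trace dual basis -/
theorem exists_Dl_inL {q : ℕ} (hq : 0 < q) : ∃ m : ℕ, 0 < m ∧ ∀ ν : F, Dl q ν → InL m ν := by
  set b := NumberField.integralBasis F with hb
  have halg : Algebra.IsAlgebraic ℤ F := IsFractionRing.comap_isAlgebraic_iff.2
    (inferInstance : Algebra.IsAlgebraic ℚ F)
  choose m s hm hs using fun i =>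
    IsAlgebraic.exists_nsmul_eq (𝓞 F) (halg.isAlgebraic (b.traceDual i))
  refine ⟨q * ∏ i, m i, Nat.mul_pos hq (Finset.prod_pos fun i _ => Nat.pos_of_ne_zero (hm i)),
    fun ν hν => ?_⟩
  have hk : ∀ i, ∃ k : ℤ, b.traceDual.repr (ν * q) i = k := fun i => by
    obtain ⟨k, hk⟩ := Complex.exp_eq_one_iff.1 (hν (NumberField.RingOfIntegers.basis F i))
    refine ⟨k, ?_⟩
    rw [mul_comm (k : ℂ)] at hk
    have h2 := mul_left_cancel₀ Complex.two_pi_I_ne_zero hk
    rw [Module.Basis.traceDual_repr_apply, Algebra.traceForm_apply, hb,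
      NumberField.integralBasis_apply, mul_assoc]
    exact_mod_cast h2
  choose k hk using hk
  refine ⟨∑ i, (k i : 𝓞 F) * ((∏ j ∈ Finset.univ.erase i, m j : ℕ) : 𝓞 F) * s i, ?_⟩
  have e := b.traceDual.sum_repr (ν * q)
  rw [Nat.cast_mul, mul_comm (q : F), mul_assoc, mul_comm (q : F), ← e, Finset.mul_sum]
  rw [show ((∑ i, (k i : 𝓞 F) * ((∏ j ∈ Finset.univ.erase i, m j : ℕ) : 𝓞 F) * s i : 𝓞 F) : F) =
    algebraMap (𝓞 F) F _ from rfl, map_sum]
  refine Finset.sum_congr rfl fun i _ => ?_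
  rw [hk, map_mul, map_mul, ← hs, map_intCast, map_natCast, nsmul_eq_mul,
    ← Finset.prod_erase_mul _ _ (Finset.mem_univ i), Nat.cast_mul, Rat.smul_def, Rat.cast_intCast]
  ring

/-! ### Partitions of unity -/

theorem embf_fib {G Z : Type} {s : G → Z → Z} {a : Z → ℂ} {q : Z → ℝ} {n : ℝ}
    (hq : ∀ x, a x ≠ 0 → HasSum (fun u => q (s u x)) n) (p : Z → ℝ) (x : Z) :
    HasSum (fun u => ‖a x‖ * p x * q (s u x)) (‖a x‖ * p x * n) ∧
      HasSum (fun u => a x * p x * (q (s u x) : ℂ)) (a x * p x * n) := by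
  by_cases h : a x = 0
  · simp [h, hasSum_zero]
  · exact ⟨(hq x h).mul_left _, (Complex.hasSum_ofReal.2 (hq x h)).mul_left _⟩

/-- Emb-f.  `∑_x a p · n = ∑_x ∑_u a x p x q (u x) = ∑_y ∑_u a y p (u⁻¹ y) q y = m ∑_y a q` -/
theorem pou_tsum {G Z : Type} [Group G] (s : G → Z → Z) (h1 : ∀ x, s 1 x = x)
    (hmul : ∀ u u' x, s (u * u') x = s u (s u' x)) {a : Z → ℂ} {p q : Z → ℝ} {m n : ℝ} (hm : 0 < m)
    (ha : ∀ u x, a (s u x) = a x) (hp0 : ∀ x, 0 ≤ p x) (hq0 : ∀ x, 0 ≤ q x)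
    (hp : ∀ x, a x ≠ 0 → HasSum (fun u => p (s u x)) m) (hq : ∀ x, a x ≠ 0 → HasSum (fun u => q (s u x)) n)
    (hs : Summable fun x => ‖a x‖ * p x) :
    Summable (fun x => ‖a x‖ * q x) ∧ (n : ℂ) * ∑' x, a x * p x = (m : ℂ) * ∑' x, a x * q x := by
  have hinv : ∀ u x, s u⁻¹ (s u x) = x := fun u x => by rw [← hmul, inv_mul_cancel, h1]
  have hE : Function.Involutive fun z : Z × G => (s z.2 z.1, z.2⁻¹) := fun z => by simp [hinv]
  have hT : Summable fun z : Z × G => ‖a z.1‖ * p z.1 * q (s z.2 z.1) := by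
    rw [summable_prod_of_nonneg fun z => mul_nonneg (mul_nonneg (norm_nonneg _) (hp0 _)) (hq0 _)]
    refine ⟨fun x => (embf_fib hq p x).1.summable, ?_⟩
    simp only [fun x => (embf_fib hq p x).1.tsum_eq]
    exact hs.mul_right n
  have hT' : Summable fun z : Z × G => ‖a z.1‖ * q z.1 * p (s z.2 z.1) := by
    refine (hE.toPerm.summable_iff.2 hT).congr fun z => ?_
    simp only [Function.comp, Function.Involutive.coe_toPerm, ha, hinv]
    ring
  have hA : Summable fun z : Z × G => a z.1 * p z.1 * (q (s z.2 z.1) : ℂ) := by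
    refine Summable.of_norm (hT.congr fun z => ?_)
    simp [abs_of_nonneg (hp0 _), abs_of_nonneg (hq0 _)]
  have hA' : HasSum (fun z : Z × G => a z.1 * q z.1 * (p (s z.2 z.1) : ℂ))
      (∑' z : Z × G, a z.1 * p z.1 * (q (s z.2 z.1) : ℂ)) := by
    refine (hE.toPerm.hasSum_iff.2 hA.hasSum).congr_fun fun z => ?_
    simp only [Function.comp, Function.Involutive.coe_toPerm, ha, hinv]
    ring
  have k1 := hA.hasSum.prod_fiberwise fun x => (embf_fib hq p x).2
  have k2 := hA'.prod_fiberwise fun x => (embf_fib hp q x).2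
  constructor
  · have k3 := hT'.hasSum.prod_fiberwise fun x => (embf_fib hp q x).1
    exact (summable_mul_right_iff hm.ne').1 k3.summable
  · rw [mul_comm, ← tsum_mul_right, k1.tsum_eq, mul_comm, ← tsum_mul_right, k2.tsum_eq]

theorem exists_balanced (V : Subgroup (𝓞 F)ˣ) [V.FiniteIndex] : ∃ B : ℝ, ∀ l : Pl F → ℝ, ∃ u ∈ V,
    ∀ i j, |(l + lg ((u : 𝓞 F) : F)) i - (l + lg ((u : 𝓞 F) : F)) j| ≤ B := exists_bal V

theorem finite_balanced (B : ℝ) (l : Pl F → ℝ) : {u : (𝓞 F)ˣ |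
    ∀ i j, |(l + lg ((u : 𝓞 F) : F)) i - (l + lg ((u : 𝓞 F) : F)) j| ≤ B}.Finite := finite_bal' B l

section Pou
variable {V : Subgroup (𝓞 F)ˣ} {η : (Pl F → ℝ) → ℝ}

/-- Emb-g.  `Bal.le_mean`, `sum_lg`, `finite_box` -/
theorem Pou.finite (h : Pou V η) {m : ℕ} (hm : 0 < m) (B : ℝ) :
    {c : F | InL m c ∧ η (lg c) ≠ 0 ∧ an c ≤ B}.Finite := by
  obtain ⟨B', hB'⟩ := h.bal
  refine (finite_box (F := F) hm (Real.exp (B' + |Real.log B|))).subset ?_
  rintro c ⟨h1, h2, h3⟩
  refine ⟨h1, fun i => ?_⟩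
  by_cases hc : c = 0
  · subst hc
    rw [em_zero, Pi.zero_apply, norm_zero]
    exact (Real.exp_pos _).le
  rw [← exp_lg hc, Real.exp_le_exp]
  have hb : Bal B' (lg c) := hB' _ h2
  have h4 := (abs_le.1 (hb.le_mean i)).2
  have h5 : Real.log (an c) ≤ Real.log B := Real.log_le_log (an_pos hc) h3
  have h6 := sum_lg hc
  have h7 : (1 : ℝ) ≤ Fintype.card (Pl F) := by exact_mod_cast card_Pl_pos (F := F)
  have h8 := le_abs_self (Real.log B)
  have h9 := abs_nonneg (Real.log B)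
  have h10 : (∑ j, lg c j) / (Fintype.card (Pl F) : ℝ) ≤ |Real.log B| := by
    rw [div_le_iff₀ (by linarith)]
    nlinarith
  linarith

theorem embg_cos {G : Type} [Group G] (H : Subgroup G) [H.FiniteIndex] {f : G → ℝ}
    (h : ∀ g, HasSum (fun u : H => f (g * u)) 1) : HasSum f (H.index : ℝ) := by
  haveI : Fintype (G ⧸ H) := Fintype.ofFinite _
  have h1 : ∀ q : G ⧸ H, HasSum (fun g : G => if (g : G ⧸ H) = q then f g else 0) 1 := fun q => by
    have hi : Function.Injective fun u : H => q.out * (u : G) := fun u u' huu =>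
      Subtype.ext (mul_left_cancel huu)
    refine (hi.hasSum_iff fun g hg => ?_).1 ?_
    · refine if_neg fun hq => hg ?_
      have h2 : (q.out : G ⧸ H) = g := by rw [hq, QuotientGroup.out_eq']
      exact ⟨⟨q.out⁻¹ * g, QuotientGroup.eq.1 h2⟩, by simp⟩
    · convert h q.out using 2 with u
      simp only [Function.comp]
      rw [if_pos]
      rw [QuotientGroup.mk_mul_of_mem _ u.2, QuotientGroup.out_eq']
  have h2 := hasSum_sum (s := Finset.univ) fun q _ => h1 q
  convert h2 using 1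
  · funext g
    simp
  · simp [Subgroup.index, Nat.card_eq_fintype_card]

/-- Emb-g.  sum over the cosets of `V` in `V'` -/
theorem Pou.index (h : Pou V η) [V.FiniteIndex] {V' : Subgroup (𝓞 F)ˣ} (hV : V ≤ V') (l : Pl F → ℝ) :
    HasSum (fun u : V' => η (l + lg (((u : (𝓞 F)ˣ) : 𝓞 F) : F))) (V.relIndex V' : ℝ) := by
  refine embg_cos (V.subgroupOf V') (f := fun u : V' => η (l + lu (u : (𝓞 F)ˣ))) fun g => ?_
  refine ((Subgroup.subgroupOfEquivOfLe hV).toEquiv.symm.hasSum_iff).1 ?_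
  convert h.sum (l + lu (g : (𝓞 F)ˣ)) using 2 with u
  simp only [Function.comp, Subgroup.coe_mul, lu_mul, add_assoc]
  rfl

theorem embh_exp {a : ℝ} (ha : 0 < a) : Integrable fun x : ℝ => Real.exp (-(a * |x|)) := by
  rw [← integrableOn_univ, ← Iic_union_Ioi (a := (0 : ℝ))]
  refine ((integrableOn_exp_mul_Iic ha 0).congr_fun (fun x hx => ?_) measurableSet_Iic).union
    ((integrableOn_exp_mul_Ioi (neg_lt_zero.2 ha) 0).congr_fun (fun x hx => ?_) measurableSet_Ioi)
  · simp only [abs_of_nonpos (mem_Iic.1 hx), mul_neg, neg_neg]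
  · simp only [abs_of_pos (mem_Ioi.1 hx), neg_mul]

/-- Emb-h.  on the support of `η` the sup norm is `|∑ l| / r + O(1)` (`Bal.le_mean`); compare with `∏ exp (-κ |l i|)` -/
theorem Pou.integrable (h : Pou V η) {a : ℝ} (ha : 0 < a) :
    Integrable fun l : Pl F → ℝ => η l * Real.exp (-(a * |∑ i, l i|)) := by
  obtain ⟨B, hB⟩ := h.bal
  have hi : Integrable fun l : Pl F → ℝ => ∏ i, Real.exp (-(a * |l i|)) :=
    Integrable.fintype_prod (f := fun _ x => Real.exp (-(a * |x|))) fun _ => embh_exp ha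
  refine (hi.const_mul (Real.exp (a * (Fintype.card (Pl F) * B)))).mono'
    (h.meas.mul (by fun_prop)).aestronglyMeasurable (Eventually.of_forall fun l => ?_)
  rw [Real.norm_eq_abs, abs_of_nonneg (mul_nonneg (h.nonneg l) (Real.exp_pos _).le)]
  by_cases h0 : η l = 0
  · rw [h0, zero_mul]
    positivity
  have hr : (0 : ℝ) < Fintype.card (Pl F) := Nat.cast_pos.2 card_Pl_pos
  have h1 : ∑ i, |l i| ≤ ∑ _i : Pl F, (|∑ j, l j| / Fintype.card (Pl F) + B) :=
    Finset.sum_le_sum fun i _ => by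
      have h2 := (abs_sub_abs_le_abs_sub _ _).trans (Bal.le_mean (hB l h0) i)
      rw [abs_div, abs_of_pos hr] at h2
      linarith
  rw [Finset.sum_const, Finset.card_univ, nsmul_eq_mul, mul_add, mul_div_cancel₀ _ hr.ne'] at h1
  rw [← Real.exp_sum, ← Real.exp_add, Finset.sum_neg_distrib, ← Finset.mul_sum]
  refine (mul_le_of_le_one_left (Real.exp_pos _).le (h.le_one l)).trans (Real.exp_le_exp.2 ?_)
  have := mul_le_mul_of_nonneg_left h1 ha.le
  linarith

/-- the integral version of `pou_tsum` -/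
theorem Pou.integral_eq (h : Pou V η) {η' : (Pl F → ℝ) → ℝ} (h' : Pou V η') {G : (Pl F → ℝ) → ℂ}
    (hG : ∀ u ∈ V, ∀ l, G (l + lg ((u : 𝓞 F) : F)) = G l) (_ : AEStronglyMeasurable G)
    (hi : Integrable fun l => (η l : ℂ) * G l) :
    ∫ l, (η l : ℂ) * G l = ∫ l, (η' l : ℂ) * G l := (h'.indep h hG hi).2.symm

end Pou

end Crest.Agent.R27.TH
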