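import Crest.Agent.R27.TH.Bes
import Crest.Agent.R27.TH.Emb

/-! Row 27, THETA, block ME (owner helper94): Mellin transform along the torus, the functional equation. -/

set_option autoImplicit false

namespace Crest.Agent.R27.TH

open Crest.Agent.R17 (sgK sg EntBdd gth)
open Crest.Agent.R17.D (Qf KB pw)
open Crest.NumberTheoryR.EisensteinField Crest.Agent.R27.G MeasureTheory Filter Set
open scoped NumberField ComplexConjugate Classical Real Topology MatrixGroups

theorem mea_exp {σ σ₁ σ₂ : ℝ} (h₁ : σ₁ ≤ σ) (h₂ : σ ≤ σ₂) (t : ℝ) :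
    Real.exp (σ * t) ≤ Real.exp (σ₁ * t) + Real.exp (σ₂ * t) := by
  have a1 := Real.exp_pos (σ₁ * t)
  have a2 := Real.exp_pos (σ₂ * t)
  rcases le_total 0 t with h | h
  · have := Real.exp_le_exp.2 (mul_le_mul_of_nonneg_right h₂ h)
    linarith
  · have := Real.exp_le_exp.2 (mul_le_mul_of_nonpos_right h₁ h)
    linarith

theorem mea_exp' {σ σ₀ : ℝ} (h : |σ - σ₀| ≤ 1) (t : ℝ) :
    Real.exp (σ * t) * |t| ≤ Real.exp ((σ₀ - 2) * t) + Real.exp ((σ₀ + 2) * t) := by
  have h1 : |t| ≤ Real.exp |t| := by linarith [Real.add_one_le_exp |t|]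
  refine (mul_le_mul_of_nonneg_left h1 (Real.exp_pos _).le).trans ?_
  obtain ⟨h2, h3⟩ := abs_le.1 h
  rw [← Real.exp_add]
  rcases le_total 0 t with h | h
  · rw [abs_of_nonneg h, ← add_one_mul]
    exact mea_exp (by linarith) (by linarith) t
  · rw [abs_of_nonpos h, ← sub_eq_add_neg, ← sub_one_mul]
    exact mea_exp (by linarith) (by linarith) t

theorem mea_norm (z s : ℂ) (t : ℝ) : ‖z * Complex.exp (s * t)‖ = ‖z‖ * Real.exp (s.re * t) := by
  rw [norm_mul, Complex.norm_exp]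
  simp

/-- ME-a.  `hasDerivAt_integral_of_dominated_loc_of_deriv_le` on the unit ball around `s₀`, with the bound
`‖φ‖ (exp ((σ₀ + 2) T) + exp ((σ₀ - 2) T))` (`|T| ≤ exp |T|`); in a strip the bound is
`∫ ‖φ‖ (exp (σ₁ T) + exp (σ₂ T))` -/
theorem entBdd_lap {Y : Type} [MeasurableSpace Y] {μ : Measure Y} {φ : Y → ℂ} {T : Y → ℝ} (hT : Measurable T)
    (hφ : ∀ σ : ℝ, Integrable (fun x => φ x * (Real.exp (σ * T x) : ℝ)) μ) :
    EntBdd fun s => ∫ x, φ x * Complex.exp (s * T x) ∂μ := by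
  have h0 : AEStronglyMeasurable φ μ := by simpa using (hφ 0).aestronglyMeasurable
  have hm : ∀ s : ℂ, AEStronglyMeasurable (fun x => φ x * Complex.exp (s * T x)) μ := fun s =>
    h0.mul (Measurable.aestronglyMeasurable (by fun_prop))
  have hn : ∀ σ : ℝ, Integrable (fun x => ‖φ x‖ * Real.exp (σ * T x)) μ := fun σ => by
    simpa only [norm_mul, Complex.norm_real, Real.norm_eq_abs, Real.abs_exp] using (hφ σ).norm
  have hi : ∀ s : ℂ, Integrable (fun x => φ x * Complex.exp (s * T x)) μ := fun s =>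
    (hn s.re).mono' (hm s) (Eventually.of_forall fun x => (mea_norm _ _ _).le)
  refine ⟨fun s₀ => ?_, fun σ₁ σ₂ => ⟨∫ x, ‖φ x‖ * Real.exp (σ₁ * T x) + ‖φ x‖ * Real.exp (σ₂ * T x) ∂μ,
    fun s h₁ h₂ => ?_⟩⟩
  · refine (hasDerivAt_integral_of_dominated_loc_of_deriv_le (s := Metric.ball s₀ 1)
      (F := fun (s : ℂ) x => φ x * Complex.exp (s * T x))
      (F' := fun (s : ℂ) x => φ x * (Complex.exp (s * T x) * T x))
      (bound := fun x => ‖φ x‖ * Real.exp ((s₀.re - 2) * T x) + ‖φ x‖ * Real.exp ((s₀.re + 2) * T x))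
      (Metric.ball_mem_nhds s₀ one_pos) (Eventually.of_forall hm) (hi s₀)
      (h0.mul (Measurable.aestronglyMeasurable (by fun_prop)))
      (Eventually.of_forall fun x s hs => ?_) ((hn _).add (hn _))
      (Eventually.of_forall fun x s _ => ?_)).2.differentiableAt
    · rw [← mul_assoc, norm_mul, mea_norm, Complex.norm_real, Real.norm_eq_abs, mul_assoc, ← mul_add]
      refine mul_le_mul_of_nonneg_left (mea_exp' ?_ _) (norm_nonneg _)
      rw [← Complex.sub_re]
      exact (Complex.abs_re_le_norm _).trans (mem_ball_iff_norm.1 hs).le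
    · exact (hasDerivAt_mul_const (T x : ℂ)).cexp.const_mul (φ x)
  · refine norm_integral_le_of_norm_le ((hn _).add (hn _)) (Eventually.of_forall fun x => ?_)
    rw [mea_norm, ← mul_add]
    exact mul_le_mul_of_nonneg_left (mea_exp h₁ h₂ _) (norm_nonneg _)

/-- ME-b.  `mellin_KB` with `a = 2 s + 1`, `mellin_comp_mul_left`, substitute `y = exp t`
(`integral_image_eq_integral_abs_deriv_smul`, `integrableOn_image_iff_integrableOn_abs_deriv_smul`);
compare `R17.D.mellin_JJ` -/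
theorem mellin_one {s : ℂ} (hs : 0 < s.re) :
    Integrable (fun t : ℝ => (Real.exp t : ℝ) * KB (1 / 3) (2 * π * Real.exp t) * Complex.exp (2 * s * t)) ∧
      4 * π * ∫ t : ℝ, (Real.exp t : ℝ) * KB (1 / 3) (2 * π * Real.exp t) * Complex.exp (2 * s * t) =
        gth s * (27 : ℂ) ^ (-s) := by
  have hπ : (0 : ℝ) < 2 * π := by positivity
  have hm := R17.D.mellin_KB (ν := 1 / 3) (a := 2 * s + 1) (by
    have : ((1 : ℂ) / 3).re = 1 / 3 := by norm_num
    rw [this, abs_of_pos (by norm_num)]; simp; linarith)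
  have hc : MellinConvergent (fun y : ℝ => KB (1 / 3) (2 * π * y)) (2 * s + 1) :=
    (MellinConvergent.comp_mul_left hπ).2 hm.1
  have hd : ∀ t ∈ (univ : Set ℝ), HasDerivWithinAt Real.exp (Real.exp t) univ t :=
    fun t _ => (Real.hasDerivAt_exp t).hasDerivWithinAt
  have himg : Real.exp '' univ = Ioi 0 := by rw [image_univ, Real.range_exp]
  have e : ∀ t : ℝ, |Real.exp t| • (((Real.exp t : ℝ) : ℂ) ^ (2 * s + 1 - 1) •
      KB (1 / 3) (2 * π * Real.exp t)) =
      (Real.exp t : ℝ) * KB (1 / 3) (2 * π * Real.exp t) * Complex.exp (2 * s * t) := fun t => by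
    rw [abs_of_pos (Real.exp_pos t), add_sub_cancel_right, Complex.ofReal_exp,
      Complex.cpow_def_of_ne_zero (Complex.exp_ne_zero _), ← Complex.ofReal_exp,
      ← Complex.ofReal_log (Real.exp_pos t).le, Real.log_exp, Complex.real_smul, smul_eq_mul,
      mul_comm (t : ℂ)]
    ring
  have h1 := (integrableOn_image_iff_integrableOn_abs_deriv_smul MeasurableSet.univ hd
    Real.exp_injective.injOn
    (fun y : ℝ => (y : ℂ) ^ (2 * s + 1 - 1) • KB (1 / 3) (2 * π * y))).1 (by rw [himg]; exact hc)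
  have h2 := integral_image_eq_integral_abs_deriv_smul MeasurableSet.univ hd
    Real.exp_injective.injOn (fun y : ℝ => (y : ℂ) ^ (2 * s + 1 - 1) • KB (1 / 3) (2 * π * y))
  simp only [e, integrableOn_univ, Measure.restrict_univ] at h1 h2
  refine ⟨h1, ?_⟩
  rw [← h2, himg, ← mellin, mellin_comp_mul_left _ _ hπ, hm.2, gth,
    show (2 * s + 1 + 1 / 3) / 2 = s + 2 / 3 by ring, show (2 * s + 1 - 1 / 3) / 2 = s + 1 / 3 by ring]
  have h0 : ((2 * π : ℝ) : ℂ) ≠ 0 := Complex.ofReal_ne_zero.2 hπ.ne'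
  have l1 : ((27 / (4 * π ^ 2) : ℝ) : ℂ) ^ s
      = Complex.exp (((Real.log 27 - 2 * Real.log (2 * π) : ℝ) : ℂ) * s) := by
    rw [Complex.cpow_def_of_ne_zero (Complex.ofReal_ne_zero.2 (by positivity)),
      ← Complex.ofReal_log (by positivity), Real.log_div (by norm_num) (by positivity),
      show 4 * π ^ 2 = (2 * π) ^ 2 by ring, Real.log_pow]
    norm_num
  have l2 : (27 : ℂ) ^ (-s) = Complex.exp ((Real.log 27 : ℝ) * -s) := by
    rw [Complex.cpow_def_of_ne_zero (by norm_num), Complex.ofReal_log (by norm_num)]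
    norm_num
  have l3 : ((2 * π : ℝ) : ℂ) ^ (-(2 * s + 1))
      = Complex.exp ((Real.log (2 * π) : ℝ) * -(2 * s)) * ((2 * π : ℝ) : ℂ)⁻¹ := by
    rw [show -(2 * s + 1) = -(2 * s) + -1 by ring, Complex.cpow_add _ _ h0, Complex.cpow_neg_one,
      Complex.cpow_def_of_ne_zero h0, ← Complex.ofReal_log hπ.le]
  have l4 : Complex.exp (((Real.log 27 - 2 * Real.log (2 * π) : ℝ) : ℂ) * s) *
      Complex.exp ((Real.log 27 : ℝ) * -s) = Complex.exp ((Real.log (2 * π) : ℝ) * -(2 * s)) := by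
    rw [← Complex.exp_add]; congr 1; push_cast; ring
  have hp : (π : ℂ) ≠ 0 := Complex.ofReal_ne_zero.2 Real.pi_ne_zero
  rw [l1, l2, l3, ← l4, smul_eq_mul]
  push_cast
  field_simp
  ring

theorem integrable_cexp {Y : Type} [MeasurableSpace Y] {μ : Measure Y} {φ : Y → ℂ} {T : Y → ℝ} (hT : Measurable T)
    {s : ℂ} (h : Integrable (fun x => φ x * (Real.exp (s.re * T x) : ℝ)) μ) :
    Integrable (fun x => φ x * Complex.exp (s * T x)) μ := by
  refine (h.mul_bdd (g := fun x => Complex.exp ((s.im * T x : ℝ) * Complex.I)) (c := 1) (by fun_prop)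
    (Eventually.of_forall fun x => (Complex.norm_exp_ofReal_mul_I _).le)).congr (Eventually.of_forall fun x => ?_)
  simp only
  rw [mul_assoc, Complex.ofReal_exp, ← Complex.exp_add]
  congr 2
  conv_rhs => rw [← Complex.re_add_im s]
  push_cast
  ring

theorem entBdd_mul {f : ℂ → ℂ} (h : EntBdd f) (c : ℂ) : EntBdd fun s => c * f s :=
  ⟨h.1.const_mul c, fun σ₁ σ₂ => (h.2 σ₁ σ₂).imp' (fun B => ‖c‖ * B) fun B hB s h1 h2 => by
    rw [norm_mul]
    exact mul_le_mul_of_nonneg_left (hB s h1 h2) (norm_nonneg _)⟩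

/-- unfolding of a series -/
theorem GP.integral_tsum {Γ Y α : Type} [Group Γ] [Countable Γ] [Countable α] [MeasurableSpace Y] {μ : Measure Y}
    {act : Γ → Y → Y} {β : Y → ℝ} (h : GP μ act β) {g : α → Y → ℂ} (hg : ∀ a, Integrable (g a) μ)
    (hs : Summable fun a => ∫ w, ‖g a w‖ ∂μ) (hw : ∀ w, Summable fun p : α × Γ => g p.1 (act p.2 w)) :
    ∫ w, (β w : ℂ) * ∑' p : α × Γ, g p.1 (act p.2 w) ∂μ = ∑' a, ∫ w, g a w ∂μ := by
  have hl : ∑' a, ∫⁻ w, ‖g a w‖ₑ ∂μ ≠ ⊤ := by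
    simp only [← ofReal_integral_norm_eq_lintegral_enorm (hg _)]
    rw [← ENNReal.ofReal_tsum_of_nonneg (fun a => integral_nonneg fun _ => norm_nonneg _) hs]
    exact ENNReal.ofReal_ne_top
  have hG : Integrable (fun w => ∑' a, g a w) μ := by
    refine ⟨(AEMeasurable.tsum fun a => (hg a).1.aemeasurable).aestronglyMeasurable, ?_⟩
    refine lt_of_le_of_lt (lintegral_mono fun w => enorm_tsum_le_tsum_enorm) ?_
    rw [lintegral_tsum fun a => (hg a).1.enorm]
    exact hl.lt_top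
  rw [integral_tsum_of_summable_integral_norm hg hs, ← (h.integral hG).2]
  refine integral_congr_ae (Eventually.of_forall fun w => ?_)
  simp only
  rw [← (Equiv.prodComm Γ α).tsum_eq]
  exact congrArg _ ((Equiv.prodComm Γ α).summable_iff.2 (hw w)).tsum_prod

variable {F : Type} [Field F] [NumberField F] [Algebra K3 F]

/-- ME-c.  absolute convergence of the Dirichlet series.  `exists_bal`: choose `u a ∈ V` with `x a = u a * ν a`
balanced; `a ↦ x a` is injective (`Par.inj`), `an (x a) = an (ν a)`, `1 + ‖em (x a)‖ ≤ C * an (x a) ^ (1 / (2 r))`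
(`Bal.le_mean`, `sum_lg`, `InL.an_ge`); `summable_lat` with `b = 2 r σ` -/
theorem Par.summable {V : Subgroup (𝓞 F)ˣ} [V.FiniteIndex] {b : F → ℂ} {α : Type} {ν : α → F} (h : Par V b ν)
    {m : ℕ} (hm : 0 < m) {σ : ℝ} (hσ : 1 < σ) :
    Summable fun a => if InL m (ν a) then an (ν a) ^ (-σ) else 0 := by
  obtain ⟨B, hB⟩ := exists_bal V
  choose u hu hbal using fun a => hB (lg (ν a))
  obtain ⟨δ, hδ, hδ'⟩ := InL.an_ge (F := F) hm
  have hr : (0 : ℝ) < Fintype.card (Pl F) := by exact_mod_cast card_Pl_pos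
  set r : ℝ := (Fintype.card (Pl F) : ℝ) with hr'
  let x : α → F := fun a => ((u a : 𝓞 F) : F) * ν a
  have hinj : Function.Injective x := fun a a' e => by
    refine h.inj a' a ((u a)⁻¹ * u a') (V.mul_mem (V.inv_mem (hu a)) (hu a')) ?_
    have e1 : (((u a)⁻¹ : (𝓞 F)ˣ) : 𝓞 F) * (u a : 𝓞 F) = 1 := Units.inv_mul _
    have e2 := congrArg (fun z : 𝓞 F => (z : F)) e1
    simp only [x] at e
    push_cast at e2 ⊢
    rw [mul_assoc, ← e, ← mul_assoc, e2, one_mul]
  have hs := ((summable_lat (F := F) hm (b := 2 * r * σ) (by nlinarith)).comp_injective hinj).mul_left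
    ((Real.exp B + δ ^ (-(1 / (2 * r)))) ^ (2 * r * σ))
  refine Summable.of_nonneg_of_le (fun a => ?_) (fun a => ?_) hs
  · split_ifs
    · exact Real.rpow_nonneg (an_nonneg _) _
    · exact le_rfl
  have hx0 : x a ≠ 0 := mul_ne_zero (unit_ne _) (h.ne a)
  have hp := an_pos hx0
  simp only [Function.comp]
  split_ifs with h1 h2
  · have ean : an (x a) = an (ν a) := by simp only [x, an_mul, an_unit, one_mul]
    have elg : lg (ν a) + lu (u a) = lg (x a) := by
      rw [add_comm]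
      exact (lg_mul (unit_ne _) (h.ne a)).symm
    have hb := hbal a
    rw [elg] at hb
    set t : ℝ := an (x a) ^ (1 / (2 * r)) with ht
    have ht0 : 0 < t := Real.rpow_pos_of_pos hp _
    have b1 : ‖em (x a)‖ ≤ Real.exp B * t := by
      refine (pi_norm_le_iff_of_nonneg (by positivity)).2 fun i => ?_
      have h3 := (abs_le.1 (hb.le_mean i)).2
      rw [← exp_lg hx0, ht, Real.rpow_def_of_pos hp, ← Real.exp_add, ← sum_lg hx0]
      refine Real.exp_le_exp.2 ?_
      have : 2 * (∑ i, lg (x a) i) * (1 / (2 * r)) = (∑ i, lg (x a) i) / r := by field_simp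
      rw [this]
      linarith
    have b2 : 1 ≤ δ ^ (-(1 / (2 * r))) * t := by
      rw [Real.rpow_neg hδ.le, ← div_eq_inv_mul, one_le_div (Real.rpow_pos_of_pos hδ _)]
      exact Real.rpow_le_rpow hδ.le (hδ' _ hx0 h2) (by positivity)
    have hC : 0 < Real.exp B + δ ^ (-(1 / (2 * r))) := by positivity
    have b3 : 1 + ‖em (x a)‖ ≤ (Real.exp B + δ ^ (-(1 / (2 * r)))) * t := by linarith
    have b4 := Real.rpow_le_rpow (by positivity) b3 (show 0 ≤ 2 * r * σ by positivity)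
    rw [Real.mul_rpow hC.le ht0.le, ht, ← Real.rpow_mul hp.le,
      show 1 / (2 * r) * (2 * r * σ) = σ by field_simp] at b4
    rw [← ean, Real.rpow_neg hp.le, Real.rpow_neg (x := 1 + _) (by positivity), ← div_eq_mul_inv,
      le_div_iff₀ (by positivity), inv_mul_le_iff₀ (Real.rpow_pos_of_pos hp _), mul_comm (an _ ^ _)]
    exact b4
  · exact absurd (h1.mul_int _) h2
  · positivity
  · simp

/-- rapid decay at `+∞` on balanced vectors -/
def Dec (φ : (Pl F → ℝ) → ℂ) : Prop :=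
  ∀ S₀ A B : ℝ, 0 ≤ A → ∃ C : ℝ, ∀ l, Bal B l → S₀ ≤ ∑ i, l i → ‖φ l‖ ≤ C * Real.exp (-(A * ∑ i, l i))

/-- ME-d.  `WW_maj` with `k = r`, height `a = ∑ l / r - B` (`Bal.le_mean`), exponent `A r`;
`‖pw e y‖ = ‖y‖` (`R17.D.lip_norm_pw` or `cases e`), `tsum_of_norm_bounded` -/
theorem dec_fb (e : Bool) {b : F → ℂ} (hb : Cf b) : Dec (fb e b) := by
  intro S₀ A B hA
  obtain ⟨B', hB'⟩ := hb.bdd
  obtain ⟨m, hm, hs⟩ := hb.supp
  have hr : (0 : ℝ) < Fintype.card (Pl F) := by exact_mod_cast card_Pl_pos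
  obtain ⟨M, hM, hM0, hMl⟩ := WW_maj (F := F) hm (Fintype.card (Pl F)) (S₀ / Fintype.card (Pl F) - B)
    (A := A * Fintype.card (Pl F)) (by positivity)
  have hB0 := (norm_nonneg _).trans (hB' 0)
  refine ⟨(∑' ν, B' * M ν) * Real.exp (A * Fintype.card (Pl F) * B), fun l hl hS => ?_⟩
  have e1 : Real.exp (A * Fintype.card (Pl F) * B) * Real.exp (-(A * ∑ i, l i)) =
      Real.exp (-(A * Fintype.card (Pl F) * ((∑ i, l i) / Fintype.card (Pl F) - B))) := by
    rw [← Real.exp_add]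
    congr 1
    field_simp
    ring
  rw [mul_assoc, e1]
  refine tsum_of_norm_bounded ((hM.mul_left B').hasSum.mul_right _) fun ν => ?_
  by_cases h0 : b ν = 0
  · simp only [h0, zero_mul, norm_zero]
    have := hM0 ν
    positivity
  have hν : ν ≠ 0 := fun h => h0 (h ▸ hb.zero)
  have h1 := hMl ν hν (hs ν h0) ((∑ i, l i) / Fintype.card (Pl F) - B) l (by gcongr)
    fun i => by linarith [(abs_le.1 (hl.le_mean i)).1]
  have h2 : ‖∏ i, pw e (em ν i)‖ ≤ (1 + ‖em ν‖) ^ Fintype.card (Pl F) := by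
    rw [norm_prod, ← Finset.card_univ, ← Finset.prod_const]
    refine Finset.prod_le_prod (fun _ _ => norm_nonneg _) fun i _ => ?_
    have : ‖pw e (em ν i)‖ = ‖em ν i‖ := by cases e <;> simp [pw]
    linarith [norm_le_pi_norm (em ν) i]
  rw [norm_mul, norm_mul, mul_assoc, mul_assoc]
  exact mul_le_mul (hB' ν) ((mul_le_mul_of_nonneg_left h2 (norm_nonneg _)).trans h1) (by positivity) hB0

/-- ME-e.  on the support of `η`: `‖φ l‖ exp (σ ∑ l) ≤ C exp (-|∑ l|)` (for `∑ l ≥ 0` by `hφ`, for `∑ l ≤ 0` by `hψ`;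
`-l - a` is balanced), `Pou.integrable` -/
theorem Pou.integrable_dec {V : Subgroup (𝓞 F)ˣ} {η : (Pl F → ℝ) → ℝ} (h : Pou V η) {φ ψ : (Pl F → ℝ) → ℂ}
    (hm : Continuous φ) (hφ : Dec φ) (hψ : Dec ψ) {κ : ℝ} {a : Pl F → ℝ}
    (hr : ∀ l, ‖φ l‖ = κ * Real.exp (-(2 * ∑ i, l i)) * ‖ψ (-l - a)‖) (σ : ℝ) :
    Integrable fun l => (η l : ℂ) * φ l * (Real.exp (σ * (2 * ∑ i, l i)) : ℝ) := by
  obtain ⟨B, hB⟩ := h.bal
  obtain ⟨C₁, h1⟩ := hφ 0 (2 * |σ| + 1) B (by positivity)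
  obtain ⟨C₂, h2⟩ := hψ (-∑ i, a i) (2 * |σ| + 3) (B + 2 * ‖a‖) (by positivity)
  refine ((h.integrable one_pos).const_mul (|C₁| + |κ| * |C₂| * Real.exp ((2 * |σ| + 3) * ∑ i, a i))).mono'
    (((Complex.measurable_ofReal.comp h.meas).mul hm.measurable).mul (by fun_prop)).aestronglyMeasurable
    (Eventually.of_forall fun l => ?_)
  by_cases h0 : η l = 0
  · simp [h0]
  rw [norm_mul, norm_mul, Complex.norm_real, Complex.norm_real, Real.norm_of_nonneg (h.nonneg l),
    Real.norm_of_nonneg (Real.exp_pos _).le, mul_assoc, mul_left_comm _ (η l), one_mul]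
  refine mul_le_mul_of_nonneg_left ?_ (h.nonneg l)
  have hs1 := le_abs_self σ
  have hs2 := neg_abs_le σ
  rcases le_total 0 (∑ i, l i) with hS | hS
  · calc _ ≤ |C₁| * Real.exp (-((2 * |σ| + 1) * ∑ i, l i)) * Real.exp (σ * (2 * ∑ i, l i)) := by
          gcongr
          exact (h1 l (hB l h0) hS).trans (by gcongr; exact le_abs_self _)
      _ ≤ |C₁| * Real.exp (-|∑ i, l i|) := by
          rw [mul_assoc, ← Real.exp_add, abs_of_nonneg hS]
          gcongr
          nlinarith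
      _ ≤ _ := by
          gcongr
          exact le_add_of_nonneg_right (by positivity)
  · have hb : Bal (B + 2 * ‖a‖) (-l - a) := fun i j => by
      have := abs_le.1 (hB l h0 i j)
      have := abs_le.1 ((Real.norm_eq_abs _).symm.trans_le (norm_le_pi_norm a i))
      have := abs_le.1 ((Real.norm_eq_abs _).symm.trans_le (norm_le_pi_norm a j))
      simp only [Pi.sub_apply, Pi.neg_apply]
      rw [abs_le]
      constructor <;> linarith
    have e : ∑ i, (-l - a) i = -∑ i, l i - ∑ i, a i := by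
      simp only [Pi.sub_apply, Pi.neg_apply, Finset.sum_sub_distrib, Finset.sum_neg_distrib]
    have h3 := h2 _ hb (by rw [e]; linarith)
    rw [e] at h3
    calc _ ≤ |κ| * Real.exp (-(2 * ∑ i, l i)) * (|C₂| * Real.exp (-((2 * |σ| + 3) * (-∑ i, l i - ∑ i, a i)))) *
          Real.exp (σ * (2 * ∑ i, l i)) := by
          rw [hr]
          gcongr
          · exact le_abs_self _
          · exact h3.trans (by gcongr; exact le_abs_self _)
      _ = |κ| * |C₂| * Real.exp ((2 * |σ| + 3) * ∑ i, a i) * Real.exp ((2 * |σ| + 1 + 2 * σ) * ∑ i, l i) := by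
          have : Real.exp (-(2 * ∑ i, l i)) * Real.exp (-((2 * |σ| + 3) * (-∑ i, l i - ∑ i, a i))) *
              Real.exp (σ * (2 * ∑ i, l i)) =
              Real.exp ((2 * |σ| + 3) * ∑ i, a i) * Real.exp ((2 * |σ| + 1 + 2 * σ) * ∑ i, l i) := by
            simp only [← Real.exp_add]
            congr 1
            ring
          linear_combination |κ| * |C₂| * this
      _ ≤ |κ| * |C₂| * Real.exp ((2 * |σ| + 3) * ∑ i, a i) * Real.exp (-|∑ i, l i|) := by
          rw [abs_of_nonpos hS]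
          gcongr
          nlinarith
      _ ≤ _ := by
          gcongr
          exact le_add_of_nonneg_left (abs_nonneg _)

theorem WW_eq {ν : F} (hν : ν ≠ 0) (l : Pl F → ℝ) :
    WW ν l = (an ν ^ (-(1 / 3) : ℝ) : ℝ) * WW (1 : F) (l + lg ν) := by
  have e : an ν ^ (-(1 / 3) : ℝ) = ∏ i, ‖em ν i‖ ^ (-(2 / 3) : ℝ) := by
    rw [an, ← Real.finsetProd_rpow _ _ fun i _ => sq_nonneg _]
    refine Finset.prod_congr rfl fun i _ => ?_
    rw [← Real.rpow_natCast, ← Real.rpow_mul (norm_nonneg _)]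
    norm_num
  rw [e, WW, WW, Complex.ofReal_prod, ← Finset.prod_mul_distrib]
  refine Finset.prod_congr rfl fun i _ => ?_
  have h0 := norm_em_pos hν i
  have e1 : ‖em ν i‖ ^ (1 / 3 : ℝ) = ‖em ν i‖ ^ (-(2 / 3) : ℝ) * ‖em ν i‖ := by
    rw [← Real.rpow_add_one h0.ne']
    norm_num
  simp only [em_one, Pi.one_apply, norm_one, Real.one_rpow, Pi.add_apply, Real.exp_add, exp_lg hν, e1, mul_one,
    one_mul]
  rw [show 2 * π * (Real.exp (l i) * ‖em ν i‖) = 2 * π * ‖em ν i‖ * Real.exp (l i) by ring]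
  push_cast
  ring

theorem mellin_WW_one {s : ℂ} (hs : 0 < s.re) :
    Integrable (fun l : Pl F → ℝ => WW (1 : F) l * Complex.exp (s * (2 * ∑ i, l i : ℝ))) ∧
      (4 * π) ^ Fintype.card (Pl F) * ∫ l : Pl F → ℝ, WW (1 : F) l * Complex.exp (s * (2 * ∑ i, l i : ℝ)) =
        (gth s * (27 : ℂ) ^ (-s)) ^ Fintype.card (Pl F) := by
  obtain ⟨h1, h2⟩ := mellin_one hs
  have e : (fun l : Pl F → ℝ => WW (1 : F) l * Complex.exp (s * (2 * ∑ i, l i : ℝ))) = fun l => ∏ i,
      ((Real.exp (l i) : ℝ) * KB (1 / 3) (2 * π * Real.exp (l i)) * Complex.exp (2 * s * l i)) := by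
    funext l
    rw [Finset.prod_mul_distrib, ← Complex.exp_sum, WW]
    simp only [em_one, Pi.one_apply, norm_one, Real.one_rpow, mul_one, one_mul]
    congr 2
    push_cast
    rw [← Finset.mul_sum]
    ring
  rw [e]
  refine ⟨Integrable.fintype_prod (f := fun _ t => (Real.exp t : ℝ) * KB (1 / 3) (2 * π * Real.exp t) *
    Complex.exp (2 * s * t)) fun _ => h1, ?_⟩
  rw [integral_fintype_prod_volume_eq_pow (fun t : ℝ => ((Real.exp t : ℝ) : ℂ) * KB (1 / 3) (2 * π * Real.exp t) *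
    Complex.exp (2 * s * t)), ← mul_pow, h2]

theorem WW_mul_exp {ν : F} (hν : ν ≠ 0) (s : ℂ) (l : Pl F → ℝ) :
    WW ν l * Complex.exp (s * (2 * ∑ i, l i : ℝ)) = (an ν ^ (-(1 / 3) : ℝ) : ℝ) * (an ν : ℂ) ^ (-s) *
      (WW (1 : F) (l + lg ν) * Complex.exp (s * (2 * ∑ i, (l + lg ν) i : ℝ))) := by
  have e : (an ν : ℂ) ^ (-s) * Complex.exp (s * (2 * ∑ i, (l + lg ν) i : ℝ)) =
      Complex.exp (s * (2 * ∑ i, l i : ℝ)) := by
    rw [Complex.cpow_def_of_ne_zero (Complex.ofReal_ne_zero.2 (an_pos hν).ne'), ← Complex.exp_add,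
      ← Complex.ofReal_log (an_nonneg ν), ← sum_lg hν]
    simp only [Pi.add_apply, Finset.sum_add_distrib]
    congr 1
    push_cast
    ring
  rw [WW_eq hν, ← e]
  ring

theorem prod_pw (e : Bool) (x : F) : ∏ i, pw e (em x i) = pw e (ang x) * (Real.sqrt (an x) : ℝ) := by
  cases e
  · simp only [pw, Bool.false_eq_true, if_false]
    rw [← map_prod, prod_em', map_mul, Complex.conj_ofReal]
  · simp only [pw, if_true]
    exact prod_em' x

variable {V : Subgroup (𝓞 F)ˣ} {η : (Pl F → ℝ) → ℝ} {b : F → ℂ}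

theorem fb_unit (e : Bool) (hV : ∀ u ∈ V, ang ((u : 𝓞 F) : F) = 1)
    (hi : ∀ u ∈ V, ∀ ν, b (((u : 𝓞 F) : F) * ν) = b ν) {u : (𝓞 F)ˣ} (hu : u ∈ V) (l : Pl F → ℝ) :
    fb e b (l + lu u) = fb e b l := by
  rw [fb, fb, ← (Equiv.mulLeft₀ ((u : 𝓞 F) : F) (unit_ne u)).tsum_eq fun ν => b ν * WW ν l * ∏ i, pw e (em ν i)]
  refine tsum_congr fun ν => ?_
  simp only [Equiv.mulLeft₀_apply]
  rw [hi u hu, ← WW_unit, prod_pw, prod_pw, ang_mul, an_mul, hV u hu, an_unit, one_mul, one_mul]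

/-- the Mellin transform -/
noncomputable def La (η : (Pl F → ℝ) → ℝ) (e : Bool) (b : F → ℂ) (s : ℂ) : ℂ :=
  (4 * π) ^ Fintype.card (Pl F) * ∫ l, (η l : ℂ) * fb e b l * Complex.exp (s * (2 * ∑ i, l i : ℝ))

theorem La_eq [V.FiniteIndex] (hη : Pou V η) (e : Bool) (hV : ∀ u ∈ V, ang ((u : 𝓞 F) : F) = 1) (hb : Cf b)
    (hi : ∀ u ∈ V, ∀ ν, b (((u : 𝓞 F) : F) * ν) = b ν) {α : Type} {ν : α → F} (h : Par V b ν) {s : ℂ}
    (hs : 2 < s.re) : La η e b s = gth s ^ Fintype.card (Pl F) *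
      ∑' a, b (ν a) * pw e (ang (ν a)) * (an (ν a) ^ (1 / 6 : ℝ) : ℝ) *
        ((27 ^ Fintype.card (Pl F) * an (ν a) : ℝ) : ℂ) ^ (-s) := by
  obtain ⟨h1, h2⟩ := mellin_WW_one (F := F) (s := s) (by linarith)
  obtain ⟨B, hB⟩ := hb.bdd
  obtain ⟨m, hm, hsupp⟩ := hb.supp
  have hinj : Function.Injective ν := fun a a' e => (h.inj a a' 1 V.one_mem (by simp [e])).symm
  have : Countable α := hinj.countable
  set K : (Pl F → ℝ) → ℂ := fun l => WW (1 : F) l * Complex.exp (s * (2 * ∑ i, l i : ℝ)) with hK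
  set c : α → ℂ := fun a => b (ν a) * pw e (ang (ν a)) * (an (ν a) ^ (1 / 6 : ℝ) : ℝ) * (an (ν a) : ℂ) ^ (-s) with hc
  set T : (Pl F → ℝ) → F → ℂ := fun l x =>
    b x * WW x l * (∏ i, pw e (em x i)) * Complex.exp (s * (2 * ∑ i, l i : ℝ)) with hT
  have e1 : ∀ a l, T l (ν a) = c a * K (l + lg (ν a)) := fun a l => by
    have e0 : ((an (ν a) ^ (1 / 6 : ℝ) : ℝ) : ℂ) =
        (Real.sqrt (an (ν a)) : ℝ) * (an (ν a) ^ (-(1 / 3) : ℝ) : ℝ) := by
      rw [← Complex.ofReal_mul, Real.sqrt_eq_rpow, ← Real.rpow_add (an_pos (h.ne a))]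
      norm_num
    simp only [hT, hc, hK, prod_pw, e0]
    linear_combination b (ν a) * pw e (ang (ν a)) * (Real.sqrt (an (ν a)) : ℝ) * WW_mul_exp (h.ne a) s l
  have e2 : ∀ (u : V) l x, T l ((((u : (𝓞 F)ˣ) : 𝓞 F) : F) * x) = T (l + lu u) x := fun u l x => by
    simp only [hT, hi u u.2, ← WW_unit, prod_pw, ang_mul, an_mul, hV u u.2, an_unit, one_mul, Pi.add_apply,
      Finset.sum_add_distrib, sum_lg_unit, add_zero]
  let j : α × V → F := fun p => (((p.2 : (𝓞 F)ˣ) : 𝓞 F) : F) * ν p.1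
  have hj : Function.Injective j := by
    rintro ⟨a, u⟩ ⟨a', u'⟩ e
    have e' : ν a' = ((((u' : (𝓞 F)ˣ)⁻¹ * u : (𝓞 F)ˣ) : 𝓞 F) : F) * ν a := by
      refine mul_left_cancel₀ (unit_ne (u' : (𝓞 F)ˣ)) ?_
      rw [← mul_assoc, ← map_mul, ← Units.val_mul, mul_inv_cancel_left]
      exact e.symm
    obtain rfl := h.inj _ _ _ (V.mul_mem (V.inv_mem u'.2) u.2) e'
    have e3 := mul_right_cancel₀ (h.ne a') e
    exact Prod.ext rfl (Subtype.ext (Units.ext (by exact_mod_cast e3)))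
  have hTs : ∀ l, Summable (T l) := fun l => by
    refine ((hb.summable (Fintype.card (Pl F)) l).mul_right ‖Complex.exp (s * (2 * ∑ i, l i : ℝ))‖).of_norm_bounded
      fun x => ?_
    simp only [hT, norm_mul, norm_prod]
    gcongr
    rw [← Finset.card_univ, ← Finset.prod_const]
    refine Finset.prod_le_prod (fun _ _ => norm_nonneg _) fun i _ => ?_
    have : ‖pw e (em x i)‖ = ‖em x i‖ := by cases e <;> simp [pw]
    linarith [norm_le_pi_norm (em x) i]
  have e3 : ∀ l, fb e b l * Complex.exp (s * (2 * ∑ i, l i : ℝ)) =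
      ∑' p : α × V, c p.1 * K (l + lu p.2 + lg (ν p.1)) := fun l => by
    rw [fb, ← tsum_mul_right, ← hj.tsum_eq (f := T l)]
    · exact tsum_congr fun p => by rw [e2, e1]
    · intro x hx
      have : b x ≠ 0 := fun h0 => hx (by simp [hT, h0])
      obtain ⟨a, u, hu, rfl⟩ := h.surj x this
      exact ⟨(a, ⟨u, hu⟩), rfl⟩
  have hcs : Summable fun a => ‖c a‖ := by
    refine ((h.summable hm (σ := s.re - 1 / 6) (by linarith)).mul_left B).of_nonneg_of_le (fun _ => norm_nonneg _)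
      fun a => ?_
    by_cases h0 : b (ν a) = 0
    · simp only [hc, h0, zero_mul, norm_zero]
      have := (norm_nonneg _).trans (hB 0)
      have := an_nonneg (ν a)
      split_ifs <;> positivity
    · have hp := an_pos (h.ne a)
      have : ‖pw e (ang (ν a))‖ = 1 := by cases e <;> simp [pw, norm_ang (h.ne a)]
      rw [if_pos (hsupp _ h0)]
      simp only [hc, norm_mul, this, mul_one, Complex.norm_cpow_eq_rpow_re_of_pos hp, Complex.norm_real,
        Complex.neg_re]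
      rw [Real.norm_of_nonneg (by positivity), mul_assoc, ← Real.rpow_add hp, show 1 / 6 + -s.re = -(s.re - 1 / 6) by ring]
      gcongr
      exact hB _
  have key := hη.gp.integral_tsum (g := fun a l => c a * K (l + lg (ν a)))
    (fun a => (h1.comp_add_right _).const_mul _)
    (by
      simp only [norm_mul (c _), integral_const_mul]
      simp only [integral_add_right_eq_self fun l => ‖K l‖]
      exact hcs.mul_right _)
    (fun l => by
      have := (hTs l).comp_injective hj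
      refine this.congr fun p => ?_
      simp only [Function.comp, j]
      rw [e2, e1])
  simp only [integral_const_mul, integral_add_right_eq_self K] at key
  rw [La]
  simp only [mul_assoc (η _ : ℂ), e3]
  rw [key, tsum_mul_right, mul_left_comm, h2, mul_pow, mul_comm, mul_assoc, ← tsum_mul_left]
  congr 1
  refine tsum_congr fun a => ?_
  rw [Complex.ofReal_mul, Complex.mul_cpow_ofReal_nonneg (by positivity) (an_nonneg _), Complex.ofReal_pow,
    Complex.ofReal_ofNat, ← Complex.cpow_nat_mul, show ((27 : ℂ) ^ Fintype.card (Pl F)) ^ (-s) =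
      (27 : ℂ) ^ (Fintype.card (Pl F) * -s) by
        simpa using (Complex.natCast_cpow_natCast_mul 27 (Fintype.card (Pl F)) (-s)).symm]
  simp only [hc]
  ring

/-- `Λ e b s = (4π)^r ∫ η(ℓ) fb e b ℓ · exp (2 s ∑ ℓ) dℓ`. -/
theorem mellin_fe {V : Subgroup (𝓞 F)ˣ} [V.FiniteIndex] (hV : ∀ u ∈ V, ang ((u : 𝓞 F) : F) = 1) {b b' : F → ℂ}
    (hb : Cf b) (hb' : Cf b') (hi : ∀ u ∈ V, ∀ ν, b (((u : 𝓞 F) : F) * ν) = b ν)
    (hi' : ∀ u ∈ V, ∀ ν, b' (((u : 𝓞 F) : F) * ν) = b' ν) {c : F} (hc : c ≠ 0)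
    (h : ∀ l, fb false b' l = (∏ i, -(em c i ^ 2 * (Real.exp (l i) : ℂ) ^ 2)⁻¹) *
      fb true b fun i => -l i - 2 * lg c i) :
    ∃ Λ Λ' : ℂ → ℂ, EntBdd Λ ∧ EntBdd Λ' ∧
      (∀ (α : Type) (ν : α → F), Par V b ν → ∀ s : ℂ, 2 < s.re → Λ s = gth s ^ Fintype.card (Pl F) *
        ∑' a, b (ν a) * ang (ν a) * (an (ν a) ^ (1 / 6 : ℝ) : ℝ) *
          ((27 ^ Fintype.card (Pl F) * an (ν a) : ℝ) : ℂ) ^ (-s)) ∧
      (∀ (α : Type) (ν : α → F), Par V b' ν → ∀ s : ℂ, 2 < s.re → Λ' s = gth s ^ Fintype.card (Pl F) *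
        ∑' a, b' (ν a) * conj (ang (ν a)) * (an (ν a) ^ (1 / 6 : ℝ) : ℝ) *
          ((27 ^ Fintype.card (Pl F) * an (ν a) : ℝ) : ℂ) ^ (-s)) ∧
      ∀ s : ℂ, Λ s = (-1) ^ Fintype.card (Pl F) * ang c ^ 2 * (an c : ℂ) ^ (1 - 2 * s) * Λ' (1 - s) := by
  obtain ⟨η, hη⟩ := exists_pou V
  set a : Pl F → ℝ := fun i => 2 * lg c i with ha
  set k : ℂ := (-1) ^ Fintype.card (Pl F) * (ang c ^ 2 * an c)⁻¹ with hk
  have hac : (an c : ℂ) ≠ 0 := Complex.ofReal_ne_zero.2 (an_pos hc).ne'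
  have hag : ang c ≠ 0 := norm_ne_zero_iff.1 (by rw [norm_ang hc]; exact one_ne_zero)
  have hk0 : k ≠ 0 := mul_ne_zero (pow_ne_zero _ (by norm_num)) (inv_ne_zero (mul_ne_zero (pow_ne_zero _ hag) hac))
  have hSa : ∑ i, a i = Real.log (an c) := by rw [← sum_lg hc, Finset.mul_sum]
  have h1 : ∀ l, fb false b' l = k * (Real.exp (-(2 * ∑ i, l i)) : ℝ) * fb true b (-l - a) := fun l => by
    rw [h l, Finset.prod_neg, Finset.card_univ, Finset.prod_inv_distrib, Finset.prod_mul_distrib, Finset.prod_pow,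
      Finset.prod_pow, prod_em', ← Complex.ofReal_prod, ← Real.exp_sum, mul_pow, ← Complex.ofReal_pow,
      Real.sq_sqrt (an_nonneg c), Real.exp_neg, two_mul, Real.exp_add, hk]
    push_cast
    congr 1
    ring
  have h2 : ∀ l, fb true b l = k⁻¹ * (Real.exp (-(2 * ∑ i, a i)) : ℝ) * (Real.exp (-(2 * ∑ i, l i)) : ℝ) *
      fb false b' (-l - a) := fun l => by
    rw [h1, show -(-l - a) - a = l by abel]
    have : (Real.exp (-(2 * ∑ i, a i)) : ℂ) * (Real.exp (-(2 * ∑ i, l i)) : ℝ) *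
        (Real.exp (-(2 * ∑ i, (-l - a) i)) : ℝ) = 1 := by
      rw [← Complex.ofReal_mul, ← Complex.ofReal_mul, ← Real.exp_add, ← Real.exp_add]
      simp only [Pi.sub_apply, Pi.neg_apply, Finset.sum_sub_distrib, Finset.sum_neg_distrib]
      rw [← Complex.ofReal_one, ← Real.exp_zero]
      congr 2
      ring
    linear_combination -fb true b l * this - fb true b l * (Real.exp (-(2 * ∑ i, a i)) : ℂ) *
      (Real.exp (-(2 * ∑ i, l i)) : ℝ) * (Real.exp (-(2 * ∑ i, (-l - a) i)) : ℝ) * inv_mul_cancel₀ hk0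
  have hT : Measurable fun l : Pl F → ℝ => 2 * ∑ i, l i := by fun_prop
  have I1 := hη.integrable_dec (continuous_fb true hb) (dec_fb true hb) (dec_fb false hb')
    (κ := ‖k⁻¹ * (Real.exp (-(2 * ∑ i, a i)) : ℝ)‖) (a := a) fun l => by
      rw [h2 l, norm_mul, norm_mul, Complex.norm_real (Real.exp (-(2 * ∑ i, l i))), Real.norm_of_nonneg (Real.exp_pos _).le]
  have I2 := hη.integrable_dec (continuous_fb false hb') (dec_fb false hb') (dec_fb true hb)
    (κ := ‖k‖) (a := a) fun l => by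
      rw [h1 l, norm_mul, norm_mul, Complex.norm_real, Real.norm_of_nonneg (Real.exp_pos _).le]
  refine ⟨La η true b, La η false b', entBdd_mul (entBdd_lap hT I1) _, entBdd_mul (entBdd_lap hT I2) _,
    fun α ν hν s hs => La_eq hη true hV hb hi hν hs, fun α ν hν s hs => La_eq hη false hV hb' hi' hν hs, fun s => ?_⟩
  set G : (Pl F → ℝ) → ℂ := fun l => fb true b l * Complex.exp (s * (2 * ∑ i, l i : ℝ)) with hG
  have hη' : Pou V fun l => η (-l + -a) := (hη.shift (-a)).neg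
  have e1 := (hη'.indep hη (φ := G) (fun u hu l => by
    simp only [hG, fb_unit true hV hi hu, Pi.add_apply, Finset.sum_add_distrib, sum_lg_unit, add_zero])
    (by simpa only [hG, mul_assoc] using integrable_cexp hT (I1 s.re))).2
  have e2 : ∫ l, (η l : ℂ) * fb false b' l * Complex.exp ((1 - s) * (2 * ∑ i, l i : ℝ)) =
      k * (an c : ℂ) ^ (2 * s) * ∫ l, (η (-l + -a) : ℂ) * G l := by
    rw [← integral_sub_left_eq_self (fun l => (η (-l + -a) : ℂ) * G l) volume (-a), ← integral_const_mul]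
    refine integral_congr_ae (Eventually.of_forall fun l => ?_)
    have e3 : (Real.exp (-(2 * ∑ i, l i)) : ℝ) * Complex.exp ((1 - s) * (2 * ∑ i, l i : ℝ)) =
        (an c : ℂ) ^ (2 * s) * Complex.exp (s * (2 * ∑ i, (-l - a) i : ℝ)) := by
      rw [Complex.cpow_def_of_ne_zero hac, Complex.ofReal_exp, ← Complex.exp_add, ← Complex.exp_add,
        ← Complex.ofReal_log (an_nonneg c), ← hSa]
      simp only [Pi.sub_apply, Pi.neg_apply, Finset.sum_sub_distrib, Finset.sum_neg_distrib]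
      congr 1
      push_cast
      ring
    simp only [hG]
    rw [h1, show -(-a - l) + -a = l by abel, show -a - l = -l - a by abel]
    linear_combination (η l : ℂ) * k * fb true b (-l - a) * e3
  have e4 : (-1) ^ Fintype.card (Pl F) * ang c ^ 2 * (an c : ℂ) ^ (1 - 2 * s) * (k * (an c : ℂ) ^ (2 * s)) = 1 := by
    have h3 : (an c : ℂ) ^ (2 * s) ≠ 0 := by simp [hac]
    have h4 : ((-1 : ℂ) ^ Fintype.card (Pl F)) ^ 2 = 1 := by rw [← pow_mul, mul_comm, pow_mul]; simp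
    rw [Complex.cpow_sub _ _ hac, Complex.cpow_one, hk]
    field_simp
    exact h4
  rw [La, La, e2, e1]
  simp only [hG, mul_assoc (η _ : ℂ)]
  linear_combination -((4 * π) ^ Fintype.card (Pl F) *
    ∫ l, (η l : ℂ) * (fb true b l * Complex.exp (s * (2 * ∑ i, l i : ℝ)))) * e4

end Crest.Agent.R27.TH
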