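import Crest.Agent.R27.TH.BrC
import Crest.Agent.R27.TH.ME

/-! Row 27, THETA, block BRIDGE (owner helper72): `StBr ⇒ StTheta`. -/

set_option autoImplicit false
set_option linter.unusedSectionVars false

namespace Crest.Agent.R27.TH

open Crest.NumberTheoryR.EisensteinField Crest.Agent.R27.G
open Crest.Agent.R17 (EntBdd gth)
open Crest.Agent.R27.Ab (Pr Prim nm cb FT Pair U1 res tau0 al FEp Dd brb_pw)
open scoped NumberField ComplexConjugate Classical MatrixGroups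

variable {F : Type} [Field F] [NumberField F] [Algebra K3 F] {v : Lv F} [Md v]

theorem an_fine {m : ℕ} (hm : 1 ≤ m) {ω : F} {u l : v.R} (hu : IsUnit u) (hl : l ≠ 0)
    (h : UK v m ((u * l : v.R) / ω)) : an ((u * l : v.R) : F) = ns v ω * nm l := by
  have h0 := mul_ne_zero hu.ne_zero hl
  rw [ns_coe h0, ns_UK hm h, ← nm_eq_N h0, Ab.nm_mul, Ab.nm_unit hu, one_mul]

theorem prm_unit {K : ℕ} (hK : 1 ≤ K) {y : v.R} {τ : F → ℂ} (hτ : Prm v K y τ) {u : (𝓞 F)ˣ}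
    (hu : u ∈ VK v K) (ν : F) : τ (((u : 𝓞 F) : F) * ν) = τ ν := by
  obtain ⟨A, -, hA⟩ := hτ.val
  have key : ∀ u ∈ VK v K, ∀ ν, τ ν ≠ 0 → τ ((((u : (𝓞 F)ˣ) : 𝓞 F) : F) * ν) = τ ν := fun u hu ν h => by
    obtain ⟨h1, h2⟩ := hτ.supp ν h
    lift ν to v.R using h1
    obtain ⟨w, n, hw, hn, rfl⟩ := Ab.exists_unit_prim (n := ν) fun h => h2.ne_left hK (by rw [h]; rfl)
    have e : ((u : 𝓞 F) : F) * (w * n : v.R) = (v.up u * w * n : v.R) := by rw [mul_assoc]; rfl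
    rw [hA w n hw hn h2, e, hA _ n ((u.isUnit.map _).mul hw) hn]
    rw [← e, mul_div_assoc]
    exact (mem_VK.1 hu).mul h2
  by_cases h : τ ν = 0
  · by_contra h'
    have := key _ (inv_mem hu) _ (h ▸ h')
    rw [← mul_assoc, ← ci_mul, Units.inv_mul, ci_one, one_mul] at this
    exact h' this.symm
  · exact key u hu ν h

theorem prm_sum {K : ℕ} (hK : 1 ≤ K) {y : v.R} (hy : Prim y) {τ : F → ℂ} (hτ : Prm v K y τ)
    {V : Subgroup (𝓞 F)ˣ} [V.FiniteIndex] (hV : V ≤ VK v K) {D : ℝ} (hD : 0 < D) : ∃ z : ℂ, z ≠ 0 ∧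
    ∀ (c : v.R) (Φ Φ' : v.R → ℂ), c ≠ 0 → Pair c Φ Φ' → ∃ (α : Type) (ν : α → F),
      Par V (fun x => τ x * FTF c Φ (-x)) ν ∧ ∀ s : ℂ,
      ∑' a, τ (ν a) * FTF c Φ (-ν a) * ang (ν a) * (an (ν a) ^ (1 / 6 : ℝ) : ℝ) *
          ((D * an (ν a) : ℝ) : ℂ) ^ (-s) = z * ((D * ns v y : ℝ) : ℂ) ^ (-s) * ∑' n : Pr v.R,
        if Fine v K y n then tau0 (n : v.R) * al (n : v.R) * FT c Φ (-n) * (nm (n : v.R) : ℂ) ^ (-s)
        else 0 := by
  obtain ⟨A, hA0, hA⟩ := hτ.val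
  have hy0 := brc_ne hy.ne_zero
  have hn := ns_pos (v := v) hy0
  have := Fintype.ofFinite (VK v K ⧸ V.subgroupOf (VK v K))
  have ha : al y ≠ 0 := norm_ne_zero_iff.1 (by simp [Ab.norm_al hy.ne_zero])
  refine ⟨Fintype.card (VK v K ⧸ V.subgroupOf (VK v K)) *
    (A * (ang (y : F) / al y) * (ns v y ^ (1 / 6 : ℝ) : ℝ)), mul_ne_zero (by simp) (mul_ne_zero
      (mul_ne_zero hA0 (div_ne_zero (norm_ne_zero_iff.1 (by simp [norm_ang hy0])) ha))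
      (Complex.ofReal_ne_zero.2 (by positivity))), fun c Φ Φ' hc hP => ⟨_, _,
    (par_of hK (fun _ : Unit => (y : F)) (fun _ _ _ => rfl) fun x hx =>
      (hτ.supp x (left_ne_zero_of_mul hx)).imp_right fun h => ⟨(), h⟩).refine hV, fun s => ?_⟩⟩
  set f : Pr v.R → ℂ := fun n => tau0 (n : v.R) * al (n : v.R) * FT c Φ (-n) * (nm (n : v.R) : ℂ) ^ (-s)
  have key : ∀ u n : v.R, IsUnit u → ∀ hn : Prim n, UK v K ((u * n : v.R) / y) →
      τ (u * n : v.R) * FTF c Φ (-(u * n : v.R)) * ang ((u * n : v.R) : F) *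
        (an ((u * n : v.R) : F) ^ (1 / 6 : ℝ) : ℝ) * ((D * an ((u * n : v.R) : F) : ℝ) : ℂ) ^ (-s) =
      A * (ang (y : F) / al y) * (ns v y ^ (1 / 6 : ℝ) : ℝ) * ((D * ns v y : ℝ) : ℂ) ^ (-s) * f ⟨n, hn⟩ := by
    intro u n hu h1 h2
    have h3 := Ab.nm_pos h1.ne_zero
    have h4 := ang_mul_al (h2.U hK)
    rw [← Md.al_eq, ← Md.al_eq, Ab.al_mul, Ab.al_unit hu, one_mul, ← eq_div_iff ha] at h4
    have h5 : ((nm n ^ (-(1 / 6) : ℝ) : ℝ) : ℂ) * (nm n ^ (1 / 6 : ℝ) : ℝ) = 1 := by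
      rw [← Complex.ofReal_mul, ← Real.rpow_add h3]
      simp
    rw [hA u n hu h1 h2, ← Subalgebra.coe_neg, FTF_coe, ← mul_neg,
      Ab.FT_U1 hc hP.per hP.unit (Md.sec n y u h1 hy hu (h2.U hK)).2, h4, an_fine hK hu h1.ne_zero h2,
      Real.mul_rpow hn.le h3.le, ← mul_assoc D, Complex.ofReal_mul (D * _),
      Complex.mul_cpow_ofReal_nonneg (by positivity) h3.le, Complex.ofReal_mul (_ ^ _)]
    simp only [f]
    linear_combination A * (ang (y : F) / al y) * (ns v y ^ (1 / 6 : ℝ) : ℝ) *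
      ((D * ns v y : ℝ) : ℂ) ^ (-s) * (tau0 n * al n * FT c Φ (-n) * (nm n : ℂ) ^ (-s)) * h5
  rw [tsum_congr fun p => ?_, Ab.bra_tsum_prod fun a : {q : Unit × Pr v.R | Fine v K y q.2} =>
    A * (ang (y : F) / al y) * (ns v y ^ (1 / 6 : ℝ) : ℝ) * ((D * ns v y : ℝ) : ℂ) ^ (-s) * f a.1.2,
    tsum_mul_left, tsum_subtype {q : Unit × Pr v.R | Fine v K y q.2} fun q => f q.2,
    ← (Equiv.uniqueProd (Pr v.R) Unit).symm.tsum_eq]
  · rw [tsum_congr (g := fun n : Pr v.R => if Fine v K y n then f n else 0) fun n => by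
      simp [Set.indicator]]
    simp only [f]
    ring
  · have e : (((p.2.out : VK v K) : (𝓞 F)ˣ) : 𝓞 F) * ((un K (y : F) (p.1.1.2 : v.R) * p.1.1.2 : v.R) : F) =
        (v.up (p.2.out : (𝓞 F)ˣ) * un K (y : F) (p.1.1.2 : v.R) * p.1.1.2 : v.R) := by
      rw [mul_assoc]; rfl
    rw [e]
    refine key _ _ (((Units.isUnit _).map _).mul (Units.isUnit _)) p.1.1.2.2 ?_
    rw [← e, mul_div_assoc]
    exact (mem_VK.1 p.2.out.2).mul p.1.2.un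

theorem dua_sum {m' m : ℕ} (hm : 1 ≤ m) {σ : F → ℂ} (hσ : Dua v m' σ) :
    ∃ (Ω : Type) (ν : Ω → ℝ) (ε : Ω → v.Rˣ) (β : Ω → v.R → ℂ) (C : ℝ), Dd ν β C ∧
    ∀ (c : v.R) (Φ Φ' : v.R → ℂ), c ≠ 0 → Pair c Φ Φ' → ∃ (α : Type) (μ : α → F),
      Par (VK v m) (fun x => σ x * FTF c Φ' x) μ ∧ ∀ (D : ℝ) (s : ℂ),
      ∑' a, σ (μ a) * FTF c Φ' (μ a) * conj (ang (μ a)) * (an (μ a) ^ (1 / 6 : ℝ) : ℝ) *
          ((D * an (μ a) : ℝ) : ℂ) ^ (-s) = ∑' q : Ω × Pr v.R,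
        β q.1 q.2 * FT c Φ' (ε q.1 * q.2) * ((D * (ν q.1 * nm (q.2 : v.R)) : ℝ) : ℂ) ^ (-s) := by
  obtain ⟨k, hk⟩ := hσ.supp
  obtain ⟨B, hB⟩ := hσ.bd
  obtain ⟨T, hT0, hT⟩ := exists_reps v hm
  obtain ⟨δ, hδ, hns⟩ := ns_ge v k
  have hinj : ∀ x ∈ T, ∀ y ∈ T, UK v m (y / x) → y = x := fun x hx y hy h =>
    (hT y (hT0 y hy)).unique ⟨hy, UK_refl (hT0 y hy)⟩ ⟨hx, h⟩
  refine ⟨{ω // ω ∈ T ∧ DK v k ω}, fun ω => ns v ω,
    fun ω => if h : ∃ l : Pr v.R, Fine v m ω l then un m (ω : F) (h.choose : v.R) else 1,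
    fun ω l => if Prim l ∧ Fine v m ω l then σ (un m (ω : F) l * l : v.R) *
      conj (ang ((un m (ω : F) l * l : v.R) : F)) *
      (an ((un m (ω : F) l * l : v.R) : F) ^ (1 / 6 : ℝ) : ℝ) else 0, 1 / δ + |B| * δ ^ (-(1 / 3) : ℝ),
    ⟨by positivity, fun ω => ?_, fun d hd => ?_, fun ω l => ?_⟩, fun c Φ Φ' hc hP => ⟨_, _,
      par_of hm (fun ω : {ω // ω ∈ T ∧ DK v k ω} => (ω : F))
        (fun i j h => Subtype.ext (hinj _ i.2.1 _ j.2.1 h)) fun x hx => ?_, fun D s => ?_⟩⟩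
  · refine (one_div_le_one_div_of_le (by positivity) (le_add_of_nonneg_right (by positivity))).trans ?_
    rw [one_div_one_div]
    exact hns _ (hT0 _ ω.2.1) ω.2.2
  · obtain ⟨C, hC⟩ := sum_ns v hm k hd
    refine summable_of_sum_le (c := C) (fun ω => Real.rpow_nonneg (ns_nonneg _) _) fun S => ?_
    rw [← Finset.sum_subtype_map_embedding (s := S) (g := fun x : F => ns v x ^ (-d)) fun _ _ => rfl]
    have h1 : ∀ x ∈ S.map (Function.Embedding.subtype _), x ∈ T ∧ DK v k x := fun x hx => by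
      obtain ⟨ω, -, rfl⟩ := Finset.mem_map.1 hx
      exact ω.2
    exact hC _ (fun x hx => ⟨hT0 x (h1 x hx).1, (h1 x hx).2⟩) fun x hx y hy =>
      hinj x (h1 x hx).1 y (h1 y hy).1
  · split_ifs with h
    · have h1 := hns _ (hT0 _ ω.2.1) ω.2.2
      have h2 := hδ.trans_le h1
      have h3 := Ab.nm_pos h.1.ne_zero
      rw [norm_mul, norm_mul, Complex.norm_conj, norm_ang (h.2.un.ne_left hm), mul_one,
        an_fine hm (Units.isUnit _) h.1.ne_zero h.2.un, Complex.norm_real,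
        Real.norm_of_nonneg (by positivity), Real.mul_rpow h2.le h3.le]
      calc _ ≤ |B| * (‖tau0 l‖ * nm l ^ (-(1 / 6) : ℝ)) * (ns v ω ^ (1 / 6 : ℝ) * nm l ^ (1 / 6 : ℝ)) := by
            refine mul_le_mul_of_nonneg_right ((hB _ l (Units.isUnit _) h.1).trans ?_) (by positivity)
            gcongr
            exact le_abs_self B
        _ = |B| * ns v ω ^ (-(1 / 3) : ℝ) * √(ns v ω) * ‖tau0 l‖ := by
            rw [Real.sqrt_eq_rpow, mul_assoc |B| (_ ^ _), ← Real.rpow_add h2, Real.rpow_neg h3.le,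
              show (-(1 / 3) + 1 / 2 : ℝ) = 1 / 6 by norm_num]
            field_simp
        _ ≤ _ := by
            gcongr
            exact le_add_of_nonneg_of_le (by positivity) (mul_le_mul_of_nonneg_left
              (Real.rpow_le_rpow_of_nonpos hδ h1 (by norm_num)) (abs_nonneg B))
    · rw [norm_zero]
      positivity
  · have h0 := left_ne_zero_of_mul hx
    obtain ⟨h1, h2⟩ := hk x h0
    have h3 : x ≠ 0 := fun h => h0 (h ▸ hσ.cf.zero)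
    obtain ⟨ξ, ⟨h4, h5⟩, -⟩ := hT x h3
    refine ⟨h1, ⟨ξ, h4, ?_⟩, h5⟩
    simpa [mul_div_cancel₀ _ h3] using h2.mul_L (h5.symm hm).mem_L
  · rw [tsum_subtype {q : {ω // ω ∈ T ∧ DK v k ω} × Pr v.R | Fine v m q.1 q.2} fun q =>
      (fun x : F => σ x * FTF c Φ' x * conj (ang x) * (an x ^ (1 / 6 : ℝ) : ℝ) *
        ((D * an x : ℝ) : ℂ) ^ (-s)) (un m (q.1 : F) (q.2 : v.R) * q.2 : v.R)]
    refine tsum_congr fun ⟨ω, l⟩ => ?_
    by_cases h : Fine v m ω l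
    · have h1 : ∃ l : Pr v.R, Fine v m ω l := ⟨l, h⟩
      have h2 := (Md.sec _ _ _ l.2 h1.choose.2 (Units.isUnit _) (by
        rw [← Subalgebra.coe_mul, brc_div]
        exact (h.un.trans hm (h1.choose_spec.un.symm hm)).U hm)).2
      rw [Set.indicator_of_mem (by exact h)]
      simp only [dif_pos h1, if_pos (And.intro (Ab.Pr_prim l) h)]
      rw [← Ab.FT_U1 hc hP.per' (hP.unit' hc) h2, ← mul_assoc, ← Units.val_mul, inv_mul_cancel_comm,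
        FTF_coe, ← an_fine hm (Units.isUnit _) (Ab.Pr_prim l).ne_zero h.un]
      ring
    · rw [Set.indicator_of_notMem (by exact h)]
      simp [h]

theorem piece {K m' : ℕ} (hK : 1 ≤ K) {y : v.R} (hy : Prim y) {c₀ : F} {τ σ : F → ℂ} (hτ : Prm v K y τ)
    (hσ : Dua v m' σ) :
    ∃ (Ω : Type) (ν : Ω → ℝ) (ε : Ω → v.Rˣ) (β : Ω → v.R → ℂ), (c₀ ≠ 0 → ∃ C, Dd ν β C) ∧
    ∀ (c : v.R) (Φ Φ' : v.R → ℂ) (τ₀ σ₀ : ℂ) (t : ℕ), UK v 1 (c / c₀) → Pair c Φ Φ' →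
      (∀ g : SL(2, F), InR v g → g 1 0 = c → LK v t (g 0 0) → LK v t (g 1 1) →
        ∀ w, Th τ₀ τ (act g w) = cbF v (g 0 0) (g 1 0) * Th σ₀ σ w) →
      FEp (Fintype.card (Pl F)) (Fine v K y) ν ε β c Φ Φ'
        ((-1) ^ Fintype.card (Pl F) * ang (c : F) ^ 2) := by
  have hD : (0 : ℝ) < 27 ^ Fintype.card (Pl F) := by positivity
  have hm : 1 ≤ K + m' := hK.trans (Nat.le_add_right _ _)
  have hV : VK v (K + m') ≤ VK v K := VK_mono (Nat.le_add_right _ _)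
  have hn := ns_pos (v := v) (brc_ne hy.ne_zero)
  obtain ⟨z, hz, H⟩ := prm_sum hK hy hτ hV hD
  obtain ⟨Ω, ν, ε, β, C, hC, H'⟩ := dua_sum hm hσ
  refine ⟨Ω, fun i => 27 ^ Fintype.card (Pl F) * ns v y * 27 ^ Fintype.card (Pl F) / ns v c₀ ^ 2 * ν i, ε,
    fun i l => z⁻¹ * (27 ^ Fintype.card (Pl F) * ns v y / ns v c₀ : ℝ) * β i l, fun h => hC.scale ?_ _,
    fun c Φ Φ' τ₀ σ₀ t hc hP hg => ?_⟩
  · have := ns_pos (v := v) h
    positivity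
  have hc0 : c ≠ 0 := fun h => hc.ne_left le_rfl (by rw [h]; rfl)
  obtain ⟨α, μ, h1, h2⟩ := H c Φ Φ' hc0 hP
  obtain ⟨α', μ', h3, h4⟩ := H' c Φ Φ' hc0 hP
  obtain ⟨k, hk⟩ := hσ.supp
  obtain ⟨k', hk'⟩ := exists_DK v (y : F)
  obtain ⟨B, hB⟩ := FTF_bdd hc0 Φ
  obtain ⟨B', hB'⟩ := FTF_bdd hc0 Φ'
  obtain ⟨Λ, Λ', a1, a2, a3, a4, a5⟩ := mellin_fe (V := VK v (K + m')) (fun u hu => ang_VK hm hu)
    (hτ.cf.mul fun x => hB (-x)) (hσ.cf.mul hB')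
    (fun u hu x => by
      rw [prm_unit hK hτ (hV hu), ← mul_neg, FTF_unit hc0 hP.per hP.unit hm hu])
    (fun u hu x => by
      rw [hσ.inv u (VK_mono (Nat.le_add_left _ _) hu), FTF_unit hc0 hP.per' (hP.unit' hc0) hm hu])
    (brc_ne hc0) (fb_refl (k := k + k') hc0 hτ.cf hσ.cf
      (fun x hx => (hτ.supp x hx).imp_right fun h => by
        simpa [mul_div_cancel₀ _ (brc_ne hy.ne_zero)] using
          (hk'.mul_L h.mem_L).mono (Nat.le_add_left k' k))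
      (fun x hx => (hk x hx).imp_right fun h => h.mono (Nat.le_add_right _ _)) hg hP)
  refine FEp.of_scale hc0 (fun i => (one_div_pos.2 hC.pos).trans_le (hC.low i)) hz (by positivity) hD
    (ns_pos (hc.ne_right le_rfl)) a1 a2 (fun s hs => by rw [a3 _ _ h1 s hs, h2 s])
    (fun s hs => by rw [a4 _ _ h3 s hs, h4]) fun s => ?_
  rw [a5 s, ns_coe hc0, ns_UK le_rfl hc, nm_eq_N hc0]

/-- THE BRIDGE -/
theorem stTheta_of_br (hc : Ab.Count v.R) (h : StBr v) : Ab.StTheta v.R := by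
  obtain ⟨K, hK, h⟩ := h
  obtain ⟨Y, _, p, o, ho, hp⟩ := exists_cls (v := v) hK
  choose τ₀ τ m hτ h using fun y : Y => h (o y) (ho y)
  obtain ⟨m₀, hm₀⟩ := Finite.exists_le m
  have hm : 1 ≤ m₀ + 1 := Nat.le_add_left _ _
  obtain ⟨J, _, κ, o', ho', hκ⟩ := exists_cls (v := v) hm
  choose σ₀ σ m' t hσ h using fun a : Y × J => h a.1 (o' a.2) (ho' a.2)
  choose Ω ν ε β hD H using fun a : Y × J => piece (c₀ := o' a.2) hK (ho a.1) (hτ a.1) (hσ a)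
  refine Ab.stTheta_of_pieces (ε := ε) hc (card_Pl_pos (F := F)) p (fun y => Ab.cls (o y)) (fun n hn => ?_) κ
    (fun a => hD a (brc_ne (ho' a.2).ne_zero)) fun c Φ Φ' h1 hP => ?_
  · obtain ⟨u, hu⟩ := (hp n _ hn).1 rfl
    exact (Md.sec _ _ _ hn (ho _) u.isUnit (hu.U hK)).1
  obtain ⟨u, hu⟩ := (hκ c _ h1).1 rfl
  obtain ⟨a1, a2, a3⟩ := hP.assoc h1.ne_zero (Md.sec _ _ _ h1 (ho' _) u.isUnit (hu.U hm)).2
  refine ⟨(-1) ^ Fintype.card (Pl F) * ang ((u * c : v.R) : F) ^ 2, by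
    rw [norm_mul, norm_pow, norm_pow, norm_ang (hu.ne_left hm)]; simp, fun y => ?_⟩
  obtain ⟨Λ, Λ', b1, b2, b3, b4, b5⟩ := H (y, κ c) (u * c) Φ Φ' _ _ _ (hu.mono hm) a1 fun g g1 g2 =>
    h (y, κ c) g g1 (g2 ▸ hu.mono ((hm₀ y).trans (Nat.le_add_right _ _)))
  rw [a2] at b3
  rw [a3] at b4
  rw [Ab.nm_mul, Ab.nm_unit u.isUnit, one_mul] at b5
  refine ⟨Λ, Λ', b1, b2, fun s hs => ?_, b4, b5⟩
  rw [b3 s hs]
  congr 1
  exact tsum_congr fun n => if_congr (hp n y n.2).symm rfl rfl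

end Crest.Agent.R27.TH
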