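import Crest.Agent.R27.A.All

/-! Row 27, THETA, block BRIDGE (owner helper72), part A: assembling `StTheta` from finitely many pieces. -/

set_option autoImplicit false
set_option linter.unusedSectionVars false

namespace Crest.Agent.R27.Ab

open Crest.Agent.R17 (EntBdd gth)
open scoped Classical ComplexConjugate

theorem bra_cpow {f : ℂ → ℂ} (h : EntBdd f) (c : ℂ) {B : ℝ} (hB : 0 < B) :
    EntBdd fun s => c * (B : ℂ) ^ s * f s := by
  have hB0 : (B : ℂ) ≠ 0 := Complex.ofReal_ne_zero.2 hB.ne'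
  refine ⟨((differentiable_id.const_cpow (Or.inl hB0)).const_mul c).mul h.1, fun σ₁ σ₂ => ?_⟩
  obtain ⟨D, hD⟩ := h.2 σ₁ σ₂
  refine ⟨‖c‖ * (B ^ σ₁ + B ^ σ₂) * D, fun s h1 h2 => ?_⟩
  rw [norm_mul, norm_mul, Complex.norm_cpow_eq_rpow_re_of_pos hB]
  refine mul_le_mul (mul_le_mul_of_nonneg_left ?_ (norm_nonneg _)) (hD s h1 h2) (norm_nonneg _)
    (by positivity)
  rcases le_total 1 B with h3 | h3
  · exact le_add_of_nonneg_of_le (by positivity) (Real.rpow_le_rpow_of_exponent_le h3 h2)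
  · exact le_add_of_le_of_nonneg (Real.rpow_le_rpow_of_exponent_ge hB h3 h1) (by positivity)

theorem bra_sum {ι : Type} (S : Finset ι) {f : ι → ℂ → ℂ} (h : ∀ i, EntBdd (f i)) :
    EntBdd fun s => ∑ i ∈ S, f i s := by
  refine ⟨Differentiable.fun_sum fun i _ => (h i).1, fun σ₁ σ₂ => ?_⟩
  choose D hD using fun i => (h i).2 σ₁ σ₂
  exact ⟨∑ i ∈ S, D i, fun s h1 h2 => norm_sum_le_of_le _ fun i _ => hD i s h1 h2⟩

theorem bra_tsum_prod {α β : Type} [Fintype β] [Nonempty β] (f : α → ℂ) :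
    ∑' p : α × β, f p.1 = Fintype.card β * ∑' a, f a := by
  by_cases h : Summable f
  · have h1 : Summable fun p : α × β => ‖f p.1‖ * (1 : ℝ) :=
      h.norm.mul_of_nonneg (g := fun _ : β => (1 : ℝ)) (hasSum_fintype _).summable
        (fun _ => norm_nonneg _) fun _ => zero_le_one
    rw [(Summable.of_norm (by simpa using h1)).tsum_prod, ← tsum_mul_left]
    simp
  · rw [tsum_eq_zero_of_not_summable h, tsum_eq_zero_of_not_summable, mul_zero]
    intro h1
    obtain ⟨b⟩ := ‹Nonempty β›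
    exact h (h1.comp_injective (i := fun a => (a, b)) fun _ _ e => (Prod.mk.inj e).1)

variable {R : Type} [CommRing R] [IsDomain R] [IsPrincipalIdealRing R] [Ar R]

theorem bra_summable (hc : Count R) {σ : ℝ} (hσ : 1 < σ) :
    Summable fun n : Pr R => nm (n : R) ^ (-σ) := by
  obtain ⟨C₀, H⟩ := hc
  set C := max C₀ 0 with hC'
  have hC : 0 ≤ C := le_max_right _ _
  set r : ℝ := 2 ^ (1 - σ) with hr
  have hr0 : 0 < r := by positivity
  have hr1 : r < 1 := Real.rpow_lt_one_of_one_lt_of_neg one_lt_two (by linarith)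
  refine summable_of_sum_le (c := 2 * C * (1 - r)⁻¹)
    (fun n => Real.rpow_nonneg (nm_nonneg _) _) fun S => ?_
  rw [← Finset.sum_subtype_map_embedding (s := S) (g := fun n : R => nm n ^ (-σ)) fun _ _ => rfl]
  set A := S.map (Function.Embedding.subtype _) with hA'
  have hA : ∀ n ∈ A, Prim n := fun n hn => by
    obtain ⟨m, -, rfl⟩ := Finset.mem_map.1 hn
    exact m.2
  have hl : ∀ n ∈ A, (2 : ℝ) ^ Nat.log 2 (nN n) ≤ nm n ∧ nm n ≤ 2 ^ (Nat.log 2 (nN n) + 1) :=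
    fun n hn => by
      have h1 := Nat.pow_log_le_self 2 (mt nN_eq_zero.1 (Ar.pr_ne n (hA n hn)))
      have h2 := (Nat.lt_pow_succ_log_self one_lt_two (nN n)).le
      unfold nm
      exact ⟨by exact_mod_cast h1, by exact_mod_cast h2⟩
  rw [← Finset.sum_fiberwise_of_maps_to (g := fun n => Nat.log 2 (nN n))
    fun n hn => Finset.mem_image_of_mem (fun n => Nat.log 2 (nN n)) hn]
  refine le_trans (Finset.sum_le_sum (g := fun i => 2 * C * r ^ i) fun i _ => ?_) ?_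
  · have h1 := (H (2 ^ (i + 1)) (A.filter fun n => Nat.log 2 (nN n) = i) (one_le_pow₀ one_le_two)
      fun n hn => by
        obtain ⟨h2, rfl⟩ := Finset.mem_filter.1 hn
        exact ⟨hA n h2, (hl n h2).2⟩).trans
      (mul_le_mul_of_nonneg_right (le_max_left C₀ 0) (by positivity))
    calc _ ≤ (A.filter fun n => Nat.log 2 (nN n) = i).card • ((2 : ℝ) ^ i) ^ (-σ) :=
          Finset.sum_le_card_nsmul _ _ _ fun n hn => by
            obtain ⟨h2, rfl⟩ := Finset.mem_filter.1 hn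
            exact Real.rpow_le_rpow_of_nonpos (by positivity) (hl n h2).1 (by linarith)
      _ ≤ C * 2 ^ (i + 1) * ((2 : ℝ) ^ i) ^ (-σ) := by
          rw [nsmul_eq_mul]
          exact mul_le_mul_of_nonneg_right h1 (by positivity)
      _ = _ := by
          rw [hr, ← Real.rpow_natCast (2 ^ (1 - σ)), ← Real.rpow_mul zero_le_two, mul_comm (1 - σ),
            Real.rpow_mul zero_le_two, Real.rpow_natCast, sub_eq_add_neg,
            Real.rpow_add (by positivity), Real.rpow_one]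
          ring
  · rw [← Finset.mul_sum, ← tsum_geometric_of_lt_one hr0.le hr1]
    exact mul_le_mul_of_nonneg_left ((summable_geometric_of_lt_one hr0.le hr1).sum_le_tsum _
      fun _ _ => by positivity) (by positivity)

theorem bra_tau (n : R) : ‖tau0 n‖ ≤ nm n := by
  unfold tau0
  split_ifs with h
  · obtain ⟨a1, a2, a3, a4⟩ := h.choose_spec
    have h0 : n ≠ 0 := a4 ▸ mul_ne_zero a3.ne_zero (pow_ne_zero _ (Ar.pr_ne _ a2))
    rw [norm_mul, Complex.norm_conj, norm_g3 a3, one_mul, Complex.norm_real,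
      Real.norm_of_nonneg (Real.sqrt_nonneg _)]
    refine le_trans ((Real.sqrt_le_left (nm_nonneg h.choose.2)).2 ?_)
      (nm_le_of_dvd ⟨h.choose.1 * h.choose.2 ^ 2, a4.trans (by ring)⟩ h0)
    nlinarith [one_le_nm (Ar.pr_ne _ a2)]
  · rw [norm_zero]
    exact nm_nonneg n

theorem bra_tau_sum (hc : Count R) {σ : ℝ} (hσ : 2 < σ) :
    Summable fun n : Pr R => ‖tau0 (n : R)‖ * nm (n : R) ^ (-σ) := by
  refine Summable.of_nonneg_of_le
    (fun n => mul_nonneg (norm_nonneg _) (Real.rpow_nonneg (nm_nonneg _) _)) (fun n => ?_)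
    (bra_summable hc (σ := σ - 1) (by linarith))
  have h0 := nm_pos (Ar.pr_ne _ n.2)
  calc _ ≤ nm (n : R) ^ (1 : ℝ) * nm (n : R) ^ (-σ) := by
        rw [Real.rpow_one]
        exact mul_le_mul_of_nonneg_right (bra_tau _) (by positivity)
    _ = _ := by rw [← Real.rpow_add h0]; congr 1; ring

/-- the hypotheses of `StTheta` on the pair of test functions -/
structure Pair (c : R) (Φ Φ' : R → ℂ) : Prop where
  per : Per c Φ
  per' : Per c Φ'
  zero : ∀ a, ¬ IsCoprime a c → Φ a = 0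
  zero' : ∀ a, ¬ IsCoprime a c → Φ' a = 0
  unit : ∀ u a, U1 u → Φ (u * a) = Φ a
  rel : ∀ a d, c ∣ a * d - 1 → Φ' d = Φ a * cb a c

/-- the functional equation of one piece -/
def FEp (r : ℕ) (p : R → Prop) {I : Type} (ν : I → ℝ) (ε : I → Rˣ) (β : I → R → ℂ) (c : R)
    (Φ Φ' : R → ℂ) (e : ℂ) : Prop :=
  ∃ Λ Λ' : ℂ → ℂ, EntBdd Λ ∧ EntBdd Λ' ∧
    (∀ s : ℂ, 2 < s.re → Λ s = gth s ^ r * ∑' n : Pr R,
      if p n then tau0 (n : R) * al (n : R) * FT c Φ (-n) * (nm (n : R) : ℂ) ^ (-s) else 0) ∧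
    (∀ s : ℂ, 2 < s.re → Λ' s = gth s ^ r * ∑' q : I × Pr R,
      β q.1 q.2 * FT c Φ' (ε q.1 * q.2) * ((ν q.1 * nm (q.2 : R) : ℝ) : ℂ) ^ (-s)) ∧
    ∀ s : ℂ, Λ s = e * (nm c : ℂ) ^ (1 - 2 * s) * Λ' (1 - s)

/-- admissible dual data -/
structure Dd {I : Type} (ν : I → ℝ) (β : I → R → ℂ) (C : ℝ) : Prop where
  pos : 0 < C
  low : ∀ i, 1 / C ≤ ν i
  sum : ∀ d : ℝ, 0 < d → Summable fun i => ν i ^ (-d)
  bd : ∀ i l, ‖β i l‖ ≤ C * Real.sqrt (ν i) * ‖tau0 l‖

theorem Dd.summable (hc : Count R) {I : Type} {ν : I → ℝ} {β : I → R → ℂ} {C : ℝ} (h : Dd ν β C)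
    {G : I × Pr R → ℂ} {B : ℝ} (hG : ∀ q, ‖G q‖ ≤ B) {s : ℂ} (hs : 2 < s.re) :
    Summable fun q : I × Pr R => β q.1 q.2 * G q * ((ν q.1 * nm (q.2 : R) : ℝ) : ℂ) ^ (-s) := by
  have h0 : ∀ i, 0 < ν i := fun i => (one_div_pos.2 h.pos).trans_le (h.low i)
  have a1 := (((h.sum (s.re - 1 / 2) (by linarith)).mul_left C).mul_of_nonneg (bra_tau_sum hc hs)
    (fun i => mul_nonneg h.pos.le (Real.rpow_nonneg (h0 i).le _))
    fun n => mul_nonneg (norm_nonneg _) (Real.rpow_nonneg (nm_nonneg _) _)).mul_left B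
  refine Summable.of_norm_bounded a1 fun q => ?_
  have h1 := nm_pos (Ar.pr_ne _ q.2.2)
  have h2 := h0 q.1
  rw [norm_mul, norm_mul, Complex.norm_cpow_eq_rpow_re_of_pos (by positivity), Complex.neg_re]
  refine (mul_le_mul_of_nonneg_right (mul_le_mul (h.bd _ _) (hG q) (norm_nonneg _)
    ((norm_nonneg _).trans (h.bd _ _))) (by positivity)).trans (le_of_eq ?_)
  rw [Real.mul_rpow h2.le h1.le, Real.sqrt_eq_rpow,
    show -(s.re - 1 / 2) = 1 / 2 + -s.re by ring, Real.rpow_add h2]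
  ring

theorem stTheta_of_pieces (hc : Count R) {Y J : Type} [Finite Y] [Finite J] {Ω : Y × J → Type} {r : ℕ}
    (hr : 0 < r) (p : R → Y) (cy : Y → Cl R) (hp : ∀ n, Prim n → cls n = cy (p n)) (κ : R → J)
    {ν : ∀ a, Ω a → ℝ} {ε : ∀ a, Ω a → Rˣ} {β : ∀ a, Ω a → R → ℂ} (hD : ∀ a, ∃ C, Dd (ν a) (β a) C)
    (H : ∀ c Φ Φ', Prim c → Pair c Φ Φ' → ∃ e : ℂ, ‖e‖ = 1 ∧
      ∀ y, FEp r (p · = y) (ν (y, κ c)) (ε (y, κ c)) (β (y, κ c)) c Φ Φ' e) : StTheta R := by
  choose C hC using hD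
  obtain ⟨C₀, hC₀⟩ := Finite.exists_le C
  have := Fintype.ofFinite Y
  have h0 : ∀ a i, 0 < ν a i := fun a i => (one_div_pos.2 (hC a).pos).trans_le ((hC a).low i)
  have hm : ∀ a, C a ≤ max C₀ 1 := fun a => (hC₀ a).trans (le_max_left _ _)
  have hm0 : 0 < max C₀ 1 := lt_max_of_lt_right one_pos
  refine ⟨r, max C₀ 1, Σ a, Ω a, J, inferInstance, fun i => ν i.1 i.2, fun i => ε i.1 i.2, hr, hm0,
    fun i => (one_div_le_one_div_of_le (hC _).pos (hm _)).trans ((hC _).low _), fun d hd => ?_,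
    fun x => ⟨κ, fun j i l => if i.1.2 = j ∧ cy i.1.1 = x then β i.1 i.2 l else 0, fun j i l => ?_,
      fun c Φ Φ' h1 h2 h3 h4 h5 h6 h7 => ?_⟩⟩
  · exact (summable_sigma_of_nonneg fun i => Real.rpow_nonneg (h0 _ _).le _).2
      ⟨fun a => (hC a).sum d hd, Summable.of_finite⟩
  · dsimp only
    split_ifs
    · refine ((hC _).bd _ _).trans ?_
      gcongr
      exact hm _
    · rw [norm_zero]
      positivity
  obtain ⟨e, he, H⟩ := H c Φ Φ' h1 ⟨h2, h3, h4, h5, h6, h7⟩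
  choose Λ Λ' a1 a2 a3 a4 a5 using H
  have hc0 := Ar.pr_ne c h1
  obtain ⟨B, hB⟩ := (per_FT c Φ).bdd hc0
  obtain ⟨B', hB'⟩ := (per_FT c Φ').bdd hc0
  refine ⟨e, fun s => ∑ y with cy y = x, Λ y s, fun s => ∑ y with cy y = x, Λ' y s, he, bra_sum _ a1,
    bra_sum _ a2, fun s hs => ?_, fun s hs => ?_, fun s => by simp only [a5 _ s, Finset.mul_sum]⟩
  · simp only [a3 _ s hs]
    rw [← Finset.mul_sum, ← Summable.tsum_finsetSum fun y _ => ?_]
    · congr 1
      refine tsum_congr fun n => ?_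
      simp only [Finset.sum_ite_eq, Finset.mem_filter, Finset.mem_univ, true_and, hp n n.2]
    · refine Summable.of_norm_bounded ((bra_tau_sum hc hs).mul_left B) fun n => ?_
      have h8 := nm_pos (Ar.pr_ne _ n.2)
      have h9 := (norm_nonneg _).trans (hB 0)
      split_ifs
      · rw [norm_mul, norm_mul, norm_mul, norm_al (Ar.pr_ne _ n.2), mul_one,
          Complex.norm_cpow_eq_rpow_re_of_pos h8, Complex.neg_re, mul_left_comm, mul_assoc]
        gcongr
        exact hB _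
      · rw [norm_zero]
        positivity
  · simp only [a4 _ s hs]
    set G : (Σ a, Ω a) × Pr R → ℂ := fun q => β q.1.1 q.1.2 q.2 * FT c Φ' (ε q.1.1 q.1.2 * q.2) *
      ((ν q.1.1 q.1.2 * nm (q.2 : R) : ℝ) : ℂ) ^ (-s) with hG
    have key : ∀ y, HasSum (fun q => if q.1.1 = (y, κ c) then G q else 0)
        (∑' q : Ω (y, κ c) × Pr R, β _ q.1 q.2 * FT c Φ' (ε _ q.1 * q.2) *
          ((ν _ q.1 * nm (q.2 : R) : ℝ) : ℂ) ^ (-s)) := fun y => by
      have hi : Function.Injective fun q : Ω (y, κ c) × Pr R =>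
          ((⟨(y, κ c), q.1⟩, q.2) : (Σ a, Ω a) × Pr R) := fun q q' h =>
        Prod.ext (eq_of_heq (Sigma.mk.inj (Prod.mk.inj h).1).2) (Prod.mk.inj h).2
      refine (hi.hasSum_iff fun q hq => if_neg fun h => hq ?_).1 ?_
      · obtain ⟨⟨a, ω⟩, l⟩ := q
        obtain rfl : a = (y, κ c) := h
        exact ⟨(ω, l), rfl⟩
      · simpa only [Function.comp_def, if_true] using ((hC _).summable hc (fun q => hB' _) hs).hasSum
    rw [← Finset.mul_sum, ← (hasSum_sum fun y _ => key y).tsum_eq]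
    congr 1
    refine tsum_congr fun q => ?_
    obtain ⟨⟨⟨y, j⟩, ω⟩, l⟩ := q
    simp only [Prod.mk.injEq, ite_and, Finset.sum_ite_eq, Finset.mem_filter, Finset.mem_univ, true_and,
      hG]
    split_ifs <;> simp

end Crest.Agent.R27.Ab
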