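import Crest.Agent.R27.TH.BrA

/-! Row 27, THETA, block BRIDGE (owner helper72), part B: test functions, rescaling of a piece. -/

set_option autoImplicit false
set_option linter.unusedSectionVars false

namespace Crest.Agent.R27.Ab

open Crest.Agent.R17 (EntBdd gth)
open scoped Classical ComplexConjugate

theorem brb_pw {x : ℝ} (hx : 0 < x) (s : ℂ) : (x : ℂ) ^ s = Complex.exp (Real.log x * s) := by
  rw [Complex.cpow_def_of_ne_zero (Complex.ofReal_ne_zero.2 hx.ne'), Complex.ofReal_log hx.le]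

theorem brb_exp {x : ℝ} (hx : 0 < x) : (x : ℂ) = Complex.exp (Real.log x) := by
  rw [← Complex.ofReal_exp, Real.exp_log hx]

variable {R : Type} [CommRing R] [IsDomain R] [IsPrincipalIdealRing R] [Ar R]

theorem U1.of_mul {u w : R} (hu : U1 u) (h : w * u = 1) : U1 w :=
  ⟨IsUnit.of_mul_eq_one u h, fun b hb => by
    have h1 := sx_mul_left w u b
    rwa [h, sx_one_left hb, hu.2 b hb, mul_one, eq_comm] at h1⟩

theorem FT_U1 {c u : R} (hc : c ≠ 0) {Ψ : R → ℂ} (hΨ : Per c Ψ) (h : ∀ u a, U1 u → Ψ (u * a) = Ψ a)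
    (hu : U1 u) (k : R) : FT c Ψ (u * k) = FT c Ψ k := by
  obtain ⟨w, hw⟩ := hu.1.exists_left_inv
  rw [← FT_mul_arg hc (a := u) ⟨w, 0, by rw [hw]; ring⟩ hΨ k]
  simp only [h u _ hu]

variable {c : R} {Φ Φ' : R → ℂ}

theorem Pair.unit' (h : Pair c Φ Φ') (hc : c ≠ 0) (u d : R) (hu : U1 u) : Φ' (u * d) = Φ' d := by
  obtain ⟨w, hw⟩ := hu.1.exists_left_inv
  by_cases hd : IsCoprime d c
  · obtain ⟨a, q, e⟩ := hd
    have h1 := hu.of_mul hw
    rw [h.rel a d ⟨-q, by linear_combination e⟩,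
      h.rel (w * a) (u * d) ⟨-q, by linear_combination e + a * d * hw⟩, h.unit w a h1, cb_mul_left,
      cb, h1.2 c hc, one_pow, one_mul]
  · rw [h.zero' d hd, h.zero' _ fun h' => hd h'.of_mul_left_right]

theorem Pair.assoc (h : Pair c Φ Φ') (hc : c ≠ 0) {u : R} (hu : U1 u) :
    Pair (u * c) Φ Φ' ∧ FT (u * c) Φ = FT c Φ ∧ FT (u * c) Φ' = FT c Φ' := by
  have h1 : ∀ a, ¬ IsCoprime a (u * c) → ¬ IsCoprime a c := fun a ha h' =>
    ha ((isCoprime_mul_unit_left_right hu.1 a c).2 h')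
  have h2 : Pair (u * c) Φ Φ' := ⟨h.per.mono (dvd_mul_left _ _), h.per'.mono (dvd_mul_left _ _),
    fun a ha => h.zero a (h1 a ha), fun a ha => h.zero' a (h1 a ha), h.unit, fun a d had => by
      rw [h.rel a d ((dvd_mul_left _ _).trans had), cb_mul_right, cb_unit_right a hu.1, one_mul]⟩
  have hc' := mul_ne_zero hu.1.ne_zero hc
  refine ⟨h2, funext fun k => ?_, funext fun k => ?_⟩
  · rw [← FT_U1 hc' h2.per h.unit hu, FT_unit_mul hu.1]
  · rw [← FT_U1 hc' h2.per' (h.unit' hc) hu, FT_unit_mul hu.1]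

theorem Pair.FT' (h : Pair c Φ Φ') (hc : c ≠ 0) {d : R → R}
    (hd : ∀ a, IsCoprime a c → c ∣ a * d a - 1) (k : R) :
    FT c Φ' k = ∑ a ∈ res c, Φ a * cb a c * eQ (k * d a) c := by
  have cp : ∀ {a b : R}, c ∣ a * b - 1 → IsCoprime b c := fun {a b} ⟨q, hq⟩ =>
    ⟨a, -q, by linear_combination hq⟩
  have cg : ∀ {a b : R}, c ∣ a - b → IsCoprime a c → IsCoprime b c := fun {a b} ⟨q, hq⟩ ⟨x, y, e⟩ =>
    ⟨x, y + x * q, by linear_combination e - x * hq⟩
  rw [FT, rsum_eq_of_system hc (h.per'.mul (per_eQ k c)) (res c)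
    (fun a => if IsCoprime a c then d a else a) (fun x => ?_) fun a ha b hb hab => res_inj ha hb ?_]
  · refine Finset.sum_congr rfl fun a _ => ?_
    split_ifs with ha
    · rw [h.rel a _ (hd a ha)]
    · simp [h.zero a ha, h.zero' a ha]
  · by_cases hx : IsCoprime x c
    · obtain ⟨x', q, e⟩ := hx
      obtain ⟨a, ha, q', e'⟩ := exists_res hc x'
      have h1 : IsCoprime a c := cg ⟨q', e'⟩ ⟨x, q, by linear_combination e⟩
      obtain ⟨q'', e''⟩ := hd a h1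
      exact ⟨a, ha, by
        rw [if_pos h1]
        exact ⟨-(x * q'') - q * d a - x * q' * d a, by
          linear_combination (-x) * e'' + d a * e - x * d a * e'⟩⟩
    · obtain ⟨a, ha, e⟩ := exists_res hc x
      exact ⟨a, ha, by rwa [if_neg fun h1 => hx (cg (dvd_sub_comm.1 e) h1)]⟩
  · split_ifs at hab with h1 h2 h2
    · obtain ⟨q, e⟩ := hab
      obtain ⟨q₁, e₁⟩ := hd a h1
      obtain ⟨q₂, e₂⟩ := hd b h2
      exact ⟨b * q₁ - a * q₂ - a * b * q, by linear_combination b * e₁ - a * e₂ - a * b * e⟩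
    · exact absurd (cg hab (cp (hd a h1))) h2
    · exact absurd (cg (dvd_sub_comm.1 hab) (cp (hd b h2))) h1
    · exact hab

theorem Dd.scale {I : Type} {ν : I → ℝ} {β : I → R → ℂ} {C ρ : ℝ} (h : Dd ν β C) (hρ : 0 < ρ) (z : ℂ) :
    ∃ C', Dd (fun i => ρ * ν i) (fun i l => z * β i l) C' := by
  have h0 : ∀ i, 0 < ν i := fun i => (one_div_pos.2 h.pos).trans_le (h.low i)
  have hC := h.pos
  have hs := Real.sqrt_pos.2 hρ
  refine ⟨C / ρ + ‖z‖ * C / √ρ, by positivity, fun i => ?_, fun d hd => ?_, fun i l => ?_⟩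
  · refine (one_div_le_one_div_of_le (by positivity) (le_add_of_nonneg_right (by positivity))).trans ?_
    rw [one_div_div, ← mul_one_div]
    exact mul_le_mul_of_nonneg_left (h.low i) hρ.le
  · simpa only [Real.mul_rpow hρ.le (h0 _).le] using (h.sum d hd).mul_left _
  · rw [norm_mul, Real.sqrt_mul hρ.le]
    calc _ ≤ ‖z‖ * (C * √(ν i) * ‖tau0 l‖) := mul_le_mul_of_nonneg_left (h.bd i l) (norm_nonneg _)
      _ = ‖z‖ * C / √ρ * (√ρ * √(ν i)) * ‖tau0 l‖ := by field_simp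
      _ ≤ _ := by
          gcongr
          exact le_add_of_nonneg_left (by positivity)

theorem FEp.of_scale {r : ℕ} {p : R → Prop} {I : Type} {ν : I → ℝ} {ε : I → Rˣ} {β : I → R → ℂ} {e z : ℂ}
    {B D n : ℝ} (hc : c ≠ 0) (hν : ∀ i, 0 < ν i) (hz : z ≠ 0) (hB : 0 < B) (hD : 0 < D) (hn : 0 < n)
    {Λ Λ' : ℂ → ℂ} (h1 : EntBdd Λ) (h2 : EntBdd Λ')
    (h3 : ∀ s : ℂ, 2 < s.re → Λ s = gth s ^ r * (z * (B : ℂ) ^ (-s) * ∑' n : Pr R,
      if p n then tau0 (n : R) * al (n : R) * FT c Φ (-n) * (nm (n : R) : ℂ) ^ (-s) else 0))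
    (h4 : ∀ s : ℂ, 2 < s.re → Λ' s = gth s ^ r * ∑' q : I × Pr R,
      β q.1 q.2 * FT c Φ' (ε q.1 * q.2) * ((D * (ν q.1 * nm (q.2 : R)) : ℝ) : ℂ) ^ (-s))
    (h5 : ∀ s : ℂ, Λ s = e * ((n * nm c : ℝ) : ℂ) ^ (1 - 2 * s) * Λ' (1 - s)) :
    FEp r p (fun i => B * D / n ^ 2 * ν i) ε (fun i l => z⁻¹ * (B / n : ℝ) * β i l) c Φ Φ' e := by
  have hN := nm_pos hc
  refine ⟨_, _, bra_cpow h1 z⁻¹ hB, bra_cpow h2 (z⁻¹ * (B / n : ℝ)) (B := n ^ 2 / B) (by positivity),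
    fun s hs => ?_, fun s hs => ?_, fun s => ?_⟩
  · have h6 : (B : ℂ) ^ s ≠ 0 := by rw [brb_pw hB]; exact Complex.exp_ne_zero _
    rw [h3 s hs, Complex.cpow_neg]
    field_simp
  · rw [h4 s hs, mul_left_comm, ← tsum_mul_left]
    congr 1
    refine tsum_congr fun q => ?_
    have h6 := hν q.1
    have h7 := nm_pos (Ar.pr_ne _ q.2.2)
    have h8 : ((n ^ 2 / B : ℝ) : ℂ) ^ s * ((D * (ν q.1 * nm (q.2 : R)) : ℝ) : ℂ) ^ (-s) =
        ((B * D / n ^ 2 * ν q.1 * nm (q.2 : R) : ℝ) : ℂ) ^ (-s) := by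
      rw [show D * (ν q.1 * nm (q.2 : R)) = n ^ 2 / B * (B * D / n ^ 2 * ν q.1 * nm (q.2 : R)) by
        field_simp, brb_pw (by positivity), brb_pw (by positivity), brb_pw (by positivity),
        Real.log_mul (by positivity) (by positivity), ← Complex.exp_add]
      congr 1
      push_cast
      ring
    rw [← h8]
    ring
  · have h8 : (B : ℂ) ^ s * ((n * nm c : ℝ) : ℂ) ^ (1 - 2 * s) =
        (nm c : ℂ) ^ (1 - 2 * s) * ((B / n : ℝ) * ((n ^ 2 / B : ℝ) : ℂ) ^ (1 - s)) := by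
      rw [brb_pw hB, brb_pw hN, brb_pw (by positivity), brb_pw (by positivity),
        brb_exp (x := B / n) (by positivity), Real.log_mul hn.ne' hN.ne', Real.log_div hB.ne' hn.ne',
        Real.log_div (by positivity) hB.ne', Real.log_pow, ← Complex.exp_add, ← Complex.exp_add,
        ← Complex.exp_add]
      congr 1
      push_cast
      ring
    rw [h5 s]
    linear_combination z⁻¹ * e * Λ' (1 - s) * h8

end Crest.Agent.R27.Ab
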