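import Crest.Agent.R27.TH.Defs

/-! Row 27, THETA, block BRIDGE (owner helper72): the interface.
`stTheta_of_br (hc : Ab.Count v.R) (h : StBr v) : Ab.StTheta v.R` is in `TH/Br.lean`. -/

set_option autoImplicit false

namespace Crest.Agent.R27.TH

open Crest.NumberTheoryR.EisensteinField Crest.Agent.R27.G
open scoped NumberField MatrixGroups

variable {F : Type} [Field F] [NumberField F] [Algebra K3 F] (v : Lv F) [Md v]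

/-- primal coefficients: the theta coefficients on the class `y (1 + M^K L)` -/
structure Prm (K : ℕ) (y : v.R) (τ : F → ℂ) : Prop where
  cf : Cf τ
  supp : ∀ ν, τ ν ≠ 0 → ν ∈ v.R ∧ UK v K (ν / y)
  val : ∃ A : ℂ, A ≠ 0 ∧ ∀ u n : v.R, IsUnit u → Ab.Prim n → UK v K ((u * n : v.R) / y) →
    τ (u * n : v.R) = A * (Ab.tau0 n * (Ab.nm n ^ (-(1 / 6) : ℝ) : ℝ))

/-- dual coefficients -/
structure Dua (m : ℕ) (τ : F → ℂ) : Prop where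
  cf : Cf τ
  supp : ∃ k, ∀ ν, τ ν ≠ 0 → ν ∈ v.R ∧ DK v k ν
  inv : ∀ u ∈ VK v m, ∀ ν, τ (((u : (𝓞 F)ˣ) : 𝓞 F) * ν) = τ ν
  bd : ∃ B : ℝ, ∀ u n : v.R, IsUnit u → Ab.Prim n →
    ‖τ (u * n : v.R)‖ ≤ B * (‖Ab.tau0 n‖ * Ab.nm n ^ (-(1 / 6) : ℝ))

/-- what the bridge needs: theta series and their reflections -/
def StBr : Prop :=
  ∃ K, 1 ≤ K ∧ ∀ y : v.R, Ab.Prim y → ∃ (τ₀ : ℂ) (τ : F → ℂ) (m : ℕ), Prm v K y τ ∧
    ∀ c₀ : v.R, Ab.Prim c₀ → ∃ (σ₀ : ℂ) (σ : F → ℂ) (m' t : ℕ), Dua v m' σ ∧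
      ∀ g : SL(2, F), InR v g → UK v m (g 1 0 / c₀) → LK v t (g 0 0) → LK v t (g 1 1) →
        ∀ w, Th τ₀ τ (act g w) = cbF v (g 0 0) (g 1 0) * Th σ₀ σ w

end Crest.Agent.R27.TH
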