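import Crest.Agent.R27.TH.RhoA
import Crest.Agent.R27.TH.Emb

/-! Row 27, THETA, block ARI (owner helper6): levels, the symbols on `F`, sizes, finiteness.
The basic API is in `Lev.lean` (`v` implicit); this file only adds what is missing there. -/

set_option autoImplicit false
set_option linter.unusedSectionVars false

namespace Crest.Agent.R27.TH

open Crest.Agent.R17 (sgK sg EntBdd gth)
open Crest.Agent.R17.D (Qf KB pw)
open Crest.NumberTheoryR.EisensteinField Crest.Agent.R27.G MeasureTheory Filter Set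
open scoped NumberField ComplexConjugate Classical Real Topology MatrixGroups

variable {F : Type} [Field F] [NumberField F] [Algebra K3 F] {v : Lv F}

section
omit [NumberField F] [Algebra K3 F]
/-- casts `𝓞 F → F` in the normal form `(a : F)` (`push_cast` produces another form) -/
theorem ci_mul (a b : 𝓞 F) : ((a * b : 𝓞 F) : F) = a * b := rfl
theorem ci_add (a b : 𝓞 F) : ((a + b : 𝓞 F) : F) = a + b := rfl
theorem ci_sub (a b : 𝓞 F) : ((a - b : 𝓞 F) : F) = a - b := rfl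
theorem ci_neg (a : 𝓞 F) : ((-a : 𝓞 F) : F) = -a := rfl
theorem ci_one : ((1 : 𝓞 F) : F) = 1 := rfl
theorem ci_zero : ((0 : 𝓞 F) : F) = 0 := rfl
theorem ci_pow (a : 𝓞 F) (n : ℕ) : ((a ^ n : 𝓞 F) : F) = a ^ n := map_pow (algebraMap (𝓞 F) F) a n
theorem ci_nat (n : ℕ) : ((n : 𝓞 F) : F) = n := map_natCast (algebraMap (𝓞 F) F) n
end

theorem LK.mul_mem {k : ℕ} {x y : F} (hx : LK v k x) (hy : y ∈ v.L) : LK v k (x * y) := hx.mul_L hy

theorem LK.mem {k : ℕ} {x : F} (hx : LK v k x) : x ∈ v.L := hx.mem_L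

theorem LK_zero {x : F} : LK v 0 x ↔ x ∈ v.L := LK_zero_level

theorem DK.of_mem (k : ℕ) {x : F} (hx : x ∈ v.L) : DK v k x := DK_of_L hx

theorem VK_anti {k k' : ℕ} (h : k ≤ k') : VK v k' ≤ VK v k := VK_mono h

theorem approxL' (k : ℕ) {x : F} (hx : x ≠ 0) {b : v.R} (hb : b ≠ 0) (a₀ : v.R) :
    ∃ a : v.R, b ∣ a - a₀ ∧ LK v k (a / x) := by
  obtain ⟨a, ha, h⟩ := approxK 0 (mul_ne_zero (pow_ne_zero k v.M_ne) hx) hb a₀
  refine ⟨a, ha, _, h.mem_L, ?_⟩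
  field_simp [v.M_ne]

theorem Dl.exists_int {j : ℕ} {ν : F} (h : Dl (v.M ^ j) ν) : ∃ a : 𝓞 F, (v.M : F) * (ν * (v.M : F) ^ j) = a :=
  v.dual _ fun y => eT_eq_one.1 (by simpa [mul_assoc] using h y)

theorem Dl.mem_R {j : ℕ} {ν : F} (h : Dl (v.M ^ j) ν) : ν ∈ v.R ∧ DK v (j + 1) ν := by
  obtain ⟨a, ha⟩ := h.exists_int
  have e : (v.M : F) ^ (j + 1) * ν = a := by rw [← ha]; ring
  exact ⟨⟨j + 1, a, e⟩, by unfold DK; rw [e]; exact v.coe_mem_L a⟩

/-- `ν y = l + ρ` with `ρ` in the inverse different -/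
theorem Dl.psi_eq {j : ℕ} {ν y : F} (h : Dl (v.M ^ j) ν) (hy : LK v j y) : v.psi (ν * y) = eT (ν * y) := by
  obtain ⟨a, ha⟩ := h.exists_int
  obtain ⟨l, hl, rfl⟩ := hy
  obtain ⟨t, b, ht, hb⟩ := id hl
  obtain ⟨s, w, hw⟩ : IsCoprime (t : 𝓞 F) (v.M : 𝓞 F) := Nat.Coprime.cast ht
  have hw' : (s : F) * t + w * v.M = 1 := by simpa using congrArg (fun z : 𝓞 F => (z : F)) hw
  have e : ν * ((v.M : F) ^ j * l) = ν * ((v.M ^ j : ℕ) * (s * b : 𝓞 F)) + a * (w * l) := by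
    rw [← ha, ci_mul, ← hb, Nat.cast_pow]
    linear_combination (-ν * v.M ^ j * l) * hw'
  have hL : (a : F) * (w * l) ∈ v.L := mul_mem (v.coe_mem_L a) (mul_mem (v.coe_mem_L w) hl)
  rw [e, eT_add, h, one_mul]
  refine v.psi_eq hL ?_
  rw [add_sub_cancel_right]
  exact mul_mem h.mem_R.1 (mul_mem (natCast_mem _ _) (v.coe_mem_R _))

/-! ### symbols -/

theorem cbF_ne_zero {x y : F} : cbF v x y ≠ 0 ↔ y ≠ 0 ∧ Row v (x, y) := by
  constructor
  · intro h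
    have hR : x ∈ v.R ∧ y ∈ v.R := by_contra fun e => h (cbF_eq_zero e)
    lift x to v.R using hR.1
    lift y to v.R using hR.2
    rw [cbF_coe, Ne, pow_eq_zero_iff two_ne_zero] at h
    have hy : y ≠ 0 := fun e => h (by rw [e, v.sx_zero_right])
    refine ⟨v.clsd_ne hy, x, y, by_contra fun e => h ?_, rfl⟩
    have := v.sx_pow_six x hy
    rwa [if_neg e, pow_eq_zero_iff (by norm_num)] at this
  · rintro ⟨hy, c, d, hc, h⟩
    obtain ⟨rfl, rfl⟩ := Prod.ext_iff.1 h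
    have := v.sx_pow_six c (n := d) fun e => hy (by rw [e]; rfl)
    rw [if_pos hc] at this
    rw [cbF_coe]
    exact pow_ne_zero 2 fun e => by simp [e] at this

theorem norm_cbF_le (x y : F) : ‖cbF v x y‖ ≤ 1 := by
  by_cases h : cbF v x y = 0
  · simp [h]
  obtain ⟨hy, c, d, hc, e⟩ := cbF_ne_zero.1 h
  obtain ⟨rfl, rfl⟩ := Prod.ext_iff.1 e
  have := v.sx_pow_six c (n := d) fun e => hy (by rw [e]; rfl)
  rw [if_pos hc] at this
  have h1 : ‖v.sx c d‖ = 1 := (pow_eq_one_iff_of_nonneg (norm_nonneg _) (by norm_num : 6 ≠ 0)).1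
    (by rw [← norm_pow, this, norm_one])
  rw [cbF_coe, norm_pow, h1, one_pow]

theorem hil_cube (x y : F) : hil v x y ^ 3 = 1 := hil_pow_three x y

theorem hil_congr_left {x x' : F} (h : v.U (x' / x)) (y : F) : hil v x' y = hil v x y :=
  hil_UK_left le_rfl (UK_one_iff.2 h) y

theorem hil_congr_right (x : F) {y y' : F} (h : v.U (y' / y)) : hil v x y' = hil v x y :=
  hil_UK_right le_rfl x (UK_one_iff.2 h)

theorem hil_U {x : F} (h : v.U x) (y : F) : hil v x y = 1 := hil_U_left h y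

theorem cbF_unit {u c : v.R} (hu : IsUnit u) (hc : c ≠ 0) : cbF v u c = hil v u c := by
  rw [cbF_recip (v.clsd_ne hu.ne_zero) (v.clsd_ne hc), cbF_coe, v.sx_unit_right _ hu, one_pow, mul_one]

/-! ### sizes -/

theorem an_eq_N {a : 𝓞 F} (h : IsCoprime a (v.M : 𝓞 F)) : an (a : F) = v.N (v.up a) := by
  rw [an_int, Lv.N, v.idl_up h]

theorem N_pos {c : v.R} (hc : c ≠ 0) : (0 : ℝ) < v.N c := by
  exact_mod_cast Nat.pos_of_ne_zero fun e => v.idl_ne_bot hc (Ideal.absNorm_eq_zero_iff.1 e)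

/-- `a / b = A / B` with `A`, `B` integers coprime to `M` (`idl_up`, `an_coe`, `N_mul`) -/
theorem an_mul_N {a b : v.R} (ha : a ≠ 0) (hb : b ≠ 0) (h : (a : F) / b ∈ v.L) (h' : (b : F) / a ∈ v.L) :
    an (a : F) * v.N b = an (b : F) * v.N a := by
  obtain ⟨t, A, ht, hA⟩ := h
  obtain ⟨s, B, hs, hB⟩ := h'
  have ha' := v.clsd_ne ha
  have hb' := v.clsd_ne hb
  have e : A * B = ((t * s : ℕ) : 𝓞 F) := NumberField.RingOfIntegers.ext (by
    rw [ci_mul, ci_nat, ← hA, ← hB, Nat.cast_mul]; field_simp)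
  have hAc : IsCoprime A (v.M : 𝓞 F) := IsCoprime.of_mul_left_left (y := B) (e ▸ Nat.Coprime.cast (ht.mul_left hs))
  have e1 : (t : F) * a = A * b := by rw [← hA]; field_simp
  have e2 : v.up t * a = v.up A * b := Subtype.ext (by simpa using e1)
  have h1 := congrArg an e1
  have h2 := congrArg (fun n => (v.N n : ℝ)) e2
  have h3 := an_eq_N (v := v) (a := (t : 𝓞 F)) (Nat.Coprime.cast ht)
  simp only [an_mul, v.N_mul, Nat.cast_mul, ← an_eq_N hAc, ← h3] at h1 h2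
  have h4 : 0 < an ((t : 𝓞 F) : F) := an_pos (v.loca_ne_zero' (Nat.Coprime.cast ht))
  have h5 : ((t : 𝓞 F) : F) = t := by simp
  rw [h5] at h2 h4
  refine mul_left_cancel₀ h4.ne' ?_
  linear_combination (v.N b : ℝ) * h1 - an (b : F) * h2

theorem exists_RU (v : Lv F) {x : F} (hx : x ≠ 0) :
    ∃ c : v.R, c ≠ 0 ∧ v.U (c / x) ∧ (c : F) / x ∈ v.L ∧ x / c ∈ v.L := by
  obtain ⟨c, -, h⟩ := v.approx hx one_ne_zero 0
  exact ⟨c, fun e => v.U_ne_zero h (by simp [e]), h, v.U_mem_L h, inv_div (c : F) x ▸ v.U_mem_L (v.U_inv h)⟩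

theorem div_mem_trans {x y z : F} (hy : y ≠ 0) (h : x / y ∈ v.L) (h' : y / z ∈ v.L) : x / z ∈ v.L := by
  rw [show x / z = x / y * (y / z) by field_simp]
  exact mul_mem h h'

theorem ns_eq {x : F} (hx : x ≠ 0) {c : v.R} (hc : c ≠ 0) (h : (c : F) / x ∈ v.L) (h' : x / c ∈ v.L) :
    ns v x = an (c : F) / v.N c := by
  have h0 : ∃ c : v.R, v.U (c / x) := (exists_RU v hx).imp fun _ h => h.2.1
  have hU := h0.choose_spec
  rw [ns, dif_pos h0]
  generalize h0.choose = a at hU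
  have ha : a ≠ 0 := fun e => v.U_ne_zero hU (by simp [e])
  rw [div_eq_div_iff (N_pos ha).ne' (N_pos hc).ne']
  exact an_mul_N ha hc (div_mem_trans hx (v.U_mem_L hU) h')
    (div_mem_trans hx h (inv_div (a : F) x ▸ v.U_mem_L (v.U_inv hU)))

@[simp] theorem ns_zero : ns v (0 : F) = 0 := dif_neg fun ⟨_, h⟩ => v.U_ne_zero h (div_zero _)

theorem ns_coe {c : v.R} (hc : c ≠ 0) : an (c : F) = ns v c * v.N c := by
  have h := div_self (v.clsd_ne hc)
  rw [ns_eq (v.clsd_ne hc) hc (h ▸ one_mem _) (h ▸ one_mem _), div_mul_cancel₀ _ (N_pos hc).ne']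

theorem ns_congr {x y : F} (hx : x ≠ 0) (hy : y ≠ 0) (h : x / y ∈ v.L) (h' : y / x ∈ v.L) : ns v x = ns v y := by
  obtain ⟨c, hc, -, h1, h2⟩ := exists_RU v hx
  rw [ns_eq hx hc h1 h2, ns_eq hy hc (div_mem_trans hx h1 h) (div_mem_trans hx h' h2)]

theorem ns_U {x y : F} (h : v.U (x / y)) : ns v x = ns v y := by
  have h0 := v.U_ne_zero h
  exact ns_congr (left_ne_zero_of_mul (div_eq_mul_inv x y ▸ h0)) (fun e => h0 (by simp [e])) (v.U_mem_L h)
    (inv_div x y ▸ v.U_mem_L (v.U_inv h))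

theorem ns_mul (x y : F) : ns v (x * y) = ns v x * ns v y := by
  rcases eq_or_ne x 0 with rfl | hx
  · simp
  rcases eq_or_ne y 0 with rfl | hy
  · simp
  obtain ⟨c, hc, -, h1, h2⟩ := exists_RU v hx
  obtain ⟨d, hd, -, h3, h4⟩ := exists_RU v hy
  rw [ns_eq hx hc h1 h2, ns_eq hy hd h3 h4, ns_eq (mul_ne_zero hx hy) (mul_ne_zero hc hd)
    (by push_cast; rw [mul_div_mul_comm]; exact mul_mem h1 h3)
    (by push_cast; rw [mul_div_mul_comm]; exact mul_mem h2 h4), v.N_mul]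
  push_cast
  rw [an_mul, mul_div_mul_comm]

theorem ns_pos {x : F} (hx : x ≠ 0) : 0 < ns v x := by
  obtain ⟨c, hc, -, h1, h2⟩ := exists_RU v hx
  rw [ns_eq hx hc h1 h2]
  exact div_pos (an_pos (v.clsd_ne hc)) (N_pos hc)

theorem ns_nonneg (x : F) : 0 ≤ ns v x := by
  rcases eq_or_ne x 0 with rfl | hx
  · simp
  · exact (ns_pos hx).le

@[simp] theorem ns_one : ns v (1 : F) = 1 :=
  mul_left_cancel₀ (ns_pos (v := v) one_ne_zero).ne' (by rw [← ns_mul, mul_one, mul_one])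

theorem ns_inv (x : F) : ns v x⁻¹ = (ns v x)⁻¹ := by
  rcases eq_or_ne x 0 with rfl | hx
  · simp
  · exact eq_inv_of_mul_eq_one_left (by rw [← ns_mul, inv_mul_cancel₀ hx, ns_one])

theorem ns_div (x y : F) : ns v (x / y) = ns v x / ns v y := by rw [div_eq_mul_inv, ns_mul, ns_inv, div_eq_mul_inv]

theorem ns_neg (x : F) : ns v (-x) = ns v x := by
  rcases eq_or_ne x 0 with rfl | hx
  · simp
  · exact ns_congr (neg_ne_zero.2 hx) hx (by rw [neg_div, div_self hx]; exact neg_mem (one_mem _))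
      (by rw [div_neg, div_self hx]; exact neg_mem (one_mem _))

theorem ns_UK {k : ℕ} (hk : 1 ≤ k) {x y : F} (h : UK v k (x / y)) : ns v x = ns v y := ns_U (h.U hk)

theorem ns_unit {u : v.R} (hu : IsUnit u) : ns v u = an (u : F) := by
  rw [ns_coe hu.ne_zero, Lv.N, v.idl_unit hu, Ideal.absNorm_top, Nat.cast_one, mul_one]

/-- the ideal `x L ∩ 𝓞` -/
theorem exists_J {x : F} (hx : x ≠ 0) (hL : x ∈ v.L) : ∃ J : Ideal (𝓞 F), (∃ m, (v.M : 𝓞 F) ^ m ∈ J) ∧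
    ns v x = Ideal.absNorm J ∧ (∃ a ∈ J, (a : F) ≠ 0 ∧ x / a ∈ v.L) ∧ ∀ b ∈ J, (b : F) / x ∈ v.L := by
  obtain ⟨c, hc, -, h1, h2⟩ := exists_RU v hx
  obtain ⟨a, ha⟩ := v.inter c.2 (by simpa [hx] using mul_mem h1 hL)
  obtain rfl : c = v.up a := Subtype.ext ha
  have ha0 : a ≠ 0 := fun e => hc (e ▸ map_zero (algebraMap (𝓞 F) v.R))
  have ha1 : (a : F) ≠ 0 := v.clsd_ne hc
  obtain ⟨J, m, hJ, hm⟩ := v.exists_split ha0
  refine ⟨J, ⟨m, hm⟩, ?_, ⟨a, Ideal.mul_le_right (hJ ▸ Ideal.mem_span_singleton_self a), ha1, h2⟩, fun b hb => ?_⟩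
  · rw [ns_eq hx hc h1 h2, v.coe_up, an_int, hJ, map_mul, Nat.cast_mul, div_eq_iff (N_pos hc).ne', mul_comm]
    rfl
  · obtain ⟨w, hw⟩ := cp_iff.1 (v.cp_idl hc)
    obtain ⟨y, hy⟩ : a ∣ ((v.M : 𝓞 F) * w - 1) * b := by
      rw [← Ideal.mem_span_singleton, hJ]
      exact Ideal.mul_mem_mul hw hb
    have hc' : IsCoprime ((v.M : 𝓞 F) * w - 1) (v.M : 𝓞 F) := ⟨-1, w, by ring⟩
    have h0 := v.loca_ne_zero' hc'
    have hy' : (((v.M : 𝓞 F) * w - 1 : 𝓞 F) : F) * b = a * y := by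
      simpa only [map_mul] using congrArg (algebraMap (𝓞 F) F) hy
    refine div_mem_trans ha1 ?_ h1
    rw [show (b : F) / a = y * (((v.M : 𝓞 F) * w - 1 : 𝓞 F) : F)⁻¹ by field_simp; linear_combination hy']
    exact mul_mem (v.coe_mem_L y) (v.inv_mem_L hc')

theorem one_le_ns {x : F} (hx : x ≠ 0) (hL : x ∈ v.L) : 1 ≤ ns v x := by
  obtain ⟨J, -, h, -⟩ := exists_J hx hL
  have := ns_pos (v := v) hx
  rw [h] at this ⊢
  exact_mod_cast this

theorem ns_ge (v : Lv F) (k : ℕ) : ∃ δ : ℝ, 0 < δ ∧ ∀ x : F, x ≠ 0 → DK v k x → δ ≤ ns v x := by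
  have h := ns_pos (v := v) (pow_ne_zero k v.M_ne)
  refine ⟨(ns v ((v.M : F) ^ k))⁻¹, inv_pos.2 h, fun x hx hD => ?_⟩
  rw [inv_le_iff_one_le_mul₀' h, ← ns_mul]
  exact one_le_ns (mul_ne_zero (pow_ne_zero k v.M_ne) hx) hD

theorem ang_int {a : 𝓞 F} (h : (v.M : 𝓞 F) ∣ a - 1) : ang (a : F) = v.al (v.up a) := by
  obtain ⟨w, hw⟩ := id h
  have h3 : (3 : 𝓞 F) ∣ v.M := by exact_mod_cast Nat.cast_dvd_cast (α := 𝓞 F) ((by norm_num : 3 ∣ 72).trans v.dvd)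
  rw [Lv.al, v.nrm_up ⟨1, -w, by linear_combination hw⟩ (h3.trans h), R17.al, ← prod_em_coe, ang,
    Finset.prod_div_distrib, norm_prod, Complex.ofReal_prod]

/-- `a B = b A` with integers `A, B ≡ 1 (mod M)`; `nrm_up`, `prod_em_coe` -/
theorem ang_mul_al {a b : v.R} (h : v.U ((a : F) / b)) : ang (a : F) * v.al b = ang (b : F) * v.al a := by
  obtain ⟨l, ⟨t, e, ht, he⟩, hl⟩ := id h
  have hb : b ≠ 0 := fun e => v.U_ne_zero h (by simp [e])
  have hb' := v.clsd_ne hb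
  obtain ⟨s, w, hw⟩ : IsCoprime (t : 𝓞 F) (v.M : 𝓞 F) := Nat.Coprime.cast ht
  have hB : (v.M : 𝓞 F) ∣ s * t - 1 := ⟨-w, by linear_combination hw⟩
  have hA : (v.M : 𝓞 F) ∣ s * t + v.M * (s * e) - 1 := ⟨s * e - w, by linear_combination hw⟩
  have e1 : (a : F) * (s * t : 𝓞 F) = b * (s * t + v.M * (s * e) : 𝓞 F) := by
    simp only [ci_mul, ci_add, ci_nat]
    rw [← he, (div_eq_iff hb').1 hl]
    ring
  have e2 : a * v.up (s * t) = b * v.up (s * t + v.M * (s * e)) := Subtype.ext e1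
  have h1 := congrArg ang e1
  have h2 := congrArg v.al e2
  rw [ang_mul, ang_mul, ang_int hA, ang_int hB] at h1
  rw [v.al_mul, v.al_mul] at h2
  have h3 : v.al (v.up (s * t)) ≠ 0 :=
    norm_ne_zero_iff.1 (by rw [v.norm_al (v.clsd_U_ne (v.U_coe hB))]; exact one_ne_zero)
  refine mul_right_cancel₀ h3 ?_
  linear_combination v.al b * h1 - ang (b : F) * h2

theorem ang_VK {k : ℕ} (hk : 1 ≤ k) {u : (𝓞 F)ˣ} (hu : u ∈ VK v k) : ang ((u : 𝓞 F) : F) = 1 := by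
  obtain ⟨a, ha, h⟩ := v.U_inter (v.coe_mem_R _) ((mem_VK.1 hu).U hk)
  obtain rfl : (u : 𝓞 F) = a := NumberField.RingOfIntegers.ext ha
  rw [ang_int h, v.al_unit (u.isUnit.map _)]

/-- a system of representatives of `Fˣ / (1 + M^K L)` -/
theorem exists_reps (v : Lv F) {K : ℕ} (hK : 1 ≤ K) : ∃ T : Set F, (∀ ξ ∈ T, ξ ≠ 0) ∧
    ∀ x : F, x ≠ 0 → ∃! ξ, ξ ∈ T ∧ UK v K (x / ξ) := by
  let f : F → F := fun x => Classical.epsilon fun y => UK v K (x / y)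
  have hf : ∀ x, x ≠ 0 → UK v K (x / f x) := fun x hx =>
    Classical.epsilon_spec (p := fun y => UK v K (x / y)) ⟨x, UK_refl hx⟩
  have hc : ∀ x y, UK v K (x / y) → f x = f y := fun x y h =>
    congrArg Classical.epsilon (funext fun z => propext ⟨(h.symm hK).trans hK, h.trans hK⟩)
  refine ⟨f '' {0}ᶜ, ?_, fun x hx => ⟨f x, ⟨⟨x, hx, rfl⟩, hf x hx⟩, ?_⟩⟩
  · rintro _ ⟨x, hx, rfl⟩
    exact (hf x hx).ne_right hK
  · rintro _ ⟨⟨y, hy, rfl⟩, h⟩
    exact (hc _ _ (h.trans hK ((hf y hy).symm hK))).symm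

/-- finiteness of the ray class group -/
theorem exists_fin (v : Lv F) {K : ℕ} (hK : 1 ≤ K) : ∃ S : Finset F, (∀ c ∈ S, c ≠ 0) ∧
    ∀ x : F, x ≠ 0 → ∃ c ∈ S, ∃ u : v.R, IsUnit u ∧ UK v K (x / (u * c)) := by
  obtain ⟨S, hS, h⟩ := fin_classes v hK
  refine ⟨S.image (↑), fun c hc => ?_, fun x hx => ?_⟩
  · obtain ⟨s, hs, rfl⟩ := Finset.mem_image.1 hc
    exact fun e => (hS s hs).1 (NumberField.RingOfIntegers.ext e)
  · obtain ⟨s, hs, h⟩ := h x hx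
    exact ⟨s, Finset.mem_image_of_mem _ hs, h⟩

theorem sum_ideals {q : 𝓞 F} (hq : q ≠ 0) {δ : ℝ} (hδ : 0 < δ) : ∃ C : ℝ, ∀ S : Finset (Ideal (𝓞 F)),
    (∀ J ∈ S, ∃ m, q ^ m ∈ J) → ∑ J ∈ S, (Ideal.absNorm J : ℝ) ^ (-δ) ≤ C := by
  set T := (Ring.HasFiniteQuotients.finite_setOfPred_mem q hq).toFinset.filter Prime
  set r : ℝ := 2 ^ (-δ)
  have hr0 : 0 ≤ r := by positivity
  have hr1 : r < 1 := Real.rpow_lt_one_of_one_lt_of_neg one_lt_two (by linarith)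
  refine ⟨∏ _P : T, (1 - r)⁻¹, fun S hS => ?_⟩
  let e : Ideal (𝓞 F) → T → ℕ := fun J P => (UniqueFactorizationMonoid.normalizedFactors J).count P.1
  have he : ∀ J ∈ S, J = ∏ P : T, P.1 ^ e J P := fun J hJ => by
    obtain ⟨m, hm⟩ := hS J hJ
    have h0 : J ≠ ⊥ := fun e => pow_ne_zero m hq (by simpa [e] using hm)
    rw [Finset.prod_coe_sort T fun P => P ^ (UniqueFactorizationMonoid.normalizedFactors J).count P,
      ← Finset.prod_multiset_count_of_subset, Ideal.prod_normalizedFactors_eq_self h0]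
    intro P hP
    have hP' := Multiset.mem_toFinset.1 hP
    have hp := UniqueFactorizationMonoid.prime_of_normalized_factor P hP'
    refine Finset.mem_filter.2 ⟨(Set.Finite.mem_toFinset _).2 ?_, hp⟩
    exact (Ideal.isPrime_of_prime hp).mem_of_pow_mem m
      (Ideal.le_of_dvd (UniqueFactorizationMonoid.dvd_of_mem_normalizedFactors hP') hm)
  have h2 : ∀ P : T, (Ideal.absNorm P.1 : ℝ) ^ (-δ) ≤ r := fun P => by
    have hp := (Finset.mem_filter.1 P.2).2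
    have h0 : Ideal.absNorm P.1 ≠ 0 := fun e => hp.ne_zero (Ideal.absNorm_eq_zero_iff.1 e)
    have h1 : Ideal.absNorm P.1 ≠ 1 := fun e => hp.ne_one (by simpa using Ideal.absNorm_eq_one_iff.1 e)
    exact Real.rpow_le_rpow_of_nonpos two_pos (by exact_mod_cast (by omega : 2 ≤ Ideal.absNorm P.1)) (by linarith)
  obtain ⟨n, hn⟩ : ∃ n, ∀ J ∈ S, ∀ P, e J P < n :=
    ⟨(S.sup fun J => Finset.univ.sup (e J)) + 1, fun J hJ P => Nat.lt_succ_of_le
      ((Finset.le_sup (Finset.mem_univ P)).trans (Finset.le_sup (f := fun J => Finset.univ.sup (e J)) hJ))⟩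
  calc ∑ J ∈ S, (Ideal.absNorm J : ℝ) ^ (-δ) ≤ ∑ J ∈ S, ∏ P, r ^ e J P := Finset.sum_le_sum fun J hJ => by
        conv_lhs => rw [he J hJ, map_prod, Nat.cast_prod, ← Real.finsetProd_rpow _ _ fun _ _ => Nat.cast_nonneg _]
        refine Finset.prod_le_prod (fun _ _ => by positivity) fun P _ => ?_
        rw [map_pow, Nat.cast_pow, ← Real.rpow_pow_comm (Nat.cast_nonneg _)]
        exact pow_le_pow_left₀ (by positivity) (h2 P) _
    _ = ∑ f ∈ S.image e, ∏ P, r ^ f P :=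
        (Finset.sum_image (f := fun f : T → ℕ => ∏ P, r ^ f P) fun J hJ J' hJ' h => by
          rw [he J hJ, he J' hJ', h]).symm
    _ ≤ ∑ f ∈ Fintype.piFinset fun _ : T => Finset.range n, ∏ P, r ^ f P :=
        Finset.sum_le_sum_of_subset_of_nonneg (fun f hf => by
          obtain ⟨J, hJ, rfl⟩ := Finset.mem_image.1 hf
          exact Fintype.mem_piFinset.2 fun P => Finset.mem_range.2 (hn J hJ P)) fun _ _ _ => by positivity
    _ = ∏ _P : T, ∑ i ∈ Finset.range n, r ^ i := (Finset.prod_univ_sum _ fun _ i => r ^ i).symm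
    _ ≤ _ := Finset.prod_le_prod (fun _ _ => by positivity) fun _ _ =>
        sum_le_hasSum _ (fun _ _ => by positivity) (hasSum_geometric_of_lt_one hr0 hr1)

/-- `Lˣ / (1 + M^K L)` is finite -/
theorem card_cls (v : Lv F) (K : ℕ) : ∃ n : ℕ, ∀ S : Finset F, (∀ x ∈ S, x ≠ 0) →
    (∀ x ∈ S, ∀ y ∈ S, x / y ∈ v.L) → (∀ x ∈ S, ∀ y ∈ S, UK v K (y / x) → y = x) → S.card ≤ n := by
  let I : Ideal (𝓞 F) := Ideal.span {(v.M : 𝓞 F) ^ K}
  have hI : I ≠ ⊥ := by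
    rw [Ne, Ideal.span_singleton_eq_bot]; exact pow_ne_zero _ v.M_ne'
  have : Fintype (𝓞 F ⧸ I) := @Fintype.ofFinite _ (Ring.HasFiniteQuotients.finiteQuotient hI)
  refine ⟨Fintype.card (𝓞 F ⧸ I), fun S h0 h1 h2 => ?_⟩
  rcases S.eq_empty_or_nonempty with rfl | ⟨y, hy⟩
  · simp
  have : ∀ x : F, ∃ a : 𝓞 F, x ∈ S → LK v K (a - x / y) := fun x => by
    by_cases hx : x ∈ S
    · obtain ⟨a, -, ha⟩ := approxL (v := v) K (x / y) one_ne_zero 0
      obtain ⟨b, hb⟩ := v.inter a.2 (by simpa using add_mem ha.mem_L (h1 x hx y hy))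
      exact ⟨b, fun _ => hb ▸ ha⟩
    · exact ⟨0, fun h => absurd h hx⟩
  choose a ha using this
  refine Finset.card_le_card_of_injOn (t := Finset.univ) (fun x => Ideal.Quotient.mk I (a x))
    (fun _ _ => Finset.mem_univ _) fun x hx x' hx' h => h2 x' hx' x hx ?_
  have h3 : LK v K ((a x - a x' : 𝓞 F) : F) := LK_coe (Ideal.mem_span_singleton.1 (Ideal.Quotient.eq.1 h))
  have := h0 x' hx'
  have := h0 y hy
  unfold UK
  rw [show x / x' - 1 = (((a x - a x' : 𝓞 F) : F) - (a x - x / y) + (a x' - x' / y)) * (y / x') by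
    push_cast; field_simp; ring]
  exact ((h3.sub (ha x hx)).add (ha x' hx')).mul_L (h1 y hy x' hx')

/-- `x ↦ J x = M^k x L ∩ 𝓞`, an ideal containing a power of `M`, of norm `M^(k n) ns x`; at most `|𝓞 / M^K|`
inequivalent `x` have the same `J x`; `∑_{J ∣ M^∞} N J ^ (-δ) < ∞` -/
theorem sum_ns (v : Lv F) {K : ℕ} (hK : 1 ≤ K) (k : ℕ) {δ : ℝ} (hδ : 0 < δ) : ∃ C : ℝ, ∀ S : Finset F,
    (∀ x ∈ S, x ≠ 0 ∧ DK v k x) → (∀ x ∈ S, ∀ y ∈ S, UK v K (y / x) → y = x) →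
      ∑ x ∈ S, ns v x ^ (-δ) ≤ C := by
  obtain ⟨C, hC⟩ := sum_ideals v.M_ne' hδ
  obtain ⟨n, hn⟩ := card_cls v K
  have hM := pow_ne_zero k v.M_ne
  refine ⟨ns v ((v.M : F) ^ k) ^ δ * (n * C), fun S h1 h2 => ?_⟩
  have : ∀ x : F, ∃ J : Ideal (𝓞 F), x ∈ S → _ := fun x => by
    by_cases hx : x ∈ S
    · exact (exists_J (mul_ne_zero hM (h1 x hx).1) (h1 x hx).2).imp fun _ h _ => h
    · exact ⟨⊥, fun h => absurd h hx⟩
  choose J hJ using this
  have e : ∑ x ∈ S, ns v x ^ (-δ) = ns v ((v.M : F) ^ k) ^ δ * ∑ x ∈ S, (Ideal.absNorm (J x) : ℝ) ^ (-δ) := by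
    rw [Finset.mul_sum]
    refine Finset.sum_congr rfl fun x hx => ?_
    rw [← (hJ x hx).2.1, ns_mul, Real.mul_rpow (ns_nonneg _) (ns_nonneg _), ← mul_assoc,
      ← Real.rpow_add (ns_pos hM), add_neg_cancel, Real.rpow_zero, one_mul]
  rw [e, Finset.sum_comp (fun I : Ideal (𝓞 F) => (Ideal.absNorm I : ℝ) ^ (-δ)) J]
  refine mul_le_mul_of_nonneg_left (le_trans ?_ (mul_le_mul_of_nonneg_left (hC (S.image J) fun I hI => ?_)
    (Nat.cast_nonneg n))) (Real.rpow_nonneg (ns_nonneg _) _)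
  · rw [Finset.mul_sum]
    refine Finset.sum_le_sum fun I _ => ?_
    rw [nsmul_eq_mul]
    refine mul_le_mul_of_nonneg_right (Nat.cast_le.2 (hn _ (fun x hx => (h1 x (Finset.mem_filter.1 hx).1).1)
      (fun x hx y hy => ?_) fun x hx y hy => h2 x (Finset.mem_filter.1 hx).1 y (Finset.mem_filter.1 hy).1))
      (by positivity)
    obtain ⟨hx, ex⟩ := Finset.mem_filter.1 hx
    obtain ⟨hy, ey⟩ := Finset.mem_filter.1 hy
    obtain ⟨a, ha, ha0, h⟩ := (hJ x hx).2.2.1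
    have := div_mem_trans ha0 h ((hJ y hy).2.2.2 a (by rw [ey, ← ex]; exact ha))
    rwa [mul_div_mul_left _ _ hM] at this
  · obtain ⟨x, hx, rfl⟩ := Finset.mem_image.1 hI
    exact (hJ x hx).1

/-- `sum_ns`; `ns` is bounded on the set (`ns_ge`, `ns_mul`) -/
theorem finite_cls {K : ℕ} (hK : 1 ≤ K) (k k' : ℕ) {ν : F} (hν : ν ≠ 0) {T : Set F}
    (hT : ∀ x ∈ T, ∀ y ∈ T, UK v K (y / x) → y = x) :
    {x | x ∈ T ∧ x ≠ 0 ∧ DK v k x ∧ DK v k' (ν / x)}.Finite := by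
  obtain ⟨C, hC⟩ := sum_ns v hK k one_pos
  obtain ⟨δ, hδ, h⟩ := ns_ge v k'
  have hp := div_pos hδ (ns_pos (v := v) hν)
  obtain ⟨n, hn⟩ := exists_nat_gt (C / (δ / ns v ν))
  by_contra hi
  obtain ⟨S, hS, rfl⟩ := Set.Infinite.exists_subset_card_eq hi n
  refine absurd (hC S (fun x hx => ⟨(hS hx).2.1, (hS hx).2.2.1⟩) fun x hx y hy => hT x (hS hx).1 y (hS hy).1) ?_
  rw [div_lt_iff₀ hp, ← nsmul_eq_mul] at hn
  refine not_le.2 (hn.trans_le (Finset.card_nsmul_le_sum _ _ _ fun x hx => ?_))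
  have := h _ (div_ne_zero hν (hS hx).2.1) (hS hx).2.2.2
  rwa [Real.rpow_neg_one, div_le_iff₀ (ns_pos hν), ← div_eq_inv_mul, ← ns_div]

theorem nm_eq [Md v] {n : v.R} (hn : n ≠ 0) : Ab.nm n = v.N n := nm_eq_N hn

end Crest.Agent.R27.TH
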