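import Crest.Agent.R27.TH.Bes

/-! Row 27, THETA, block RF (owner helper14): the differentiated reflection formula. -/

set_option autoImplicit false

namespace Crest.Agent.R27.TH

open Crest.Agent.R17 (sgK sg EntBdd gth)
open Crest.Agent.R17.D (Qf KB pw)
open Crest.NumberTheoryR.EisensteinField Crest.Agent.R27.G MeasureTheory Filter Set
open scoped NumberField ComplexConjugate Classical Real Topology MatrixGroups

variable {F : Type} [Field F] [NumberField F] [Algebra K3 F]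

/-- the average of `i^k exp (4πi re (μ i^k))` over `k mod 4` -/
noncomputable def J4 (μ : ℂ) : ℂ :=
  Complex.I / 2 * ((Real.sin (4 * π * μ.re) : ℝ) - Complex.I * (Real.sin (4 * π * μ.im) : ℝ))

theorem J4_eq (μ : ℂ) : ∑ k : Fin 4, Complex.I ^ (k : ℕ) *
    Complex.exp (2 * π * Complex.I * ((2 * (μ * Complex.I ^ (k : ℕ)).re : ℝ) : ℂ)) = 4 * J4 μ := by
  have e : ∀ t : ℝ, Complex.exp (2 * π * Complex.I * ((2 * t : ℝ) : ℂ)) =
      (Real.cos (4 * π * t) : ℝ) + (Real.sin (4 * π * t) : ℝ) * Complex.I := fun t => by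
    rw [Complex.ofReal_cos, Complex.ofReal_sin, ← Complex.exp_mul_I]
    congr 1
    push_cast
    ring
  have r0 : (μ * Complex.I ^ ((0 : Fin 4) : ℕ)).re = μ.re := by simp
  have r1 : (μ * Complex.I ^ ((1 : Fin 4) : ℕ)).re = -μ.im := by simp
  have r2 : (μ * Complex.I ^ ((2 : Fin 4) : ℕ)).re = -μ.re := by simp
  have r3 : (μ * Complex.I ^ ((3 : Fin 4) : ℕ)).re = μ.im := by
    have : Complex.I ^ ((3 : Fin 4) : ℕ) = -Complex.I := by
      show Complex.I ^ 3 = _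
      exact Complex.I_pow_three
    rw [this]
    simp
  have p0 : Complex.I ^ ((0 : Fin 4) : ℕ) = 1 := by simp
  have p1 : Complex.I ^ ((1 : Fin 4) : ℕ) = Complex.I := by simp
  have p2 : Complex.I ^ ((2 : Fin 4) : ℕ) = -1 := by simp
  have p3 : Complex.I ^ ((3 : Fin 4) : ℕ) = -Complex.I := Complex.I_pow_three
  rw [Fin.sum_univ_four, r0, r1, r2, r3, p0, p1, p2, p3, e, e, e, e]
  simp only [mul_neg, Real.cos_neg, Real.sin_neg, J4, Complex.ofReal_neg]
  ring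

theorem norm_J4_le (μ : ℂ) : ‖J4 μ‖ ≤ 4 * π * ‖μ‖ := by
  unfold J4
  have h1 : |Real.sin (4 * π * μ.re)| ≤ 4 * π * ‖μ‖ := by
    refine (Real.abs_sin_le_abs).trans ?_
    rw [abs_mul, abs_of_pos (by positivity : (0 : ℝ) < 4 * π)]
    exact mul_le_mul_of_nonneg_left (Complex.abs_re_le_norm μ) (by positivity)
  have h2 : |Real.sin (4 * π * μ.im)| ≤ 4 * π * ‖μ‖ := by
    refine (Real.abs_sin_le_abs).trans ?_
    rw [abs_mul, abs_of_pos (by positivity : (0 : ℝ) < 4 * π)]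
    exact mul_le_mul_of_nonneg_left (Complex.abs_im_le_norm μ) (by positivity)
  have h3 := norm_sub_le ((Real.sin (4 * π * μ.re) : ℝ) : ℂ)
    (Complex.I * (Real.sin (4 * π * μ.im) : ℝ))
  rw [norm_mul, Complex.norm_I, one_mul, Complex.norm_real, Complex.norm_real, Real.norm_eq_abs,
    Real.norm_eq_abs] at h3
  rw [norm_mul, norm_div, Complex.norm_I, Complex.norm_two]
  linarith

theorem RFa_sin {x : ℝ → ℝ} {x₀ : ℝ} (h : Tendsto x (𝓝[>] 0) (𝓝 x₀)) :
    Tendsto (fun ε : ℝ => Real.sin (4 * π * (ε * x ε)) / ε) (𝓝[>] 0) (𝓝 (4 * π * x₀)) := by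
  have h0 : Tendsto (fun ε : ℝ => ε) (𝓝[>] 0) (𝓝 0) := tendsto_nhdsWithin_of_tendsto_nhds tendsto_id
  have h1 : Tendsto (fun ε : ℝ => 4 * π * (ε * x ε)) (𝓝[>] 0) (𝓝 0) := by
    simpa using (h0.mul h).const_mul (4 * π)
  have h2 := (h.const_mul (4 * π)).mul ((Real.continuous_sinc.tendsto 0).comp h1)
  rw [Real.sinc_zero, mul_one] at h2
  refine h2.congr' ?_
  filter_upwards [self_mem_nhdsWithin] with ε hε
  have hε' : ε ≠ 0 := ne_of_gt hε
  simp only [Function.comp]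
  by_cases hx : 4 * π * (ε * x ε) = 0
  · have hx' : x ε = 0 := by
      rcases mul_eq_zero.1 hx with h3 | h3
      · exact absurd h3 (by positivity)
      · exact (mul_eq_zero.1 h3).resolve_left hε'
    simp [hx']
  · rw [Real.sinc_of_ne_zero hx]
    have hx' : x ε ≠ 0 := fun h3 => hx (by simp [h3])
    field_simp

/-- `sin x / x → 1` -/
theorem tendsto_J4 {μ : ℝ → ℂ} {μ₀ : ℂ} (h : Tendsto μ (𝓝[>] 0) (𝓝 μ₀)) :
    Tendsto (fun ε : ℝ => J4 (ε * μ ε) / ε) (𝓝[>] 0) (𝓝 (2 * π * Complex.I * conj μ₀)) := by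
  have h1 := RFa_sin ((Complex.continuous_re.tendsto μ₀).comp h)
  have h2 := RFa_sin ((Complex.continuous_im.tendsto μ₀).comp h)
  have h3 := (((Complex.continuous_ofReal.tendsto _).comp h1).sub
    (((Complex.continuous_ofReal.tendsto _).comp h2).const_mul Complex.I)).const_mul (Complex.I / 2)
  have e : Complex.I / 2 * (((4 * π * μ₀.re : ℝ) : ℂ) - Complex.I * ((4 * π * μ₀.im : ℝ) : ℂ)) =
      2 * π * Complex.I * conj μ₀ := by
    have : conj μ₀ = (μ₀.re : ℂ) - Complex.I * μ₀.im := by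
      apply Complex.ext <;> simp
    rw [this]
    push_cast
    ring
  rw [e] at h3
  refine h3.congr fun ε => ?_
  simp only [Function.comp, J4, Complex.re_ofReal_mul, Complex.im_ofReal_mul, Complex.ofReal_div]
  ring

/-- RF-a.  the point `act g (-d/c + ζ, ℓ)` -/
theorem act_refl {g : SL(2, F)} (hc : g 1 0 ≠ 0) (ζ : Pl F → ℂ) (l : Pl F → ℝ) :
    act g (em (-(g 1 1 / g 1 0)) + ζ, l) =
      (em (g 0 0 / g 1 0) + fun i => -(conj (ζ i) / (em (g 1 0) i ^ 2 * ((‖ζ i‖ ^ 2 + Real.exp (l i) ^ 2 : ℝ) : ℂ))),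
        fun i => l i - Real.log (‖ζ i‖ ^ 2 + Real.exp (l i) ^ 2) - 2 * lg (g 1 0) i) := by
  have key : ∀ i, Qi (em (-(g 1 1 / g 1 0)) + ζ, l) (g 1 0, g 1 1) i =
      ‖em (g 1 0) i‖ ^ 2 * (‖ζ i‖ ^ 2 + Real.exp (l i) ^ 2) / Real.exp (l i) := fun i => by
    have hc' : em (g 1 0) i ≠ 0 := (map_ne_zero i.1).2 hc
    have e : em (g 1 0) i * (em (-(g 1 1 / g 1 0)) i + ζ i) + em (g 1 1) i = em (g 1 0) i * ζ i := by
      have : em (-(g 1 1 / g 1 0)) i = -(em (g 1 1) i / em (g 1 0) i) := by simp [em]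
      rw [this]
      field_simp
      ring
    simp only [Qi, Qf, Pi.add_apply]
    rw [e, norm_mul]
    ring
  refine Prod.ext (funext fun i => ?_) (funext fun i => ?_)
  · have hc' : em (g 1 0) i ≠ 0 := (map_ne_zero i.1).2 hc
    have hc'' : conj (em (g 1 0) i) ≠ 0 := (map_ne_zero _).2 hc'
    have hd := em_det g i
    have e1 : em (-(g 1 1 / g 1 0)) i = -(em (g 1 1) i / em (g 1 0) i) := by simp [em]
    have e2 : em (g 0 0 / g 1 0) i = em (g 0 0) i / em (g 1 0) i := by simp [em]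
    have e : em (g 1 0) i * (em (-(g 1 1 / g 1 0)) i + ζ i) + em (g 1 1) i = em (g 1 0) i * ζ i := by
      rw [e1]
      field_simp
      ring
    have e' : em (g 0 0) i * (em (-(g 1 1 / g 1 0)) i + ζ i) + em (g 0 1) i =
        em (g 0 0) i * ζ i - 1 / em (g 1 0) i := by
      rw [e1]
      field_simp
      linear_combination (-1 : ℂ) * hd
    have hv : 0 < Real.exp (l i) := Real.exp_pos _
    have hs : (0 : ℝ) < ‖ζ i‖ ^ 2 + Real.exp (l i) ^ 2 := by positivity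
    have e3 : Real.exp (l i) * (‖em (g 1 0) i‖ ^ 2 * (‖ζ i‖ ^ 2 + Real.exp (l i) ^ 2) / Real.exp (l i)) =
        ‖em (g 1 0) i‖ ^ 2 * (‖ζ i‖ ^ 2 + Real.exp (l i) ^ 2) := by field_simp
    have e4 : ((‖em (g 1 0) i‖ ^ 2 : ℝ) : ℂ) = em (g 1 0) i * conj (em (g 1 0) i) := by
      rw [Complex.mul_conj, Complex.normSq_eq_norm_sq]
    have e5 : ((‖ζ i‖ ^ 2 + Real.exp (l i) ^ 2 : ℝ) : ℂ) =
        ζ i * conj (ζ i) + (Real.exp (l i) : ℂ) ^ 2 := by
      rw [Complex.mul_conj, Complex.normSq_eq_norm_sq]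
      push_cast
      ring
    have hs' : ((‖ζ i‖ ^ 2 + Real.exp (l i) ^ 2 : ℝ) : ℂ) ≠ 0 := Complex.ofReal_ne_zero.2 hs.ne'
    simp only [act, Pi.add_apply]
    rw [key, e, e', e2, e3, Complex.ofReal_mul, e4, map_mul]
    generalize ((‖ζ i‖ ^ 2 + Real.exp (l i) ^ 2 : ℝ) : ℂ) = S at hs' e5 ⊢
    field_simp
    rw [e5]
    ring
  · have hc' : em (g 1 0) i ≠ 0 := (map_ne_zero i.1).2 hc
    have hn : 0 < ‖em (g 1 0) i‖ := norm_pos_iff.2 hc'
    have hv : 0 < Real.exp (l i) := Real.exp_pos _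
    have hs : (0 : ℝ) < ‖ζ i‖ ^ 2 + Real.exp (l i) ^ 2 := by positivity
    simp only [act, lg]
    rw [key, Real.log_div (by positivity) hv.ne', Real.log_mul (by positivity) hs.ne', Real.log_pow,
      Real.log_exp]
    push_cast
    ring

theorem rfb_avg (τ₀ : ℂ) {τ : F → ℂ} (h : Cf τ) (x : F) (y : (Pl F → Fin 4) → Pl F → ℂ) (μ : F → Pl F → ℂ)
    (hy : ∀ ν k i, (em ν i * y k i).re = (μ ν i * Complex.I ^ (k i : ℕ)).re) (l : Pl F → ℝ) :
    ∑ k : Pl F → Fin 4, (∏ i, Complex.I ^ (k i : ℕ)) * Th τ₀ τ (em x + y k, l) =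
      4 ^ Fintype.card (Pl F) * ∑' ν : F, τ ν * eT (ν * x) * WW ν l * ∏ i, J4 (μ ν i) := by
  have h0 : ∑ k : Pl F → Fin 4, ∏ i, Complex.I ^ (k i : ℕ) = 0 := by
    rw [← Fintype.prod_sum fun (_ : Pl F) (j : Fin 4) => Complex.I ^ (j : ℕ)]
    refine Finset.prod_eq_zero (Finset.mem_univ (Classical.arbitrary _)) ?_
    simp [Fin.sum_univ_four, pow_succ]
  have hs : ∀ z, Summable fun ν : F => τ ν * WW ν l * eZ ν z := fun z =>
    Summable.of_norm (by simpa using h.summable 0 l)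
  simp only [Th, mul_add, Finset.sum_add_distrib, ← Finset.sum_mul, h0, zero_mul, zero_add, ← tsum_mul_left]
  rw [← Summable.tsum_finsetSum fun k _ => (hs _).mul_left _]
  refine tsum_congr fun ν => ?_
  have e : (4 : ℂ) ^ Fintype.card (Pl F) * ∏ i, J4 (μ ν i) =
      ∑ k : Pl F → Fin 4, (∏ i, Complex.I ^ (k i : ℕ)) * eZ ν (y k) := by
    rw [← Finset.card_univ, ← Finset.prod_const, ← Finset.prod_mul_distrib]
    simp only [← J4_eq, Fintype.prod_sum, eZ, hy, Finset.prod_mul_distrib]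
  rw [mul_left_comm, e, Finset.mul_sum]
  refine Finset.sum_congr rfl fun k _ => ?_
  rw [eZ_add_right, eZ_em]
  ring

/-- RF-b.  angular average of a Fourier-Bessel series: `Finset.prod_univ_sum`, `J4_eq`; the constant term
disappears as `∑ k, I ^ k = 0` and `Pl F` is not empty -/
theorem Th_avg (τ₀ : ℂ) {τ : F → ℂ} (h : Cf τ) (x : F) (s : Pl F → ℂ) (l : Pl F → ℝ) :
    ∑ k : Pl F → Fin 4, (∏ i, Complex.I ^ (k i : ℕ)) * Th τ₀ τ (em x + fun i => s i * Complex.I ^ (k i : ℕ), l) =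
      4 ^ Fintype.card (Pl F) * ∑' ν : F, τ ν * eT (ν * x) * WW ν l * ∏ i, J4 (em ν i * s i) :=
  rfb_avg τ₀ h x (fun k i => s i * Complex.I ^ (k i : ℕ)) (fun ν i => em ν i * s i)
    (fun _ _ _ => by rw [mul_assoc]) l

/-- RF-b.  the same with the conjugate rotation: `re (ν s conj(I^k)) = re (conj (ν s) I^k)` -/
theorem Th_avg' (τ₀ : ℂ) {τ : F → ℂ} (h : Cf τ) (x : F) (s : Pl F → ℂ) (l : Pl F → ℝ) :
    ∑ k : Pl F → Fin 4, (∏ i, Complex.I ^ (k i : ℕ)) *
        Th τ₀ τ (em x + fun i => s i * conj (Complex.I ^ (k i : ℕ)), l) =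
      4 ^ Fintype.card (Pl F) * ∑' ν : F, τ ν * eT (ν * x) * WW ν l * ∏ i, J4 (conj (em ν i * s i)) :=
  rfb_avg τ₀ h x (fun k i => s i * conj (Complex.I ^ (k i : ℕ))) (fun ν i => conj (em ν i * s i))
    (fun _ _ _ => by rw [← Complex.conj_re, ← mul_assoc, map_mul, Complex.conj_conj]) l

/-- RF-c.  Tannery (`tendsto_tsum_of_dominated_convergence`, `WW_maj`, `norm_J4_le`, `tendsto_J4`) -/
theorem tendsto_avg {b : F → ℂ} (h : Cf b) (e : Bool) {s : ℝ → Pl F → ℂ} {s₀ : Pl F → ℂ} {l : ℝ → Pl F → ℝ}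
    {l₀ : Pl F → ℝ} (hs : Tendsto s (𝓝[>] 0) (𝓝 s₀)) (hl : Tendsto l (𝓝[>] 0) (𝓝 l₀)) :
    Tendsto (fun ε : ℝ => ∑' ν : F, b ν * WW ν (l ε) * ∏ i, (J4 (ε * (pw (!e) (em ν i) * s ε i)) / ε)) (𝓝[>] 0)
      (𝓝 ((∏ i, 2 * π * Complex.I * conj (s₀ i)) * fb e b l₀)) := by
  obtain ⟨B, hB⟩ := h.bdd
  obtain ⟨m, hm, hsupp⟩ := h.supp
  obtain ⟨M, hM, hM0, hMle⟩ := WW_maj (F := F) hm (Fintype.card (Pl F)) (-(‖l₀‖ + 1)) (le_refl (0 : ℝ))
  have hB0 : 0 ≤ B := (norm_nonneg _).trans (hB 0)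
  have e1 : (∏ i, 2 * π * Complex.I * conj (s₀ i)) * fb e b l₀ =
      ∑' ν : F, b ν * WW ν l₀ * ∏ i, (2 * π * Complex.I * conj (pw (!e) (em ν i) * s₀ i)) := by
    rw [fb, ← tsum_mul_left]
    refine tsum_congr fun ν => ?_
    rw [mul_left_comm, ← Finset.prod_mul_distrib]
    congr 1
    refine Finset.prod_congr rfl fun i _ => ?_
    cases e <;> simp [pw] <;> ring
  rw [e1]
  refine tendsto_tsum_of_dominated_convergence
    (bound := fun ν => B * (4 * π * (‖s₀‖ + 1)) ^ Fintype.card (Pl F) * M ν) (hM.mul_left _) (fun ν => ?_) ?_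
  · by_cases hν : ν = 0
    · simp [hν, h.zero]
    refine (((continuous_WW hν).tendsto l₀).comp hl |>.const_mul (b ν)).mul
      (tendsto_finsetProd _ fun i _ => tendsto_J4 ?_)
    exact (tendsto_pi_nhds.1 hs i).const_mul _
  · have h1 : ∀ᶠ ε in 𝓝[>] (0 : ℝ), ‖s ε‖ ≤ ‖s₀‖ + 1 :=
      hs.norm.eventually (ge_mem_nhds (lt_add_one _))
    have h2 : ∀ᶠ ε in 𝓝[>] (0 : ℝ), ‖l ε‖ ≤ ‖l₀‖ + 1 :=
      hl.norm.eventually (ge_mem_nhds (lt_add_one _))
    filter_upwards [h1, h2, self_mem_nhdsWithin] with ε h1 h2 hε ν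
    have hε : 0 < ε := hε
    have hS : 0 ≤ 4 * π * (‖s₀‖ + 1) := by positivity
    by_cases hb : b ν = 0
    · simp only [hb, zero_mul, norm_zero]
      exact mul_nonneg (mul_nonneg hB0 (pow_nonneg hS _)) (hM0 ν)
    have hν : ν ≠ 0 := fun h0 => hb (h0 ▸ h.zero)
    have h3 := hMle ν hν (hsupp ν hb) _ (l ε) le_rfl fun i => by
      have := (norm_le_pi_norm (l ε) i).trans h2
      rw [Real.norm_eq_abs] at this
      exact (abs_le.1 this).1
    rw [zero_mul, neg_zero, Real.exp_zero, mul_one] at h3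
    have h4 : ‖∏ i, (J4 (ε * (pw (!e) (em ν i) * s ε i)) / ε)‖ ≤
        (4 * π * (‖s₀‖ + 1) * (1 + ‖em ν‖)) ^ Fintype.card (Pl F) := by
      rw [norm_prod, ← Finset.card_univ, ← Finset.prod_const]
      refine Finset.prod_le_prod (fun _ _ => norm_nonneg _) fun i _ => ?_
      have h5 : ‖pw (!e) (em ν i)‖ ≤ 1 + ‖em ν‖ := by
        have : ‖pw (!e) (em ν i)‖ = ‖em ν i‖ := by cases e <;> simp [pw]
        rw [this]
        exact (norm_le_pi_norm (em ν) i).trans (le_add_of_nonneg_left zero_le_one)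
      have h6 := (norm_le_pi_norm (s ε) i).trans h1
      rw [norm_div, Complex.norm_real, Real.norm_of_nonneg hε.le, div_le_iff₀ hε]
      refine (norm_J4_le _).trans ?_
      rw [norm_mul, norm_mul, Complex.norm_real, Real.norm_of_nonneg hε.le]
      have h7 : ‖pw (!e) (em ν i)‖ * ‖s ε i‖ ≤ (1 + ‖em ν‖) * (‖s₀‖ + 1) :=
        mul_le_mul h5 h6 (norm_nonneg _) (by positivity)
      calc 4 * π * (ε * (‖pw (!e) (em ν i)‖ * ‖s ε i‖)) ≤ 4 * π * (ε * ((1 + ‖em ν‖) * (‖s₀‖ + 1))) := by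
            gcongr
        _ = _ := by ring
    rw [norm_mul, norm_mul]
    calc ‖b ν‖ * ‖WW ν (l ε)‖ * _ ≤ B * ‖WW ν (l ε)‖ *
          (4 * π * (‖s₀‖ + 1) * (1 + ‖em ν‖)) ^ Fintype.card (Pl F) := by
          gcongr
          exact hB ν
      _ = B * (4 * π * (‖s₀‖ + 1)) ^ Fintype.card (Pl F) *
          (‖WW ν (l ε)‖ * (1 + ‖em ν‖) ^ Fintype.card (Pl F)) := by rw [mul_pow]; ring
      _ ≤ _ := by gcongr

/-- RF-d.  THE REFLECTION.  Evaluate at `ζ i = ε I^(k i)`, average, divide by `ε^r`, let `ε → 0`. -/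
theorem reflect {τ₀ τ₀' a : ℂ} {τ τ' : F → ℂ} (h : Cf τ) (h' : Cf τ') {g : SL(2, F)} (hc : g 1 0 ≠ 0)
    (hg : ∀ w, Th τ₀ τ (act g w) = a * Th τ₀' τ' w) (l : Pl F → ℝ) :
    a * fb false (fun ν => τ' ν * eT (ν * -(g 1 1 / g 1 0))) l =
      (∏ i, -(em (g 1 0) i ^ 2 * (Real.exp (l i) : ℂ) ^ 2)⁻¹) *
        fb true (fun ν => τ ν * eT (ν * (g 0 0 / g 1 0))) (fun i => -l i - 2 * lg (g 1 0) i) := by
  have hb := h.mul (f := fun ν => eT (ν * (g 0 0 / g 1 0))) (B := 1) fun ν => (norm_eT _).le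
  have hb' := h'.mul (f := fun ν => eT (ν * -(g 1 1 / g 1 0))) (B := 1) fun ν => (norm_eT _).le
  obtain ⟨s, hs⟩ : ∃ s : ℝ → Pl F → ℂ, s = fun ε i =>
    -(em (g 1 0) i ^ 2 * ((ε ^ 2 + Real.exp (l i) ^ 2 : ℝ) : ℂ))⁻¹ := ⟨_, rfl⟩
  obtain ⟨L, hL⟩ : ∃ L : ℝ → Pl F → ℝ, L = fun ε i =>
    l i - Real.log (ε ^ 2 + Real.exp (l i) ^ 2) - 2 * lg (g 1 0) i := ⟨_, rfl⟩
  have hp : ∀ (ε : ℝ) i, ε ^ 2 + Real.exp (l i) ^ 2 ≠ 0 := fun ε i => by positivity
  have hsc : Continuous fun ε i => conj (s ε i) := by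
    refine continuous_pi fun i => Complex.continuous_conj.comp ?_
    rw [hs]
    refine (Continuous.inv₀ (by fun_prop) fun ε => ?_).neg
    exact mul_ne_zero (pow_ne_zero _ (em_ne_zero hc i)) (Complex.ofReal_ne_zero.2 (hp ε i))
  have hLc : Continuous L := by
    refine continuous_pi fun i => ?_
    rw [hL]
    exact (continuous_const.sub (Continuous.log (by fun_prop) fun ε => hp ε i)).sub continuous_const
  have t1 := tendsto_avg hb true ((hsc.tendsto 0).mono_left nhdsWithin_le_nhds)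
    ((hLc.tendsto 0).mono_left nhdsWithin_le_nhds)
  have t2 := (tendsto_avg hb' false (s := fun _ _ => 1) (l := fun _ => l) tendsto_const_nhds
    tendsto_const_nhds).const_mul a
  have key := tendsto_nhds_unique t2 (t1.congr' ?_)
  · have e1 : L 0 = fun i => -l i - 2 * lg (g 1 0) i := by
      funext i
      simp only [hL]
      rw [zero_pow two_ne_zero, zero_add, Real.log_pow, Real.log_exp]
      push_cast
      ring
    have e2 : ∀ i, s 0 i = -(em (g 1 0) i ^ 2 * (Real.exp (l i) : ℂ) ^ 2)⁻¹ := fun i => by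
      simp only [hs]
      rw [zero_pow two_ne_zero, zero_add, Complex.ofReal_pow]
    simp only [Complex.conj_conj, map_one, mul_one, e1, e2] at key
    rw [Finset.prod_mul_distrib (f := fun _ => 2 * (π : ℂ) * Complex.I), mul_left_comm] at key
    exact mul_left_cancel₀ (Finset.prod_ne_zero_iff.2 fun _ _ => Complex.two_pi_I_ne_zero)
      (key.trans (mul_assoc _ _ _))
  · filter_upwards [self_mem_nhdsWithin] with ε hε
    have h1 := Th_avg' τ₀ h (g 0 0 / g 1 0) (fun i => ε * s ε i) (L ε)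
    have h2 := Th_avg τ₀' h' (-(g 1 1 / g 1 0)) (fun _ => ε) l
    have h3 : ∀ k : Pl F → Fin 4, Th τ₀ τ (em (g 0 0 / g 1 0) +
        fun i => ε * s ε i * conj (Complex.I ^ (k i : ℕ)), L ε) =
        a * Th τ₀' τ' (em (-(g 1 1 / g 1 0)) + fun i => ε * Complex.I ^ (k i : ℕ), l) := fun k => by
      have h4 : ∀ i, ‖(ε : ℂ) * Complex.I ^ (k i : ℕ)‖ ^ 2 = ε ^ 2 := fun i => by
        rw [norm_mul, norm_pow, Complex.norm_I, one_pow, mul_one, Complex.norm_real, Real.norm_eq_abs, sq_abs]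
      rw [← hg, act_refl hc]
      simp only [h4, hs, hL, map_mul, Complex.conj_ofReal]
      refine congrArg (fun z => Th τ₀ τ (em (g 0 0 / g 1 0) + z, _)) (funext fun i => ?_)
      ring
    simp only [h3, mul_left_comm _ a] at h1
    rw [← Finset.mul_sum, h2, mul_left_comm] at h1
    have h5 := mul_left_cancel₀ (pow_ne_zero _ (by norm_num)) h1
    simp only [Finset.prod_div_distrib, ← mul_div_assoc, tsum_div_const]
    congr 1
    refine Eq.trans (tsum_congr fun ν => ?_) (h5.symm.trans (congrArg (a * ·) (tsum_congr fun ν => ?_)))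
    · simp only [pw, Bool.not_true, Bool.false_eq_true, if_false, map_mul, Complex.conj_ofReal, mul_left_comm, mul_div_assoc]
    · simp only [pw, Bool.not_false, if_true, mul_one, mul_comm (ε : ℂ), mul_neg]

theorem fb_smul (e : Bool) (a : ℂ) (b : F → ℂ) (l : Pl F → ℝ) : fb e (fun ν => a * b ν) l = a * fb e b l := by
  simp only [fb, mul_assoc, tsum_mul_left]

theorem fb_sum (e : Bool) {ι : Type} (s : Finset ι) {b : ι → F → ℂ} (h : ∀ j ∈ s, Cf (b j)) (l : Pl F → ℝ) :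
    fb e (fun ν => ∑ j ∈ s, b j ν) l = ∑ j ∈ s, fb e (b j) l := by
  simp only [fb, Finset.sum_mul]
  refine Summable.tsum_finsetSum fun j hj => Summable.of_norm_bounded
    ((h j hj).summable (Fintype.card (Pl F)) l) fun ν => ?_
  rw [norm_mul, norm_mul, norm_prod, ← Finset.card_univ, ← Finset.prod_const]
  gcongr with i
  have : ‖pw e (em ν i)‖ = ‖em ν i‖ := by cases e <;> simp [pw]
  rw [this]
  linarith [norm_le_pi_norm (em ν) i]

end Crest.Agent.R27.TH
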