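import Crest.Agent.R27.TH.BrB
import Crest.Agent.R27.TH.BrDefs
import Crest.Agent.R27.TH.RF
import Crest.Agent.R27.TH.Lvl

/-! Row 27, THETA, block BRIDGE (owner helper72), part C: the twisted reflection, classes, parametrisations. -/

set_option autoImplicit false
set_option linter.unusedSectionVars false

namespace Crest.Agent.R27.TH

open Crest.NumberTheoryR.EisensteinField Crest.Agent.R27.G
open Crest.Agent.R27.Ab (Pr Prim nm cb FT Pair U1 res)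
open scoped NumberField ComplexConjugate Classical MatrixGroups

variable {F : Type} [Field F] [NumberField F] [Algebra K3 F] {v : Lv F}

theorem brc_ne {a : v.R} (ha : a ≠ 0) : (a : F) ≠ 0 := fun h => ha (Subtype.ext h)

theorem exists_mat {c a : v.R} (hc : c ≠ 0) (h : IsCoprime a c) (T : ℕ) :
    ∃ (A D : v.R) (g : SL(2, F)), InR v g ∧ g 0 0 = A ∧ g 1 0 = c ∧ g 1 1 = D ∧ c ∣ A + a ∧
      c ∣ a * -D - 1 ∧ LK v T A ∧ LK v T D := by
  obtain ⟨d, q, e⟩ := h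
  obtain ⟨A, ⟨x, hx⟩, hA⟩ := approxL T 0 hc (-a)
  obtain ⟨D, ⟨y, hy⟩, hD⟩ := approxL T 0 hc (-d)
  rw [sub_zero] at hA hD
  have h1 : A * D - (x * D - a * y - q) * c = 1 := by linear_combination D * hx - a * hy + e
  refine ⟨A, D, ⟨!![A, (x * D - a * y - q : v.R); c, D], ?_⟩, fun i j => ?_, rfl, rfl, rfl,
    ⟨x, by linear_combination hx⟩, ⟨-(a * y) - q, by linear_combination e - a * hy⟩, hA, hD⟩
  · rw [Matrix.det_fin_two_of]
    exact_mod_cast congrArg (fun z : v.R => (z : F)) h1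
  · fin_cases i <;> fin_cases j
    exacts [A.2, (x * D - a * y - q).2, c.2, D.2]

variable [Md v]

/-- the finite Fourier transform, zero outside `R` -/
noncomputable def FTF (c : v.R) (Ψ : v.R → ℂ) (ν : F) : ℂ := if h : ν ∈ v.R then FT c Ψ ⟨ν, h⟩ else 0

theorem FTF_coe (c : v.R) (Ψ : v.R → ℂ) (n : v.R) : FTF c Ψ n = FT c Ψ n := dif_pos n.2

theorem FTF_bdd {c : v.R} (hc : c ≠ 0) (Ψ : v.R → ℂ) : ∃ B : ℝ, ∀ ν, ‖FTF c Ψ ν‖ ≤ B := by
  obtain ⟨B, hB⟩ := (Ab.per_FT c Ψ).bdd hc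
  refine ⟨B, fun ν => ?_⟩
  unfold FTF
  split_ifs
  · exact hB _
  · simpa using (norm_nonneg _).trans (hB 0)

theorem U1_of_U {u : v.R} (hu : IsUnit u) (h : v.U u) : U1 u :=
  (Md.sec 1 1 u Ab.prim_one Ab.prim_one hu (by simpa using h)).2

theorem FTF_unit {c : v.R} (hc : c ≠ 0) {Ψ : v.R → ℂ} (hΨ : Ab.Per c Ψ)
    (h : ∀ u a, U1 u → Ψ (u * a) = Ψ a) {k : ℕ} (hk : 1 ≤ k) {u : (𝓞 F)ˣ} (hu : u ∈ VK v k) (ν : F) :
    FTF c Ψ (((u : 𝓞 F) : F) * ν) = FTF c Ψ ν := by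
  have h1 : U1 (v.up u) := U1_of_U (u.isUnit.map _) ((mem_VK.1 hu).U hk)
  by_cases hν : ν ∈ v.R
  · exact (FTF_coe c Ψ (v.up u * ⟨ν, hν⟩)).trans
      ((Ab.FT_U1 hc hΨ h h1 _).trans (FTF_coe c Ψ ⟨ν, hν⟩).symm)
  · rw [FTF, FTF, dif_neg hν, dif_neg fun h' => hν ?_]
    have := mul_mem (v.coe_mem_R (u⁻¹ : (𝓞 F)ˣ)) h'
    rwa [← mul_assoc, ← ci_mul, Units.inv_mul, ci_one, one_mul] at this

theorem eT_eq {k k' : ℕ} {c n A : v.R} (hc : DK v k' (c : F)⁻¹) (hn : DK v k n) (hA : LK v (k + k') A) :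
    eT ((n : F) * (A / c)) = Ab.eQ (n * A) c := by
  rw [Md.eQ_eq, v.psi_L, Subalgebra.coe_mul, mul_div_assoc]
  rw [Subalgebra.coe_mul, div_eq_mul_inv, mul_right_comm]
  exact LK_zero.1 (LK.DK_mul (k := 0) hA (hn.mul hc))

theorem fb_refl {τ₀ σ₀ : ℂ} {τ σ : F → ℂ} {c : v.R} (hc : c ≠ 0) (hτ : Cf τ) (hσ : Cf σ) {k t : ℕ}
    (h1 : ∀ ν, τ ν ≠ 0 → ν ∈ v.R ∧ DK v k ν) (h2 : ∀ ν, σ ν ≠ 0 → ν ∈ v.R ∧ DK v k ν)
    (H : ∀ g : SL(2, F), InR v g → g 1 0 = c → LK v t (g 0 0) → LK v t (g 1 1) →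
      ∀ w, Th τ₀ τ (act g w) = cbF v (g 0 0) (g 1 0) * Th σ₀ σ w)
    {Φ Φ' : v.R → ℂ} (hP : Pair c Φ Φ') (l : Pl F → ℝ) :
    fb false (fun ν => σ ν * FTF c Φ' ν) l =
      (∏ i, -(em (c : F) i ^ 2 * (Real.exp (l i) : ℂ) ^ 2)⁻¹) *
        fb true (fun ν => τ ν * FTF c Φ (-ν)) fun i => -l i - 2 * lg (c : F) i := by
  obtain ⟨k', hk'⟩ := exists_DK v (c : F)⁻¹
  choose! A D g hg using fun a (h : IsCoprime a c) => exists_mat hc h (k + k' + t)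
  have e1 : (fun ν => τ ν * FTF c Φ (-ν)) =
      fun ν => ∑ a ∈ res c, Φ a * (τ ν * eT (ν * (A a / c))) := by
    funext ν
    by_cases h : τ ν = 0
    · simp [h]
    obtain ⟨a1, a2⟩ := h1 ν h
    lift ν to v.R using a1
    rw [← Subalgebra.coe_neg, FTF_coe, FT, Ab.rsum_eq_sum hc, Finset.mul_sum]
    refine Finset.sum_congr rfl fun a _ => ?_
    by_cases ha : IsCoprime a c
    · obtain ⟨-, -, -, -, ⟨q, hq⟩, -, b1, -⟩ := hg a ha
      rw [eT_eq hk' a2 (b1.mono (Nat.le_add_right _ _)),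
        Ab.eQ_congr (y := ν * A a) (y' := -ν * a) ⟨ν * q, by linear_combination ν * hq⟩]
      ring
    · simp [hP.zero a ha]
  have e2 : (fun ν => σ ν * FTF c Φ' ν) =
      fun ν => ∑ a ∈ res c, Φ a * cb a c * (σ ν * eT (ν * -(D a / c))) := by
    funext ν
    by_cases h : σ ν = 0
    · simp [h]
    obtain ⟨a1, a2⟩ := h2 ν h
    lift ν to v.R using a1
    rw [FTF_coe, hP.FT' hc (d := fun a => -D a) fun a ha => (hg a ha).2.2.2.2.2.1, Finset.mul_sum]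
    refine Finset.sum_congr rfl fun a _ => ?_
    by_cases ha : IsCoprime a c
    · obtain ⟨-, -, -, -, -, -, -, b1⟩ := hg a ha
      rw [← eT_eq hk' a2 (by simpa using (b1.mono (Nat.le_add_right _ _)).neg), Subalgebra.coe_neg,
        neg_div]
      ring
    · simp [hP.zero a ha]
  have cf : ∀ {τ : F → ℂ}, Cf τ → ∀ (z : ℂ) (x : F), Cf fun ν => z * (τ ν * eT (ν * x)) :=
    fun h z x => by
      simpa only [mul_left_comm z] using
        h.mul (f := fun ν => z * eT (ν * x)) (B := ‖z‖) fun ν => by rw [norm_mul, norm_eT, mul_one]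
  rw [e1, e2, fb_sum _ _ fun a _ => cf hσ _ _, fb_sum _ _ fun a _ => cf hτ _ _, Finset.mul_sum]
  refine Finset.sum_congr rfl fun a _ => ?_
  rw [fb_smul, fb_smul]
  by_cases ha : IsCoprime a c
  · obtain ⟨b1, b2, b3, b4, b5, -, b6, b7⟩ := hg a ha
    have key := reflect hτ hσ (b3 ▸ brc_ne hc) (H (g a) b1 b3 (b2 ▸ b6.mono (Nat.le_add_left _ _))
      (b4 ▸ b7.mono (Nat.le_add_left _ _))) l
    rw [b2, b3, b4, cbF_eq, Ab.cb_congr (v := -a) (by rwa [sub_neg_eq_add]), Ab.cb_neg_left] at key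
    rw [mul_assoc, key]
    ring
  · simp [hP.zero a ha]

/-- the ideal `(l)` has a generator in `ω (1 + M^m L)` -/
def Fine (v : Lv F) (m : ℕ) (ω : F) (l : v.R) : Prop := ∃ u : v.Rˣ, UK v m ((u * l : v.R) / ω)

/-- the unit -/
noncomputable def un (m : ℕ) (ω : F) (l : v.R) : v.Rˣ := if h : Fine v m ω l then h.choose else 1

theorem Fine.un {m : ℕ} {ω : F} {l : v.R} (h : Fine v m ω l) : UK v m ((un m ω l * l : v.R) / ω) := by
  rw [TH.un, dif_pos h]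
  exact h.choose_spec

theorem brc_div (u u' : v.Rˣ) (l l' : v.R) :
    ((u'⁻¹ * u : v.Rˣ) * l : v.R) / (l' : F) = (u * l : v.R) / (u' * l' : v.R) := by
  have h : ((u' : v.R) : F) * ((u'⁻¹ : v.Rˣ) : v.R) = 1 := congrArg Subtype.val u'.mul_inv
  rw [Units.val_mul, mul_assoc, Subalgebra.coe_mul, Subalgebra.coe_mul _ (u' : v.R),
    eq_inv_of_mul_eq_one_right h, inv_mul_eq_div, div_div]

theorem exists_cls {m : ℕ} (hm : 1 ≤ m) : ∃ (Y : Type) (_ : Finite Y) (p : v.R → Y) (o : Y → v.R),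
    (∀ y, Prim (o y)) ∧ ∀ n y, Prim n → (p n = y ↔ Fine v m (o y) n) := by
  have tr : ∀ {ω : F} {l l' : v.R}, Fine v m ω l → Fine v m ω l' → Fine v m l' l :=
    fun ⟨u, h⟩ ⟨u', h'⟩ => ⟨u'⁻¹ * u, by rw [brc_div]; exact h.trans hm (h'.symm hm)⟩
  have rf : ∀ l : Pr v.R, Fine v m (l : v.R) (l : v.R) := fun l =>
    ⟨1, by simpa using UK_refl (brc_ne (Ab.Pr_prim l).ne_zero)⟩
  let s : Setoid (Pr v.R) := ⟨fun l l' => Fine v m (l' : v.R) (l : v.R), rf, fun h => tr (rf _) h,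
    fun h h' => tr h (tr (rf _) h')⟩
  refine ⟨Quotient s, ?_, fun n => if h : Prim n then ⟦⟨n, h⟩⟧ else ⟦1⟧, fun y => y.out,
    fun y => y.out.2, fun n y hn => ?_⟩
  · obtain ⟨S, -, hS⟩ := exists_fin v hm
    choose c hc u hu h using fun y : Quotient s => hS _ (brc_ne (Ab.Pr_prim y.out).ne_zero)
    have h1 : ∀ y, Fine v m (c y) (y.out : v.R) := fun y => ⟨(hu y).unit⁻¹, by
      have h2 : ((u y : v.R) : F) * (((hu y).unit⁻¹ : v.Rˣ) : v.R) = 1 :=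
        congrArg Subtype.val (hu y).mul_val_inv
      rw [Subalgebra.coe_mul, eq_inv_of_mul_eq_one_right h2, inv_mul_eq_div, div_div]
      exact h y⟩
    refine Finite.of_injective (fun y => (⟨c y, hc y⟩ : S)) fun y y' e => ?_
    rw [← Quotient.out_equiv_out]
    exact tr (h1 y) ((show c y = c y' from congrArg Subtype.val e) ▸ h1 y')
  · simp only [dif_pos hn]
    exact Quotient.mk_eq_iff_out

theorem par_of {m : ℕ} (hm : 1 ≤ m) {Ω : Type} (ω : Ω → F) (hinj : ∀ i j, UK v m (ω j / ω i) → j = i)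
    {b : F → ℂ} (hb : ∀ x, b x ≠ 0 → x ∈ v.R ∧ ∃ i, UK v m (x / ω i)) :
    Par (VK v m) b fun a : {q : Ω × Pr v.R | Fine v m (ω q.1) q.2} =>
      ((un m (ω a.1.1) (a.1.2 : v.R) * a.1.2 : v.R) : F) := by
  refine ⟨fun a => a.2.un.ne_left hm, fun a a' u hu e => Subtype.ext (Prod.ext ?_ (Subtype.ext ?_)),
    fun x hx => ?_⟩
  · have h1 := a'.2.un
    have h2 := (mem_VK.1 hu).mul a.2.un
    rw [← mul_div_assoc, ← e] at h2
    exact hinj _ _ ((h1.symm hm).trans hm h2)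
  · have h1 : (un m (ω a'.1.1) (a'.1.2 : v.R) * a'.1.2 : v.R) =
        v.up u * (un m (ω a.1.1) (a.1.2 : v.R) * a.1.2) := Subtype.ext e
    refine (Ab.Pr_prim _).eq_of_associated (Ab.Pr_prim _)
      ((associated_unit_mul_right _ _ (un m (ω a'.1.1) (a'.1.2 : v.R)).isUnit).trans ?_)
    rw [h1]
    exact (associated_unit_mul_left _ _ (u.isUnit.map _)).trans
      (associated_unit_mul_left _ _ (Units.isUnit _))
  · obtain ⟨h1, i, h2⟩ := hb x hx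
    lift x to v.R using h1
    obtain ⟨n, hn, w, hw⟩ := Ab.Ar.pr_ex x fun h => h2.ne_left hm (by rw [h]; rfl)
    have h3 : x = (w⁻¹ : v.Rˣ) * n := by rw [← hw, mul_comm x, Units.inv_mul_cancel_left]
    have h4 : Fine v m (ω i) n := ⟨w⁻¹, h3 ▸ h2⟩
    have h5 := h2.trans hm (h4.un.symm hm)
    have h6 : (x : F) / (un m (ω i) n * n : v.R) = ((un m (ω i) n)⁻¹ * w⁻¹ : v.Rˣ) := by
      rw [h3, ← brc_div, Subalgebra.coe_mul, mul_div_cancel_right₀ _ (brc_ne hn.ne_zero)]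
    obtain ⟨u, hu, e⟩ := exists_VK hm (Units.isUnit _) (h6 ▸ h5)
    exact ⟨⟨(i, ⟨n, hn⟩), h4⟩, u, hu, by rw [e, ← h6, div_mul_cancel₀ _ (h4.un.ne_left hm)]⟩

theorem Par.refine {V V₀ : Subgroup (𝓞 F)ˣ} (h : V ≤ V₀) {b : F → ℂ} {α : Type} {ν : α → F}
    (hp : Par V₀ b ν) : Par V b fun p : α × (V₀ ⧸ V.subgroupOf V₀) =>
      (((p.2.out : V₀) : (𝓞 F)ˣ) : 𝓞 F) * ν p.1 := by
  have h0 : ∀ u : (𝓞 F)ˣ, ((u : 𝓞 F) : F) ≠ 0 := fun u => by simp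
  have hm : ∀ u w : (𝓞 F)ˣ, (((u * w : (𝓞 F)ˣ) : 𝓞 F) : F) = (u : 𝓞 F) * (w : 𝓞 F) := fun u w => by simp
  refine ⟨fun p => mul_ne_zero (h0 _) (hp.ne _), fun ⟨a, q⟩ ⟨a', q'⟩ u hu e => ?_, fun x hx => ?_⟩
  · obtain rfl : a' = a := hp.inj a a' ((q'.out : (𝓞 F)ˣ)⁻¹ * (u * q.out))
      (mul_mem (inv_mem q'.out.2) (mul_mem (h hu) q.out.2)) (mul_left_cancel₀ (h0 q'.out) (by
        rw [← mul_assoc, ← hm, mul_inv_cancel_left, hm, mul_assoc]
        exact e))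
    have e1 : (q'.out : (𝓞 F)ˣ) = u * q.out := Units.ext (NumberField.RingOfIntegers.ext
      (mul_right_cancel₀ (hp.ne a') (by rw [hm, mul_assoc]; exact e)))
    refine Prod.ext rfl ?_
    rw [← q.out_eq, ← q'.out_eq, eq_comm, QuotientGroup.eq, Subgroup.mem_subgroupOf]
    simpa [e1, mul_left_comm] using hu
  · obtain ⟨a, u, hu, rfl⟩ := hp.surj x hx
    obtain ⟨w, hw⟩ := QuotientGroup.mk_out_eq_mul (V.subgroupOf V₀) ⟨u, hu⟩
    refine ⟨(a, QuotientGroup.mk ⟨u, hu⟩), ((w : V₀) : (𝓞 F)ˣ)⁻¹, inv_mem w.2, ?_⟩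
    rw [hw, ← mul_assoc, ← hm]
    simp [mul_left_comm]

end Crest.Agent.R27.TH
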