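import Crest.Agent.R27.Ku.Arith

/-! Row 27, block THETA / CNT (helper79): mean values of multiplicative functions `∏_{P ∣ I} (1 + a P)` over the ideals
of a fixed ideal class. -/

set_option autoImplicit false

namespace Crest.Agent.R27.Cn

open NumberField Filter Topology Finset IsDedekindDomain
open scoped Classical nonZeroDivisors Real

variable {K : Type} [Field K] [NumberField K]

/-- the norm of a nonzero ideal -/
noncomputable def nI (I : (Ideal (𝓞 K))⁰) : ℝ := Ideal.absNorm (I : Ideal (𝓞 K))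

theorem one_le_nI (I : (Ideal (𝓞 K))⁰) : 1 ≤ nI I := by
  unfold nI
  exact_mod_cast Ideal.absNorm_pos_of_nonZeroDivisors I

theorem nI_pos (I : (Ideal (𝓞 K))⁰) : 0 < nI I := one_pos.trans_le (one_le_nI I)

theorem nI_mul (I J : (Ideal (𝓞 K))⁰) : nI (I * J) = nI I * nI J := by
  simp [nI]

theorem nI_one : nI (1 : (Ideal (𝓞 K))⁰) = 1 := by
  simp [nI]

variable (K) in
/-- the nonzero ideals of norm at most `X` -/
noncomputable def bl (X : ℝ) : Finset (Ideal (𝓞 K))⁰ := (Ideal.finite_setOfPred_absNorm_le₀ ⌊X⌋₊).toFinset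

theorem mem_bl {X : ℝ} {I : (Ideal (𝓞 K))⁰} : I ∈ bl K X ↔ nI I ≤ X := by
  rw [bl, Set.Finite.mem_toFinset]
  change Ideal.absNorm (I : Ideal (𝓞 K)) ≤ ⌊X⌋₊ ↔ _
  have h := Ideal.absNorm_pos_of_nonZeroDivisors I
  rw [Nat.le_floor_iff' h.ne']
  rfl

variable (K) in
/-- the density of the ideals of one class -/
noncomputable def kp : ℝ :=
  (2 ^ InfinitePlace.nrRealPlaces K * (2 * π) ^ InfinitePlace.nrComplexPlaces K * Units.regulator K) /
    (Units.torsionOrder K * Real.sqrt |discr K|)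

variable (K) in
theorem kp_pos : 0 < kp K := by
  unfold kp
  have h1 := Units.regulator_pos K
  have h2 : (0 : ℝ) < Units.torsionOrder K := by exact_mod_cast Units.torsionOrder_pos K
  have h3 : (0 : ℝ) < Real.sqrt |discr K| := by
    apply Real.sqrt_pos.2
    have := discr_ne_zero K
    positivity
  positivity

/-- number of ideals of class `C` and norm at most `X` -/
noncomputable def nC (C : ClassGroup (𝓞 K)) (X : ℝ) : ℝ :=
  (((bl K X).filter fun I => ClassGroup.mk0 I = C).card : ℝ)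

theorem nC_nonneg (C : ClassGroup (𝓞 K)) (X : ℝ) : 0 ≤ nC C X := Nat.cast_nonneg _

theorem tendsto_nC (C : ClassGroup (𝓞 K)) : Tendsto (fun X : ℝ => nC C X / X) atTop (𝓝 (kp K)) := by
  refine (Ideal.tendsto_norm_le_and_mk_eq_div_atTop K C).congr fun X => ?_
  congr 1
  unfold nC
  rw [← Fintype.card_coe, ← Nat.card_eq_fintype_card]
  congr 1
  refine Nat.card_congr (Equiv.subtypeEquivRight fun I => ?_)
  rw [mem_filter, mem_bl]
  rfl

theorem nC_mono (C : ClassGroup (𝓞 K)) {X Y : ℝ} (h : X ≤ Y) : nC C X ≤ nC C Y := by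
  unfold nC
  refine Nat.cast_le.2 (card_le_card fun I hI => ?_)
  rw [mem_filter, mem_bl] at hI ⊢
  exact ⟨hI.1.trans h, hI.2⟩

theorem nC_small (C : ClassGroup (𝓞 K)) {X : ℝ} (h : X < 1) : nC C X = 0 := by
  unfold nC
  rw [Nat.cast_eq_zero, card_eq_zero, filter_eq_empty_iff]
  intro I hI
  exact absurd ((one_le_nI I).trans (mem_bl.1 hI)) (not_le.2 h)

theorem nC_le' (C : ClassGroup (𝓞 K)) : ∃ c : ℝ, 0 < c ∧ ∀ X : ℝ, 0 ≤ X → nC C X ≤ c * X := by
  obtain ⟨X₀, h⟩ := eventually_atTop.1 (((tendsto_nC C).eventually (gt_mem_nhds (lt_add_one (kp K)))).and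
    (eventually_gt_atTop 0))
  have hk := kp_pos K
  have h0 := nC_nonneg C X₀
  refine ⟨kp K + 1 + nC C X₀, by positivity, fun X hX => ?_⟩
  rcases lt_or_ge X 1 with h1 | h1
  · rw [nC_small C h1]; positivity
  rcases le_total X₀ X with h2 | h2
  · obtain ⟨h3, h4⟩ := h X h2
    rw [div_lt_iff₀ h4] at h3
    nlinarith
  · have := nC_mono C h2
    nlinarith

variable (K) in
theorem nC_le : ∃ c : ℝ, 0 < c ∧ ∀ (C : ClassGroup (𝓞 K)) (X : ℝ), 0 ≤ X → nC C X ≤ c * X := by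
  choose c hc h using fun C : ClassGroup (𝓞 K) => nC_le' C
  refine ⟨∑ C, c C, sum_pos (fun C _ => hc C) univ_nonempty, fun C X hX => (h C X hX).trans ?_⟩
  exact mul_le_mul_of_nonneg_right (single_le_sum (fun C _ => (hc C).le) (mem_univ C)) hX

theorem card_dvd (C : ClassGroup (𝓞 K)) (E : (Ideal (𝓞 K))⁰) (X : ℝ) :
    ((((bl K X).filter fun I => ClassGroup.mk0 I = C).filter fun I => E ∣ I).card : ℝ) =
      nC (C * (ClassGroup.mk0 E)⁻¹) (X / nI E) := by
  unfold nC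
  congr 1
  symm
  refine card_bij (fun J _ => E * J) (fun J hJ => ?_) (fun J _ J' _ h => mul_left_cancel h) fun I hI => ?_
  · rw [mem_filter, mem_bl] at hJ
    rw [mem_filter, mem_filter, mem_bl, nI_mul, map_mul, hJ.2]
    refine ⟨⟨?_, by rw [mul_comm C, mul_inv_cancel_left]⟩, dvd_mul_right _ _⟩
    rw [mul_comm]
    exact (le_div_iff₀ (nI_pos E)).1 hJ.1
  · rw [mem_filter, mem_filter, mem_bl] at hI
    obtain ⟨⟨h1, h2⟩, J, rfl⟩ := hI
    refine ⟨J, ?_, rfl⟩
    rw [mem_filter, mem_bl, le_div_iff₀ (nI_pos E), mul_comm, ← nI_mul, ← h2, map_mul]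
    exact ⟨h1, by rw [mul_comm (ClassGroup.mk0 E), mul_inv_cancel_right]⟩

/-- a prime as a nonzero ideal -/
def pI (P : HeightOneSpectrum (𝓞 K)) : (Ideal (𝓞 K))⁰ :=
  ⟨P.asIdeal, mem_nonZeroDivisors_of_ne_zero P.ne_bot⟩

/-- the primes dividing `I` -/
noncomputable def pf (I : (Ideal (𝓞 K))⁰) : Finset (HeightOneSpectrum (𝓞 K)) :=
  (Ideal.finite_factors (nonZeroDivisors.coe_ne_zero I)).toFinset

theorem mem_pf {I : (Ideal (𝓞 K))⁰} {P : HeightOneSpectrum (𝓞 K)} :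
    P ∈ pf I ↔ P.asIdeal ∣ (I : Ideal (𝓞 K)) := by
  rw [pf, Set.Finite.mem_toFinset]; rfl

theorem prod_dvd_iff {I : (Ideal (𝓞 K))⁰} {s : Finset (HeightOneSpectrum (𝓞 K))} :
    ∏ P ∈ s, pI P ∣ I ↔ s ⊆ pf I := by
  rw [nonZeroDivisors_dvd_iff_dvd_coe, Submonoid.coe_finsetProd]
  constructor
  · intro h P hP
    exact mem_pf.2 ((dvd_prod_of_mem (fun P => ((pI P : (Ideal (𝓞 K))⁰) : Ideal (𝓞 K))) hP).trans h)
  · intro h
    refine prod_dvd_of_coprime (fun P _ Q _ hPQ => ?_) fun P hP => mem_pf.1 (h hP)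
    exact HeightOneSpectrum.isCoprime_of_ne P Q hPQ

theorem nI_prod (s : Finset (HeightOneSpectrum (𝓞 K))) : nI (∏ P ∈ s, pI P) = ∏ P ∈ s, nI (pI P) := by
  induction s using Finset.induction_on with
  | empty => simp [nI_one]
  | insert P s h ih => rw [prod_insert h, prod_insert h, nI_mul, ih]

/-- the multiplicative function `∏_{P ∣ I} (1 + a P)` -/
noncomputable def fm (a : HeightOneSpectrum (𝓞 K) → ℝ) (I : (Ideal (𝓞 K))⁰) : ℝ := ∏ P ∈ pf I, (1 + a P)

theorem fm_hasSum (a : HeightOneSpectrum (𝓞 K) → ℝ) (I : (Ideal (𝓞 K))⁰) :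
    HasSum (fun s : Finset (HeightOneSpectrum (𝓞 K)) => if ∏ P ∈ s, pI P ∣ I then ∏ P ∈ s, a P else 0)
      (fm a I) := by
  have h : fm a I = ∑ s ∈ (pf I).powerset, if ∏ P ∈ s, pI P ∣ I then ∏ P ∈ s, a P else 0 := by
    rw [fm, prod_one_add]
    refine sum_congr rfl fun s hs => ?_
    rw [if_pos (prod_dvd_iff.2 (mem_powerset.1 hs))]
  rw [h]
  refine hasSum_sum_of_ne_finset_zero fun s hs => ?_
  rw [if_neg fun h => hs (mem_powerset.2 (prod_dvd_iff.1 h))]

/-- the partial sums of `fm a` over a class -/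
noncomputable def sC (a : HeightOneSpectrum (𝓞 K) → ℝ) (C : ClassGroup (𝓞 K)) (X : ℝ) : ℝ :=
  ∑ I ∈ (bl K X).filter fun I => ClassGroup.mk0 I = C, fm a I

theorem sC_eq (a : HeightOneSpectrum (𝓞 K) → ℝ) (C : ClassGroup (𝓞 K)) (X : ℝ) :
    sC a C X = ∑' s : Finset (HeightOneSpectrum (𝓞 K)), (∏ P ∈ s, a P) *
      nC (C * (ClassGroup.mk0 (∏ P ∈ s, pI P))⁻¹) (X / nI (∏ P ∈ s, pI P)) := by
  rw [sC, ← (hasSum_sum fun I _ => fm_hasSum a I).tsum_eq]
  refine tsum_congr fun s => ?_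
  rw [← card_dvd, ← sum_filter, sum_const, nsmul_eq_mul, mul_comm]

/-- the mean value -/
theorem tendsto_sC {a : HeightOneSpectrum (𝓞 K) → ℝ} (ha : Summable fun P => |a P| / nI (pI P))
    (C : ClassGroup (𝓞 K)) :
    Tendsto (fun X : ℝ => sC a C X / X) atTop (𝓝 (kp K * ∏' P, (1 + a P / nI (pI P)))) := by
  obtain ⟨c, hc, hb⟩ := nC_le K
  have ha' : Summable fun P => ‖a P / nI (pI P)‖ := by
    refine ha.congr fun P => ?_
    rw [norm_div, Real.norm_eq_abs, Real.norm_of_nonneg (nI_pos _).le]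
  rw [tprod_one_add (summable_finsetProd_of_summable_norm ha'), ← tsum_mul_left]
  simp_rw [sC_eq, ← tsum_div_const]
  refine tendsto_tsum_of_dominated_convergence
    (bound := fun s : Finset (HeightOneSpectrum (𝓞 K)) => c * ∏ P ∈ s, |a P| / nI (pI P))
    ((summable_finsetProd_of_summable_nonneg (fun P => div_nonneg (abs_nonneg _) (nI_pos _).le) ha).mul_left c)
    (fun s => ?_) ?_
  · have hN := nI_pos (∏ P ∈ s, pI P)
    have h1 := ((tendsto_nC (C * (ClassGroup.mk0 (∏ P ∈ s, pI P))⁻¹)).comp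
      (tendsto_id.atTop_div_const hN)).const_mul ((∏ P ∈ s, a P) / nI (∏ P ∈ s, pI P))
    rw [prod_div_distrib, ← nI_prod, mul_comm (kp K)]
    refine h1.congr' ?_
    filter_upwards [eventually_gt_atTop 0] with X hX
    simp only [Function.comp, id]
    field_simp
  · filter_upwards [eventually_gt_atTop 0] with X hX s
    have hN := nI_pos (∏ P ∈ s, pI P)
    have h1 := hb (C * (ClassGroup.mk0 (∏ P ∈ s, pI P))⁻¹) (X / nI (∏ P ∈ s, pI P)) (by positivity)
    have h2 := nC_nonneg (C * (ClassGroup.mk0 (∏ P ∈ s, pI P))⁻¹) (X / nI (∏ P ∈ s, pI P))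
    rw [prod_div_distrib, ← nI_prod, ← abs_prod, Real.norm_eq_abs, abs_div, abs_mul, abs_of_nonneg h2,
      abs_of_pos hX, div_le_iff₀ hX]
    calc _ ≤ |∏ P ∈ s, a P| * (c * (X / nI (∏ P ∈ s, pI P))) := mul_le_mul_of_nonneg_left h1 (abs_nonneg _)
      _ = _ := by field_simp

end Crest.Agent.R27.Cn
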