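import Crest.Agent.R27.TH.CntA

/-! Row 27, block THETA / CNT (helper79): the function `1[I coprime to T] φ(I) / N(I)` and power weights. -/

set_option autoImplicit false

namespace Crest.Agent.R27.Cn

open NumberField Filter Topology Finset IsDedekindDomain MeasureTheory
open scoped Classical nonZeroDivisors Real

variable {K : Type} [Field K] [NumberField K]

theorem two_le_nI (P : HeightOneSpectrum (𝓞 K)) : 2 ≤ nI (pI P) := by
  have h1 : Ideal.absNorm P.asIdeal ≠ 1 := fun h => P.isPrime.ne_top (Ideal.absNorm_eq_one_iff.1 h)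
  have h2 : Ideal.absNorm P.asIdeal ≠ 0 := fun h => P.ne_bot (Ideal.absNorm_eq_zero_iff.1 h)
  have h3 : 2 ≤ Ideal.absNorm P.asIdeal := by omega
  unfold nI pI
  exact_mod_cast h3

/-- `-1` on `T`, `-1 / N P` outside -/
noncomputable def aT (T : Finset (HeightOneSpectrum (𝓞 K))) (P : HeightOneSpectrum (𝓞 K)) : ℝ :=
  if P ∈ T then -1 else -(nI (pI P))⁻¹

theorem summable_sq : Summable fun P : HeightOneSpectrum (𝓞 K) => (nI (pI P))⁻¹ / nI (pI P) := by
  have h := (Ku.summable_ideal K (σ := 2) one_lt_two).comp_injective (i := pI (K := K))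
    fun P Q h => HeightOneSpectrum.ext (congrArg Subtype.val h)
  refine h.congr fun P => ?_
  have := nI_pos (pI P)
  change (nI (pI P)) ^ (-(2 : ℝ)) = _
  rw [Real.rpow_neg this.le, Real.rpow_two]
  field_simp

theorem summable_aT (T : Finset (HeightOneSpectrum (𝓞 K))) : Summable fun P => |aT T P| / nI (pI P) := by
  refine (Finset.summable_compl_iff T).1 (((Finset.summable_compl_iff T).2 summable_sq).congr fun P => ?_)
  rw [aT, if_neg P.2, abs_neg, abs_of_pos (inv_pos.2 (nI_pos _))]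

theorem aT_pos (T : Finset (HeightOneSpectrum (𝓞 K))) (P : HeightOneSpectrum (𝓞 K)) :
    0 < 1 + aT T P / nI (pI P) := by
  have h := two_le_nI P
  have h1 : (nI (pI P))⁻¹ ≤ 1 / 2 := by rw [one_div]; exact inv_anti₀ two_pos h
  have h2 : 0 < (nI (pI P))⁻¹ := inv_pos.2 (nI_pos _)
  unfold aT
  split_ifs
  · rw [div_eq_mul_inv]; linarith
  · rw [div_eq_mul_inv]; nlinarith

theorem one_add_aT (T : Finset (HeightOneSpectrum (𝓞 K))) (P : HeightOneSpectrum (𝓞 K)) :
    0 ≤ 1 + aT T P ∧ 1 + aT T P ≤ 1 := by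
  have h := two_le_nI P
  have h1 : (nI (pI P))⁻¹ ≤ 1 / 2 := by rw [one_div]; exact inv_anti₀ two_pos h
  have h2 : 0 < (nI (pI P))⁻¹ := inv_pos.2 (nI_pos _)
  unfold aT
  split_ifs <;> constructor <;> linarith

theorem fm_aT_nonneg (T : Finset (HeightOneSpectrum (𝓞 K))) (I : (Ideal (𝓞 K))⁰) : 0 ≤ fm (aT T) I :=
  prod_nonneg fun P _ => (one_add_aT T P).1

theorem fm_aT_le (T : Finset (HeightOneSpectrum (𝓞 K))) (I : (Ideal (𝓞 K))⁰) : fm (aT T) I ≤ 1 :=
  prod_le_one (fun P _ => (one_add_aT T P).1) fun P _ => (one_add_aT T P).2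

theorem fm_aT_insert (T : Finset (HeightOneSpectrum (𝓞 K))) (P : HeightOneSpectrum (𝓞 K))
    (I : (Ideal (𝓞 K))⁰) :
    fm (aT (insert P T)) I = if P.asIdeal ∣ (I : Ideal (𝓞 K)) then 0 else fm (aT T) I := by
  split_ifs with h
  · exact prod_eq_zero (mem_pf.2 h) (by simp [aT])
  · refine prod_congr rfl fun Q hQ => ?_
    have : Q ≠ P := fun e => h (e ▸ mem_pf.1 hQ)
    simp [aT, this]

/-- the mean value of `fm (aT T)` on a class -/
noncomputable def dT (T : Finset (HeightOneSpectrum (𝓞 K))) : ℝ := kp K * ∏' P, (1 + aT T P / nI (pI P))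

theorem summable_aT' (T : Finset (HeightOneSpectrum (𝓞 K))) : Summable fun P => ‖aT T P / nI (pI P)‖ := by
  refine (summable_aT T).congr fun P => ?_
  rw [norm_div, Real.norm_eq_abs, Real.norm_of_nonneg (nI_pos _).le]

theorem dT_pos (T : Finset (HeightOneSpectrum (𝓞 K))) : 0 < dT T := by
  refine mul_pos (kp_pos K) ?_
  rw [← Real.rexp_tsum_eq_tprod (aT_pos T) (Real.summable_log_one_add_of_summable (summable_aT' T).of_norm)]
  exact Real.exp_pos _

theorem dT_insert {T : Finset (HeightOneSpectrum (𝓞 K))} {P : HeightOneSpectrum (𝓞 K)} (h : P ∉ T) :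
    dT (insert P T) = nI (pI P) / (nI (pI P) + 1) * dT T := by
  have m1 := multipliable_one_add_of_summable (summable_aT' T)
  have m2 := multipliable_one_add_of_summable (summable_aT' (insert P T))
  have h2 := two_le_nI P
  unfold dT
  have e : ∀ Q, Function.update (fun Q => 1 + aT (insert P T) Q / nI (pI Q)) P 1 Q =
      Function.update (fun Q => 1 + aT T Q / nI (pI Q)) P 1 Q := by
    intro Q
    by_cases hQ : Q = P
    · subst hQ; simp
    · simp [aT, hQ]
  have m3 : Multipliable (Function.update (fun Q => 1 + aT T Q / nI (pI Q)) P 1) := by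
    have := multipliable_one_add_of_summable (f := Function.update (fun Q => aT T Q / nI (pI Q)) P 0)
      (Summable.of_nonneg_of_le (fun _ => norm_nonneg _) (fun Q => by
        by_cases hQ : Q = P
        · subst hQ; rw [Function.update_self, norm_zero]; exact norm_nonneg _
        · rw [Function.update_of_ne hQ]) (summable_aT' T))
    refine this.congr fun Q => ?_
    by_cases hQ : Q = P
    · subst hQ; simp
    · simp [Function.update_of_ne hQ]
  rw [Multipliable.tprod_eq_mul_tprod_ite' P m3,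
    Multipliable.tprod_eq_mul_tprod_ite' P (m3.congr fun Q => (e Q).symm)]
  have e2 : ∏' Q, (if Q = P then 1 else 1 + aT (insert P T) Q / nI (pI Q)) =
      ∏' Q, (if Q = P then 1 else 1 + aT T Q / nI (pI Q)) := by
    refine tprod_congr fun Q => ?_
    by_cases hQ : Q = P
    · simp [hQ]
    · simp [aT, hQ]
  rw [e2]
  have e3 : 1 + aT (insert P T) P / nI (pI P) = nI (pI P) / (nI (pI P) + 1) * (1 + aT T P / nI (pI P)) := by
    simp only [aT, mem_insert_self, if_true, if_neg h]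
    field_simp
    ring
  rw [e3]
  ring

theorem tendsto_sC_aT (T : Finset (HeightOneSpectrum (𝓞 K))) (C : ClassGroup (𝓞 K)) :
    Tendsto (fun X : ℝ => sC (aT T) C X / X) atTop (𝓝 (dT T)) := tendsto_sC (summable_aT T) C

variable (K) in
theorem sC_aT_le : ∃ c : ℝ, 0 < c ∧ ∀ (T : Finset (HeightOneSpectrum (𝓞 K))) (C : ClassGroup (𝓞 K)) (X : ℝ),
    0 ≤ X → |sC (aT T) C X| ≤ c * X := by
  obtain ⟨c, hc, h⟩ := nC_le K
  refine ⟨c, hc, fun T C X hX => le_trans ?_ (h C X hX)⟩
  rw [sC, abs_of_nonneg (sum_nonneg fun I _ => fm_aT_nonneg T I), nC, card_eq_sum_ones, Nat.cast_sum]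
  exact sum_le_sum fun I _ => by simpa using fm_aT_le T I

/-- partial summation with a power weight -/
theorem tendsto_pow {ι : Type} {s : ℝ → Finset ι} {p : ι → Prop} {n w : ι → ℝ} {κ c : ℝ}
    (hs : ∀ X i, i ∈ s X ↔ n i ≤ X ∧ p i) (hn : ∀ i, 0 ≤ n i)
    (hA : Tendsto (fun X => (∑ i ∈ s X, w i) / X) atTop (𝓝 κ))
    (hb : ∀ X, 0 ≤ X → |∑ i ∈ s X, w i| ≤ c * X) (k : ℕ) :
    Tendsto (fun X => (∑ i ∈ s X, w i * n i ^ k) / X ^ (k + 1)) atTop (𝓝 (κ / (k + 1))) := by
  rcases Nat.eq_zero_or_pos k with rfl | hk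
  · simpa using hA
  obtain ⟨k, rfl⟩ : ∃ j, k = j + 1 := ⟨k - 1, by omega⟩
  -- the integral term
  have hind : ∀ X : ℝ, 0 < X → ∀ t ∈ Set.Ioc (0 : ℝ) 1, (∑ i ∈ s (t * X), w i) =
      ∑ i ∈ s X, (Set.Ici (n i / X)).indicator (fun _ => w i) t := by
    intro X hX t ht
    simp only [Set.indicator, Set.mem_Ici]
    rw [← sum_filter]
    refine sum_congr ?_ fun _ _ => rfl
    ext i
    rw [mem_filter, hs, hs, div_le_iff₀ hX]
    exact ⟨fun h => ⟨⟨h.1.trans (by nlinarith [ht.2]), h.2⟩, h.1⟩, fun h => ⟨h.2, h.1.2⟩⟩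
  have hint : ∀ y : ℝ, 0 ≤ y → y ≤ 1 → ∀ a : ℝ,
      IntegrableOn (fun t => ((k : ℝ) + 1) * t ^ k * (Set.Ici y).indicator (fun _ => a) t) (Set.Ioc 0 1) ∧
      ∫ t in Set.Ioc (0 : ℝ) 1, ((k : ℝ) + 1) * t ^ k * (Set.Ici y).indicator (fun _ => a) t =
        a * (1 - y ^ (k + 1)) := by
    intro y h0 h1 a
    have e : (fun t : ℝ => ((k : ℝ) + 1) * t ^ k * (Set.Ici y).indicator (fun _ => a) t) =
        (Set.Ici y).indicator fun t => a * (((k : ℝ) + 1) * t ^ k) := by
      funext t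
      by_cases ht : t ∈ Set.Ici y
      · rw [Set.indicator_of_mem ht, Set.indicator_of_mem ht]; ring
      · rw [Set.indicator_of_notMem ht, Set.indicator_of_notMem ht]; ring
    rw [e]
    refine ⟨(Continuous.integrableOn_Ioc (by fun_prop)).indicator measurableSet_Ici, ?_⟩
    rw [setIntegral_indicator measurableSet_Ici]
    have e2 : (Set.Ioc (0 : ℝ) 1 ∩ Set.Ici y : Set ℝ) =ᵐ[volume] (Set.Ioc y 1 : Set ℝ) := by
      have h3 : ∀ᵐ t : ℝ, t ≠ y := by simp [ae_iff]
      filter_upwards [h3] with t ht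
      refine propext ⟨fun h => ⟨lt_of_le_of_ne h.2 (Ne.symm ht), h.1.2⟩, fun h => ⟨⟨h0.trans_lt h.1, h.2⟩, h.1.le⟩⟩
    rw [setIntegral_congr_set e2, ← intervalIntegral.integral_of_le h1, intervalIntegral.integral_const_mul,
      intervalIntegral.integral_const_mul, integral_pow, one_pow]
    field_simp
  have key : ∀ X : ℝ, 0 < X → (∑ i ∈ s X, w i * n i ^ (k + 1)) / X ^ (k + 1 + 1) = (∑ i ∈ s X, w i) / X -
      ∫ t in Set.Ioc (0 : ℝ) 1, ((k : ℝ) + 1) * t ^ k * ((∑ i ∈ s (t * X), w i) / X) := by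
    intro X hX
    have hy : ∀ i ∈ s X, 0 ≤ n i / X ∧ n i / X ≤ 1 := fun i hi =>
      ⟨div_nonneg (hn i) hX.le, (div_le_one hX).2 ((hs X i).1 hi).1⟩
    rw [setIntegral_congr_fun measurableSet_Ioc (g := fun t => (∑ i ∈ s X, ((k : ℝ) + 1) * t ^ k *
      (Set.Ici (n i / X)).indicator (fun _ => w i) t) / X) fun t ht => by
        simp only
        rw [hind X hX t ht, ← mul_sum, mul_div_assoc],
      integral_div, integral_finsetSum _ fun i hi => (hint _ (hy i hi).1 (hy i hi).2 _).1,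
      sum_congr rfl fun i hi => (hint _ (hy i hi).1 (hy i hi).2 _).2, ← sub_div, ← sum_sub_distrib, sum_div,
      sum_div]
    refine sum_congr rfl fun i _ => ?_
    rw [div_pow]
    field_simp
    ring
  have lim : Tendsto (fun X : ℝ => ∫ t in Set.Ioc (0 : ℝ) 1, ((k : ℝ) + 1) * t ^ k * ((∑ i ∈ s (t * X), w i) / X))
      atTop (𝓝 (∫ t in Set.Ioc (0 : ℝ) 1, ((k : ℝ) + 1) * t ^ k * (κ * t))) := by
    refine tendsto_integral_filter_of_dominated_convergence (fun _ => ((k : ℝ) + 1) * |c|) ?_ ?_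
      (integrable_const _) ?_
    · filter_upwards [eventually_gt_atTop 0] with X hX
      have hy : ∀ i ∈ s X, 0 ≤ n i / X ∧ n i / X ≤ 1 := fun i hi =>
        ⟨div_nonneg (hn i) hX.le, (div_le_one hX).2 ((hs X i).1 hi).1⟩
      have h1 := ((integrable_finsetSum (s X) fun i hi =>
        (hint _ (hy i hi).1 (hy i hi).2 (w i)).1).div_const X).aestronglyMeasurable
      refine h1.congr ((ae_restrict_iff' measurableSet_Ioc).2 (ae_of_all _ fun t ht => ?_))
      simp only
      rw [hind X hX t ht, ← mul_sum, mul_div_assoc]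
    · filter_upwards [eventually_gt_atTop 0] with X hX
      refine (ae_restrict_iff' measurableSet_Ioc).2 (ae_of_all _ fun t ht => ?_)
      have h1 := hb (t * X) (mul_pos ht.1 hX).le
      have h2 : t ^ k ≤ 1 := pow_le_one₀ ht.1.le ht.2
      have h3 : 0 ≤ t ^ k := pow_nonneg ht.1.le k
      have h4 : |(∑ i ∈ s (t * X), w i) / X| ≤ |c| := by
        rw [abs_div, abs_of_pos hX, div_le_iff₀ hX]
        refine h1.trans ((mul_le_mul_of_nonneg_right (le_abs_self c) (mul_pos ht.1 hX).le).trans ?_)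
        exact mul_le_mul_of_nonneg_left (by nlinarith [ht.2]) (abs_nonneg c)
      rw [Real.norm_eq_abs, abs_mul, abs_mul, abs_of_nonneg h3, abs_of_nonneg (by positivity : (0 : ℝ) ≤ k + 1),
        mul_assoc]
      refine mul_le_mul_of_nonneg_left ?_ (by positivity)
      calc _ ≤ 1 * |c| := mul_le_mul h2 h4 (abs_nonneg _) zero_le_one
        _ = _ := one_mul _
    · refine (ae_restrict_iff' measurableSet_Ioc).2 (ae_of_all _ fun t ht => ?_)
      refine Tendsto.const_mul _ ?_
      have h1 := (hA.comp (tendsto_id.const_mul_atTop ht.1)).mul_const t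
      refine h1.congr' ?_
      filter_upwards [eventually_gt_atTop 0] with X hX
      have := ht.1.ne'
      simp only [Function.comp, id]
      field_simp
  have val : ∫ t in Set.Ioc (0 : ℝ) 1, ((k : ℝ) + 1) * t ^ k * (κ * t) = κ * ((k + 1) / (k + 2)) := by
    rw [← intervalIntegral.integral_of_le zero_le_one]
    have e : ∀ t : ℝ, ((k : ℝ) + 1) * t ^ k * (κ * t) = (((k : ℝ) + 1) * κ) * t ^ (k + 1) := fun t => by ring
    simp_rw [e]
    rw [intervalIntegral.integral_const_mul, integral_pow]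
    push_cast
    field_simp
    ring
  have fin := hA.sub lim
  rw [val] at fin
  have e : κ - κ * (((k : ℝ) + 1) / (k + 2)) = κ / (((k + 1 : ℕ) : ℝ) + 1) := by
    push_cast
    field_simp
    ring
  rw [e] at fin
  refine fin.congr' ?_
  filter_upwards [eventually_gt_atTop 0] with X hX
  exact (key X hX).symm

end Crest.Agent.R27.Cn
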