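import Crest.Agent.R27.TH.CntB

/-! Row 27, block THETA / CNT (helper79): the count of the principal ideals `𝔰 𝔟³`. -/

set_option autoImplicit false

namespace Crest.Agent.R27.Cn

open NumberField Filter Topology Finset IsDedekindDomain MeasureTheory
open scoped Classical nonZeroDivisors Real

variable {K : Type} [Field K] [NumberField K]
variable {α : Type} (sz : α → ℝ) (cl : α → ClassGroup (𝓞 K)) (e : α → Prop)

/-- the term of `𝔰` -/
noncomputable def AT (T : Finset (HeightOneSpectrum (𝓞 K))) (B : ℝ) (f : α) : ℝ :=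
  if e f then ∑ C ∈ univ.filter fun C => cl f * C ^ 3 = 1, sC (aT T) C ((B / sz f) ^ (1 / 3 : ℝ)) else 0

/-- `∑ φ(𝔟) / N 𝔟` over the pairs with `𝔰 𝔟³` principal of norm at most `B` -/
noncomputable def AI (T : Finset (HeightOneSpectrum (𝓞 K))) (B : ℝ) : ℝ := ∑' f : α, AT sz cl e T B f

/-- the constant of the primes in `S` -/
noncomputable def Lam : ℝ :=
  ∑' f : α, if e f then sz f ^ (-(1 / 3) : ℝ) * ((univ.filter fun C => cl f * C ^ 3 = 1).card : ℝ) else 0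

variable {sz cl e}

theorem card_cls_le (f : α) :
    ((univ.filter fun C => cl f * C ^ 3 = 1).card : ℝ) ≤ Fintype.card (ClassGroup (𝓞 K)) :=
  Nat.cast_le.2 (card_le_univ _)

theorem summable_Lam (h1 : ∀ f, 1 ≤ sz f) (hs : Summable fun f => sz f ^ (-(1 / 3) : ℝ)) : Summable fun f =>
    if e f then sz f ^ (-(1 / 3) : ℝ) * ((univ.filter fun C => cl f * C ^ 3 = 1).card : ℝ) else 0 := by
  refine Summable.of_nonneg_of_le (fun f => ?_) (fun f => ?_)
    (hs.mul_right (Fintype.card (ClassGroup (𝓞 K)) : ℝ))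
  · have := h1 f
    split_ifs <;> positivity
  · have h0 : 0 < sz f := one_pos.trans_le (h1 f)
    split_ifs
    · exact mul_le_mul_of_nonneg_left (card_cls_le f) (by positivity)
    · positivity

theorem Lam_pos (h1 : ∀ f, 1 ≤ sz f) (hs : Summable fun f => sz f ^ (-(1 / 3) : ℝ)) {f₀ : α} (he : e f₀)
    (hc : cl f₀ = 1) : 0 < Lam sz cl e := by
  refine (summable_Lam h1 hs).tsum_pos (fun f => ?_) f₀ ?_
  · have := h1 f
    split_ifs <;> positivity
  · have h0 : 0 < sz f₀ := one_pos.trans_le (h1 f₀)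
    have h2 : 0 < (univ.filter fun C => cl f₀ * C ^ 3 = 1).card := card_pos.2 ⟨1, by simp [hc]⟩
    rw [if_pos he]
    positivity

theorem cnc_pow {B s : ℝ} (hB : 0 < B) (hs : 0 < s) :
    (B / s) ^ (1 / 3 : ℝ) = B ^ (1 / 3 : ℝ) * s ^ (-(1 / 3) : ℝ) := by
  rw [Real.div_rpow hB.le hs.le, Real.rpow_neg hs.le, div_eq_mul_inv]

theorem AT_le (h1 : ∀ f, 1 ≤ sz f) : ∃ c : ℝ, 0 < c ∧ ∀ (T : Finset (HeightOneSpectrum (𝓞 K))) (B : ℝ),
    0 < B → ∀ f, ‖AT sz cl e T B f / B ^ (1 / 3 : ℝ)‖ ≤ c * sz f ^ (-(1 / 3) : ℝ) := by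
  obtain ⟨c, hc, h⟩ := sC_aT_le K
  refine ⟨Fintype.card (ClassGroup (𝓞 K)) * c, mul_pos (Nat.cast_pos.2 Fintype.card_pos) hc, fun T B hB f => ?_⟩
  have h0 : 0 < sz f := one_pos.trans_le (h1 f)
  have hB' : 0 < B ^ (1 / 3 : ℝ) := Real.rpow_pos_of_pos hB _
  unfold AT
  split_ifs
  · rw [norm_div, Real.norm_of_nonneg hB'.le, div_le_iff₀ hB']
    have h2 := sum_le_card_nsmul (univ.filter fun C => cl f * C ^ 3 = 1) _ _
      fun C _ => h T C ((B / sz f) ^ (1 / 3 : ℝ)) (by positivity)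
    rw [nsmul_eq_mul] at h2
    calc _ ≤ Fintype.card (ClassGroup (𝓞 K)) * (c * (B / sz f) ^ (1 / 3 : ℝ)) :=
          (abs_sum_le_sum_abs _ _).trans (h2.trans (mul_le_mul_of_nonneg_right (card_cls_le f) (by positivity)))
      _ = _ := by rw [cnc_pow hB h0]; ring
  · rw [zero_div, norm_zero]; positivity

theorem summable_AT (h1 : ∀ f, 1 ≤ sz f) (hs : Summable fun f => sz f ^ (-(1 / 3) : ℝ))
    (T : Finset (HeightOneSpectrum (𝓞 K))) {B : ℝ} (hB : 0 < B) : Summable (AT sz cl e T B) := by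
  obtain ⟨c, -, hc⟩ := AT_le (cl := cl) (e := e) h1
  have h6 : 0 < B ^ (1 / 3 : ℝ) := Real.rpow_pos_of_pos hB _
  refine (((hs.mul_left c).of_norm_bounded (hc T B hB)).mul_right (B ^ (1 / 3 : ℝ))).congr fun f => ?_
  field_simp

theorem tendsto_AI (h1 : ∀ f, 1 ≤ sz f) (hs : Summable fun f => sz f ^ (-(1 / 3) : ℝ))
    (T : Finset (HeightOneSpectrum (𝓞 K))) :
    Tendsto (fun B : ℝ => AI sz cl e T B / B ^ (1 / 3 : ℝ)) atTop (𝓝 (dT T * Lam sz cl e)) := by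
  obtain ⟨c, -, hc⟩ := AT_le (cl := cl) (e := e) h1
  unfold AI Lam
  simp_rw [← tsum_div_const, ← tsum_mul_left]
  refine tendsto_tsum_of_dominated_convergence (hs.mul_left c) (fun f => ?_)
    ((eventually_gt_atTop 0).mono fun B hB => hc T B hB)
  have h0 : 0 < sz f := one_pos.trans_le (h1 f)
  unfold AT
  split_ifs
  · have h2 : Tendsto (fun B : ℝ => (B / sz f) ^ (1 / 3 : ℝ)) atTop atTop :=
      (tendsto_rpow_atTop (by norm_num)).comp (tendsto_id.atTop_div_const h0)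
    have h3 := (tendsto_finsetSum (univ.filter fun C => cl f * C ^ 3 = 1)
      fun C _ => (tendsto_sC_aT T C).comp h2).const_mul (sz f ^ (-(1 / 3) : ℝ))
    rw [sum_const, nsmul_eq_mul] at h3
    convert h3.congr' ?_ using 2
    · ring
    filter_upwards [eventually_gt_atTop 0] with B hB
    have h5 : 0 < sz f ^ (-(1 / 3) : ℝ) := by positivity
    have h6 : 0 < B ^ (1 / 3 : ℝ) := Real.rpow_pos_of_pos hB _
    simp only [Function.comp]
    rw [← sum_div]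
    generalize (∑ C ∈ univ.filter fun C => cl f * C ^ 3 = 1, sC (aT T) C ((B / sz f) ^ (1 / 3 : ℝ))) = S
    rw [cnc_pow hB h0]
    field_simp
  · simp

theorem AI_le (h1 : ∀ f, 1 ≤ sz f) (hs : Summable fun f => sz f ^ (-(1 / 3) : ℝ)) :
    ∃ c : ℝ, 0 < c ∧ ∀ (T : Finset (HeightOneSpectrum (𝓞 K))) (B : ℝ), 0 < B →
      |AI sz cl e T B| ≤ c * B ^ (1 / 3 : ℝ) := by
  obtain ⟨c, h0, hc⟩ := AT_le (cl := cl) (e := e) h1
  have h2 : 0 ≤ ∑' f, sz f ^ (-(1 / 3) : ℝ) :=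
    tsum_nonneg fun f => Real.rpow_nonneg (one_pos.trans_le (h1 f)).le _
  refine ⟨c * ∑' f, sz f ^ (-(1 / 3) : ℝ) + 1, by positivity, fun T B hB => ?_⟩
  have h6 : 0 < B ^ (1 / 3 : ℝ) := Real.rpow_pos_of_pos hB _
  have h3 := tsum_of_norm_bounded (hs.mul_left c).hasSum (hc T B hB)
  rw [tsum_div_const, tsum_mul_left, Real.norm_eq_abs, abs_div, abs_of_pos h6, div_le_iff₀ h6] at h3
  unfold AI
  nlinarith

/-- the dyadic version -/
theorem tendsto_AI_two (h1 : ∀ f, 1 ≤ sz f) (hs : Summable fun f => sz f ^ (-(1 / 3) : ℝ))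
    (T : Finset (HeightOneSpectrum (𝓞 K))) :
    Tendsto (fun B : ℝ => (AI sz cl e T (2 * B) - AI sz cl e T B) / B ^ (1 / 3 : ℝ)) atTop
      (𝓝 (dT T * (((2 : ℝ) ^ (1 / 3 : ℝ) - 1) * Lam sz cl e))) := by
  have h := tendsto_AI (cl := cl) (e := e) h1 hs T
  have h2 := ((h.comp (tendsto_id.const_mul_atTop two_pos)).const_mul ((2 : ℝ) ^ (1 / 3 : ℝ))).sub h
  convert h2.congr' ?_ using 2
  · ring
  filter_upwards [eventually_gt_atTop 0] with B hB
  have h6 : 0 < B ^ (1 / 3 : ℝ) := Real.rpow_pos_of_pos hB _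
  have h7 : 0 < (2 : ℝ) ^ (1 / 3 : ℝ) := by positivity
  simp only [Function.comp, id]
  rw [Real.mul_rpow zero_le_two hB.le]
  field_simp

theorem two_rpow_pos : 0 < (2 : ℝ) ^ (1 / 3 : ℝ) - 1 :=
  sub_pos.2 (Real.one_lt_rpow one_lt_two (by norm_num))

end Crest.Agent.R27.Cn
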