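import Crest.Agent.R27.A.All

/-! Row 27, block THETA / CNT (helper79): `∑_{d mod c} (d / c)₃ = φ(c) · 1[c is a cube]`. -/

set_option autoImplicit false

namespace Crest.Agent.R27.Ab

open scoped ComplexConjugate Classical

variable {R : Type} [CommRing R] [IsDomain R] [IsPrincipalIdealRing R] [Ar R]

/-- Euler's function -/
noncomputable def cnPhi (n : R) : ℂ := rsum n (one n)

theorem cn_per_one (n : R) : Per n (one n) := by
  rintro a b ⟨t, h⟩
  have : a = b + n * t := by linear_combination h
  simp only [one, this, IsCoprime.add_mul_left_left_iff]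

theorem cnPhi_unit {u : R} (h : IsUnit u) : cnPhi u = 1 := by
  rw [cnPhi, rsum_unit h (cn_per_one u), one, if_pos (isCoprime_zero_left.2 h)]

theorem cnPhi_prime {p : R} (hp : Prime p) : cnPhi p = nm p - 1 := by
  have h := gc_prime_three hp (j := 3) (by norm_num) dvd_rfl 0
  rw [if_pos (dvd_zero _), gc, FT_zero] at h
  rw [← h, cnPhi]
  congr 1
  funext y
  simp [cb_pow_three, one, hp.ne_zero]

theorem cnPhi_mul_prime {p n : R} (hp : Prime p) (hn : n ≠ 0) :
    cnPhi (p * n) = (if p ∣ n then (nm p : ℂ) else nm p - 1) * cnPhi n := by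
  split_ifs with h
  · have e : one (p * n) = one n := by
      funext y
      simp only [one, IsCoprime.mul_right_iff]
      exact if_congr ⟨fun h' => h'.2, fun h' => ⟨h'.of_isCoprime_of_dvd_right h, h'⟩⟩ rfl rfl
    rw [cnPhi, e, mul_comm p, rsum_lift hn hp.ne_zero (cn_per_one n), cnPhi]
  · have e : one (p * n) = fun y => one p y * one n y := by
      funext y
      simp only [one, IsCoprime.mul_right_iff]
      by_cases h1 : IsCoprime y p <;> by_cases h2 : IsCoprime y n <;> simp [h1, h2]
    rw [cnPhi, e, rsum_crt_mul hp.ne_zero hn (hp.coprime_iff_not_dvd.2 h) (cn_per_one p) (cn_per_one n),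
      ← cnPhi_prime hp, cnPhi, cnPhi]

theorem cn_cube {b c : R} (hc : c ≠ 0) (h : Associated c (b ^ 3)) :
    rsum c (fun d => cb d c) = nm b ^ 2 * cnPhi b := by
  have hb : b ≠ 0 := by
    rintro rfl
    exact hc (by simpa using h)
  have e : (fun d => cb d c) = one b := by
    funext d
    simp [cb_assoc d h, cb_pow_right, cb_pow_three, one, hb]
  rw [e, rsum_assoc h, show b ^ 3 = b * b ^ 2 by ring, rsum_lift hb (pow_ne_zero 2 hb) (cn_per_one b), nm_pow,
    cnPhi]
  push_cast
  rfl

theorem cn_exists_cube {c : R} (hc : c ≠ 0) (h : rsum c (fun d => cb d c) ≠ 0) : ∃ b, Associated c (b ^ 3) := by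
  induction c using UniqueFactorizationMonoid.induction_on_coprime with
  | h0 => exact absurd rfl hc
  | h1 hu => exact ⟨1, by simpa using associated_one_iff_isUnit.2 hu⟩
  | @hpr p i hp =>
    rcases i with _ | i
    · exact ⟨1, by simp⟩
    have e := gc_pow_succ 1 i 0 hp.ne_zero
    simp only [mul_zero, gc, FT_zero, pow_one, one_mul] at e
    rw [e] at h
    by_cases h3 : 3 ∣ i + 1
    · obtain ⟨j, hj⟩ := h3
      exact ⟨p ^ j, by rw [hj, ← pow_mul, mul_comm]⟩
    · exact absurd (by rw [rsum_cb_pow hp h3, mul_zero]) h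
  | @hcp x y hxy ihx ihy =>
    have hx := left_ne_zero_of_mul hc
    have hy := right_ne_zero_of_mul hc
    simp only [cb_mul_right] at h
    rw [rsum_crt_mul hx hy hxy.isCoprime (per_cb x) (per_cb y)] at h
    obtain ⟨a, ha⟩ := ihx hx (left_ne_zero_of_mul h)
    obtain ⟨b, hb⟩ := ihy hy (right_ne_zero_of_mul h)
    exact ⟨a * b, by rw [mul_pow]; exact ha.mul_mul hb⟩

end Crest.Agent.R27.Ab
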