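import Mathlib

/-! Row 27, block TH/SPACE (owner helper53): abstract unfolding with a partition of unity. -/

set_option autoImplicit false

namespace Crest.Agent.R27.TH

open MeasureTheory Filter Set
open scoped ENNReal

section
variable {Γ X : Type} [Group Γ] [Countable Γ] [MeasurableSpace X] {μ : Measure X}

/-- a measure preserving action with a partition of unity `β` -/
structure GP (μ : Measure X) (act : Γ → X → X) (β : X → ℝ) : Prop where
  one : ∀ w, act 1 w = w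
  mul : ∀ γ δ w, act (γ * δ) w = act γ (act δ w)
  mp : ∀ γ, MeasurePreserving (act γ) μ μ
  meas : Measurable β
  nonneg : ∀ w, 0 ≤ β w
  sum : ∀ w, HasSum (fun γ => β (act γ w)) 1

theorem exists_gp {act : Γ → X → X} (h1 : ∀ w, act 1 w = w)
    (hmul : ∀ γ δ w, act (γ * δ) w = act γ (act δ w)) (hmp : ∀ γ, MeasurePreserving (act γ) μ μ)
    {h₀ : X → ℝ} (hm : Measurable h₀) (hp : ∀ w, 0 < h₀ w) (hs : ∀ w, Summable fun γ => h₀ (act γ w)) :
    ∃ β, GP μ act β := by
  have Hp : ∀ w, 0 < ∑' γ, h₀ (act γ w) := fun w => (hs w).tsum_pos (fun γ => (hp _).le) 1 (hp _)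
  have Hi : ∀ δ w, ∑' γ, h₀ (act γ (act δ w)) = ∑' γ, h₀ (act γ w) := fun δ w => by
    simp only [← hmul]
    exact (Equiv.mulRight δ).tsum_eq fun γ => h₀ (act γ w)
  refine ⟨fun w => h₀ w / ∑' γ, h₀ (act γ w), h1, hmul, hmp,
    hm.div (Measurable.tsum fun γ => hm.comp (hmp γ).measurable),
    fun w => (div_pos (hp w) (Hp w)).le, fun w => ?_⟩
  have := (hs w).hasSum.div_const (∑' γ, h₀ (act γ w))
  rw [div_self (Hp w).ne'] at this
  simpa only [Hi] using this

variable {act : Γ → X → X} {β : X → ℝ}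

omit [Countable Γ] in
theorem GP.tsum_ofReal (h : GP μ act β) (w : X) : ∑' γ, ENNReal.ofReal (β (act γ w)) = 1 := by
  rw [← ENNReal.ofReal_tsum_of_nonneg (fun γ => h.nonneg _) (h.sum w).summable, (h.sum w).tsum_eq,
    ENNReal.ofReal_one]

omit [Countable Γ] in
theorem GP.tsum_inv (h : GP μ act β) (w : X) : ∑' γ : Γ, ENNReal.ofReal (β (act γ⁻¹ w)) = 1 :=
  ((Equiv.inv Γ).tsum_eq fun γ => ENNReal.ofReal (β (act γ w))).trans (h.tsum_ofReal w)

/-- unfolding of nonnegative functions -/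
theorem GP.lintegral (h : GP μ act β) {u : X → ℝ≥0∞} (hu : AEMeasurable u μ) :
    ∫⁻ w, ENNReal.ofReal (β w) * ∑' γ, u (act γ w) ∂μ = ∫⁻ w, u w ∂μ := by
  have hb : Measurable fun w => ENNReal.ofReal (β w) := h.meas.ennreal_ofReal
  have hua : ∀ γ, AEMeasurable (fun w => u (act γ w)) μ := fun γ =>
    hu.comp_quasiMeasurePreserving (h.mp γ).quasiMeasurePreserving
  simp only [← ENNReal.tsum_mul_left]
  rw [lintegral_tsum fun γ => hb.aemeasurable.fun_mul (hua γ)]
  have e : ∀ γ, ∫⁻ w, ENNReal.ofReal (β w) * u (act γ w) ∂μ =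
      ∫⁻ w, ENNReal.ofReal (β (act γ⁻¹ w)) * u w ∂μ := fun γ => by
    have hf : AEMeasurable (fun w => ENNReal.ofReal (β (act γ⁻¹ w)) * u w) (μ.map (act γ)) := by
      rw [(h.mp γ).map_eq]
      exact (hb.comp (h.mp γ⁻¹).measurable).aemeasurable.mul hu
    conv_rhs => rw [← (h.mp γ).map_eq, lintegral_map' hf (h.mp γ).measurable.aemeasurable]
    simp only [← h.mul, inv_mul_cancel, h.one]
  simp only [e]
  have hf : ∀ γ : Γ, AEMeasurable (fun w => ENNReal.ofReal (β (act γ⁻¹ w)) * u w) μ := fun γ =>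
    (hb.comp (h.mp γ⁻¹).measurable).aemeasurable.mul hu
  rw [← lintegral_tsum hf]
  refine lintegral_congr fun w => ?_
  rw [ENNReal.tsum_mul_right, h.tsum_inv, one_mul]

/-- unfolding of integrable functions -/
theorem GP.integral (h : GP μ act β) {u : X → ℂ} (hu : Integrable u μ) :
    Integrable (fun w => (β w : ℂ) * ∑' γ, u (act γ w)) μ ∧
      ∫ w, (β w : ℂ) * ∑' γ, u (act γ w) ∂μ = ∫ w, u w ∂μ := by
  have hb : Measurable fun w => (β w : ℂ) := Complex.measurable_ofReal.comp h.meas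
  have hua : ∀ γ, AEStronglyMeasurable (fun w => u (act γ w)) μ := fun γ =>
    hu.1.comp_quasiMeasurePreserving (h.mp γ).quasiMeasurePreserving
  have en : ∀ (x : X) (c : ℂ), ‖(β x : ℂ) * c‖ₑ = ENNReal.ofReal (β x) * ‖c‖ₑ := fun x c => by
    rw [enorm_mul, ← ofReal_norm (β x : ℂ), Complex.norm_real, Real.norm_of_nonneg (h.nonneg x)]
  have gm : ∀ γ, AEStronglyMeasurable (fun w => (β w : ℂ) * u (act γ w)) μ := fun γ =>
    hb.aestronglyMeasurable.mul (hua γ)
  have gl : ∑' γ, ∫⁻ w, ‖(β w : ℂ) * u (act γ w)‖ₑ ∂μ ≠ ⊤ := by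
    rw [← lintegral_tsum fun γ => (gm γ).enorm]
    simp only [en, ENNReal.tsum_mul_left]
    rw [h.lintegral hu.1.enorm]
    exact hu.2.ne
  have fm : ∀ γ, AEStronglyMeasurable (fun w => (β (act γ⁻¹ w) : ℂ) * u w) μ := fun γ =>
    (hb.comp (h.mp γ⁻¹).measurable).aestronglyMeasurable.mul hu.1
  have fl : ∑' γ, ∫⁻ w, ‖(β (act γ⁻¹ w) : ℂ) * u w‖ₑ ∂μ ≠ ⊤ := by
    rw [← lintegral_tsum fun γ => (fm γ).enorm]
    simp only [en, ENNReal.tsum_mul_right, h.tsum_inv, one_mul]
    exact hu.2.ne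
  have e : ∀ γ, ∫ w, (β w : ℂ) * u (act γ w) ∂μ = ∫ w, (β (act γ⁻¹ w) : ℂ) * u w ∂μ := fun γ => by
    have hf : AEStronglyMeasurable (fun w => (β (act γ⁻¹ w) : ℂ) * u w) (μ.map (act γ)) := by
      rw [(h.mp γ).map_eq]
      exact fm γ
    conv_rhs => rw [← (h.mp γ).map_eq, integral_map (h.mp γ).measurable.aemeasurable hf]
    simp only [← h.mul, inv_mul_cancel, h.one]
  simp only [← tsum_mul_left]
  refine ⟨⟨(AEMeasurable.tsum fun γ => (gm γ).aemeasurable).aestronglyMeasurable, ?_⟩, ?_⟩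
  · refine lt_of_le_of_lt (lintegral_mono fun w => enorm_tsum_le_tsum_enorm) ?_
    rw [lintegral_tsum fun γ => (gm γ).enorm]
    exact gl.lt_top
  · rw [integral_tsum gm gl]
    simp only [e]
    rw [← integral_tsum fm fl]
    refine integral_congr_ae (Eventually.of_forall fun w => ?_)
    have e1 : HasSum (fun γ : Γ => β (act γ⁻¹ w)) 1 := (Equiv.inv Γ).hasSum_iff.2 (h.sum w)
    have := (Complex.hasSum_ofReal.2 e1).mul_right (u w)
    simpa only [Complex.ofReal_one, one_mul] using this.tsum_eq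

/-- local control of an invariant function: `K` meets every orbit at most `C` times -/
theorem GP.local (h : GP μ act β) {K : Set X} (hK : MeasurableSet K) {C : ℝ≥0∞}
    (hC : ∀ w, ∑' γ, K.indicator (fun _ => (1 : ℝ≥0∞)) (act γ w) ≤ C) {N : X → ℝ≥0∞}
    (hN : AEMeasurable N μ) (hi : ∀ γ w, N (act γ w) = N w) :
    ∫⁻ w in K, N w ∂μ ≤ C * ∫⁻ w, ENNReal.ofReal (β w) * N w ∂μ := by
  rw [← lintegral_indicator hK, ← h.lintegral (hN.indicator hK),
    ← lintegral_const_mul'' _ (h.meas.ennreal_ofReal.aemeasurable.fun_mul hN)]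
  refine lintegral_mono fun w => ?_
  have e : ∀ γ, K.indicator N (act γ w) = K.indicator (fun _ => (1 : ℝ≥0∞)) (act γ w) * N w := fun γ => by
    by_cases hw : act γ w ∈ K <;> simp [hw, hi]
  simp only [e]
  rw [ENNReal.tsum_mul_right, mul_left_comm]
  gcongr
  exact hC w

end

end Crest.Agent.R27.TH
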