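import Crest.Agent.R27.TH.EmbB
import Crest.Agent.R27.TH.Unf
import Crest.Agent.R27.Ku.Unit

/-! Row 27, block THETA / EMB (owner helper94): units and partitions of unity. -/

set_option autoImplicit false

namespace Crest.Agent.R27.TH

open Crest.NumberTheoryR.EisensteinField Crest.Agent.R27.G NumberField Finset MeasureTheory
open scoped ComplexConjugate Classical Real ENNReal

variable {F : Type} [Field F] [NumberField F] [Algebra K3 F]

/-- the logarithm of a unit -/
noncomputable abbrev lu (u : (𝓞 F)ˣ) : Pl F → ℝ := lg ((u : 𝓞 F) : F)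

omit [Algebra K3 F] [NumberField F] in
theorem unit_ne (u : (𝓞 F)ˣ) : ((u : 𝓞 F) : F) ≠ 0 := by exact_mod_cast u.ne_zero

theorem lu_mul (u u' : (𝓞 F)ˣ) : lu (u * u') = lu u + lu u' := by
  rw [← lg_mul (unit_ne u) (unit_ne u')]
  simp [lu]

@[simp] theorem lu_one : lu (1 : (𝓞 F)ˣ) = 0 := by simp [lu]

theorem lu_inv (u : (𝓞 F)ˣ) : lu u⁻¹ = -lu u := by
  rw [eq_neg_iff_add_eq_zero, ← lu_mul, inv_mul_cancel, lu_one]

/-- `lu` as a homomorphism -/
noncomputable def luH : Additive (𝓞 F)ˣ →+ (Pl F → ℝ) where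
  toFun u := lu u.toMul
  map_zero' := lu_one
  map_add' _ _ := lu_mul _ _

theorem lu_prod_zpow {κ : Type} [Fintype κ] (e : κ → (𝓞 F)ˣ) (k : κ → ℤ) :
    lu (∏ j, e j ^ k j) = ∑ j, (k j : ℝ) • lu (e j) := by
  have := map_sum (luH (F := F)) (fun j => k j • Additive.ofMul (e j)) univ
  simp only [map_zsmul] at this
  simp only [← ofMul_zpow, ← ofMul_prod] at this
  simp only [Int.cast_smul_eq_zsmul]
  exact this

instance : Countable (𝓞 F)ˣ :=
  Function.Injective.countable (f := fun u : (𝓞 F)ˣ => ((u : 𝓞 F) : F)) fun _ _ h =>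
    Units.ext (RingOfIntegers.coe_injective h)

/-- balanced vectors -/
def Bal (B : ℝ) (l : Pl F → ℝ) : Prop := ∀ i j, |l i - l j| ≤ B

theorem Bal.le_mean {B : ℝ} {l : Pl F → ℝ} (h : Bal B l) (i : Pl F) :
    |l i - (∑ j, l j) / Fintype.card (Pl F)| ≤ B := by
  have hr : (0 : ℝ) < Fintype.card (Pl F) := by exact_mod_cast card_Pl_pos
  have e : l i - (∑ j, l j) / Fintype.card (Pl F) = (∑ j, (l i - l j)) / Fintype.card (Pl F) := by
    rw [sum_sub_distrib, sum_const, card_univ, nsmul_eq_mul]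
    field_simp
  rw [e, abs_div, abs_of_pos hr, div_le_iff₀ hr]
  refine (abs_sum_le_sum_abs _ _).trans ((sum_le_sum fun j _ => h i j).trans_eq ?_)
  simp [mul_comm]

theorem finite_bal (B : ℝ) : {u : (𝓞 F)ˣ | Bal B (lu u)}.Finite := by
  refine Set.Finite.of_finite_image (f := fun u : (𝓞 F)ˣ => ((u : 𝓞 F) : F))
    ((finite_InL (F := F) one_pos (Real.exp B)).subset ?_)
    fun _ _ _ _ h => Units.ext (RingOfIntegers.coe_injective h)
  rintro _ ⟨u, hu, rfl⟩
  refine ⟨⟨u, by simp⟩, fun i => ?_⟩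
  have := hu.le_mean i
  rw [sum_lg_unit, zero_div, sub_zero] at this
  rw [← exp_lg (unit_ne u)]
  exact Real.exp_le_exp.2 (abs_le.1 this).2

theorem finite_bal' (B : ℝ) (l : Pl F → ℝ) : {u : (𝓞 F)ˣ | Bal B (l + lu u)}.Finite :=
  (finite_bal (B + 2 * ‖l‖)).subset fun u hu i j => by
    have h1 := abs_le.1 (hu i j)
    have h2 := abs_le.1 (norm_le_pi_norm l i)
    have h3 := abs_le.1 (norm_le_pi_norm l j)
    simp only [Pi.add_apply] at h1
    exact abs_le.2 ⟨by linarith, by linarith⟩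

/-- Dirichlet: every vector can be balanced by a unit of `V` -/
theorem exists_bal (V : Subgroup (𝓞 F)ˣ) [V.FiniteIndex] :
    ∃ B : ℝ, ∀ l : Pl F → ℝ, ∃ u ∈ V, Bal B (l + lu u) := by
  have hN : (0 : ℝ) < V.index := by exact_mod_cast Nat.pos_of_ne_zero V.index_ne_zero_of_finite
  refine ⟨2 * ∑ j, V.index * ‖lu (Units.fundSystem F j)‖, fun l => ?_⟩
  obtain ⟨⟨τ, c⟩, hp⟩ := (Ku.logT_bij F).2 fun w => l ((placeEquiv F).symm w)
  have hl : ∀ i, l i = τ + ∑ j, c j * lu (Units.fundSystem F j) i := fun i => by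
    have := congrFun hp (placeEquiv F i)
    rw [Equiv.symm_apply_apply] at this
    exact this.symm
  refine ⟨∏ j, Units.fundSystem F j ^ (-(V.index * ⌊c j / V.index⌋)), prod_mem fun j _ => ?_, ?_⟩
  · rw [zpow_neg, zpow_mul, zpow_natCast]
    exact inv_mem (zpow_mem (V.pow_index_mem _) _)
  · have key : ∀ i, |(l + lu (∏ j, Units.fundSystem F j ^ (-(V.index * ⌊c j / V.index⌋)))) i - τ| ≤
        ∑ j, V.index * ‖lu (Units.fundSystem F j)‖ := fun i => by
      rw [lu_prod_zpow, Pi.add_apply, hl, Finset.sum_apply, add_assoc, add_sub_cancel_left, ← sum_add_distrib]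
      refine (abs_sum_le_sum_abs _ _).trans (sum_le_sum fun j _ => ?_)
      rw [Pi.smul_apply, smul_eq_mul, ← add_mul, abs_mul]
      refine mul_le_mul ?_ (norm_le_pi_norm (lu (Units.fundSystem F j)) i) (abs_nonneg _) hN.le
      have h1 := Int.floor_le (c j / V.index)
      have h2 := Int.lt_floor_add_one (c j / V.index)
      rw [le_div_iff₀ hN] at h1
      rw [div_lt_iff₀ hN] at h2
      push_cast
      exact abs_le.2 ⟨by nlinarith, by nlinarith⟩
    intro i j
    have h1 := abs_le.1 (key i)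
    have h2 := abs_le.1 (key j)
    exact abs_le.2 ⟨by linarith, by linarith⟩

theorem measurableSet_bal (B : ℝ) : MeasurableSet {l : Pl F → ℝ | Bal B l} := by
  unfold Bal
  measurability

theorem exists_pou (V : Subgroup (𝓞 F)ˣ) [V.FiniteIndex] : ∃ η : (Pl F → ℝ) → ℝ, Pou V η := by
  obtain ⟨B, hB⟩ := exists_bal V
  let h : (Pl F → ℝ) → ℝ := fun l => if Bal B l then 1 else 0
  have h0 : ∀ l, 0 ≤ h l := fun l => by
    simp only [h]
    split_ifs <;> norm_num
  have hm : Measurable h := Measurable.ite (measurableSet_bal B) measurable_const measurable_const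
  have hs : ∀ l, Summable fun u : V => h (l + lu u) := fun l =>
    summable_of_hasFiniteSupport (((finite_bal' B l).preimage Subtype.val_injective.injOn).subset
      fun u hu => by_contra fun hc => hu (if_neg hc))
  let H : (Pl F → ℝ) → ℝ := fun l => ∑' u : V, h (l + lu u)
  have hH : ∀ l (u : V), h (l + lu u) ≤ H l := fun l u => (hs l).le_tsum u fun _ _ => h0 _
  have hH1 : ∀ l, 1 ≤ H l := fun l => by
    obtain ⟨u, hu, hb⟩ := hB l
    exact (if_pos hb).symm.le.trans (hH l ⟨u, hu⟩)
  have hinv : ∀ l (u : V), H (l + lu u) = H l := fun l u => by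
    refine Eq.trans ?_ ((Equiv.mulLeft u).tsum_eq fun u' : V => h (l + lu (u' : (𝓞 F)ˣ)))
    simp only [H, Equiv.coe_mulLeft, Subgroup.coe_mul, lu_mul, add_assoc]
  have hd : ∀ l (t : ℝ), h (l + fun _ => t) = h l := fun l t => by
    refine if_congr ?_ rfl rfl
    simp only [Bal, Pi.add_apply, add_sub_add_right_eq_sub]
  refine ⟨fun l => h l / H l, hm.div ?_, fun l => div_nonneg (h0 l) (zero_le_one.trans (hH1 l)), fun l => ?_,
    fun l t => ?_, ⟨B, fun l hl => ?_⟩, fun l => ?_⟩
  · exact Measurable.tsum fun u => hm.comp (measurable_add_const _)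
  · refine div_le_one_of_le₀ (le_trans ?_ (hH1 l)) (zero_le_one.trans (hH1 l))
    simp only [h]
    split_ifs <;> norm_num
  · simp only [H, add_right_comm l _ (lu _), hd]
  · exact by_contra fun hc => hl (by simp only [h]; rw [if_neg (show ¬ Bal B l from hc), zero_div])
  · have := (hs l).hasSum.div_const (H l)
    rw [div_self (zero_lt_one.trans_le (hH1 l)).ne'] at this
    simpa only [hinv] using this

omit [Algebra K3 F] in
theorem finiteIndex_ker {q : 𝓞 F} (hq : q ≠ 0) :
    (Units.map (Ideal.Quotient.mk (Ideal.span {q})).toMonoidHom).ker.FiniteIndex := by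
  have : Finite (𝓞 F ⧸ Ideal.span {q}) := Ideal.finiteQuotientOfFreeOfNeBot _ (by simpa using hq)
  exact Subgroup.finiteIndex_ker _

instance (v : Lv F) (k : ℕ) : (VK v k).FiniteIndex :=
  finiteIndex_ker (pow_ne_zero _ (by exact_mod_cast v.pos.ne'))

variable {V : Subgroup (𝓞 F)ˣ} {η : (Pl F → ℝ) → ℝ}

/-- a partition of unity in the sense of `GP` -/
theorem Pou.gp (h : Pou V η) : GP volume (fun (u : V) (l : Pl F → ℝ) => l + lu u) η where
  one w := by simp
  mul γ δ w := by simp only [Subgroup.coe_mul, lu_mul, add_assoc, add_comm (lu (γ : (𝓞 F)ˣ))]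
  mp γ := measurePreserving_add_right _ _
  meas := h.meas
  nonneg := h.nonneg
  sum := h.sum

theorem Pou.shift (h : Pou V η) (a : Pl F → ℝ) : Pou V fun l => η (l + a) where
  meas := h.meas.comp (measurable_add_const a)
  nonneg l := h.nonneg _
  le_one l := h.le_one _
  diag l t := by rw [add_right_comm, h.diag]
  bal := by
    obtain ⟨B, hB⟩ := h.bal
    refine ⟨B + 2 * ‖a‖, fun l hl i j => ?_⟩
    have h1 := abs_le.1 (hB _ hl i j)
    have h2 := abs_le.1 (norm_le_pi_norm a i)
    have h3 := abs_le.1 (norm_le_pi_norm a j)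
    simp only [Pi.add_apply] at h1
    exact abs_le.2 ⟨by linarith, by linarith⟩
  sum l := by simpa only [add_right_comm l _ a] using h.sum (l + a)

theorem Pou.neg (h : Pou V η) : Pou V fun l => η (-l) where
  meas := h.meas.comp measurable_neg
  nonneg l := h.nonneg _
  le_one l := h.le_one _
  diag l t := by
    rw [neg_add, ← h.diag (-l) (-t)]
    rfl
  bal := by
    obtain ⟨B, hB⟩ := h.bal
    exact ⟨B, fun l hl i j => by simpa [abs_sub_comm, add_comm, sub_eq_add_neg] using hB _ hl j i⟩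
  sum l := by
    have := (Equiv.inv V).hasSum_iff.2 (h.sum (-l))
    refine this.congr_fun fun u => ?_
    simp only [Function.comp, Equiv.inv_apply, Subgroup.coe_inv, neg_add]
    exact congrArg (fun x => η (-l + x)) (lu_inv _).symm

/-- the integral of an invariant function does not depend on the partition of unity -/
theorem Pou.indep (h : Pou V η) {η' : (Pl F → ℝ) → ℝ} (h' : Pou V η') {φ : (Pl F → ℝ) → ℂ}
    (hφ : ∀ u ∈ V, ∀ l, φ (l + lu u) = φ l) (hi : Integrable fun l => (η' l : ℂ) * φ l) :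
    Integrable (fun l => (η l : ℂ) * φ l) ∧ ∫ l, (η l : ℂ) * φ l = ∫ l, (η' l : ℂ) * φ l := by
  have e : ∀ l, ∑' u : V, (η' (l + lu u) : ℂ) * φ (l + lu u) = φ l := fun l => by
    simp only [fun u : V => hφ u u.2 l]
    rw [tsum_mul_right, ← Complex.ofReal_tsum, (h'.sum l).tsum_eq]
    simp
  simpa only [e] using h.gp.integral hi

end Crest.Agent.R27.TH
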