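import Crest.Agent.R27.TH.Defs
import Crest.Agent.R27.A.All

/-!
Row 27, block THETA (helper6): the API of `LK`, `UK`, `DK`, `VK`, `cbF`, `hil`, `ns`.
-/

set_option autoImplicit false

namespace Crest.Agent.R27.TH

open Crest.NumberTheoryR.EisensteinField Crest.Agent.R27.G
open scoped NumberField ComplexConjugate Classical

variable {F : Type} [Field F] [NumberField F] [Algebra K3 F] {v : Lv F} {j k : ℕ} {x y l : F}

/-! ### `LK` -/

theorem M_mem_L (v : Lv F) : (v.M : F) ∈ v.L := natCast_mem _ _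

theorem M_mem_R (v : Lv F) : (v.M : F) ∈ v.R := natCast_mem _ _

theorem LK_iff : LK v k x ↔ x / (v.M : F) ^ k ∈ v.L := by
  have h := pow_ne_zero k v.M_ne
  constructor
  · rintro ⟨l, hl, rfl⟩
    rwa [mul_div_cancel_left₀ _ h]
  · intro hx
    exact ⟨_, hx, by field_simp⟩

theorem LK_zero_level : LK v 0 x ↔ x ∈ v.L := by simp [LK_iff]

theorem LK.zero : LK v k 0 := ⟨0, zero_mem _, by simp⟩

theorem LK.add (hx : LK v k x) (hy : LK v k y) : LK v k (x + y) := by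
  obtain ⟨a, ha, rfl⟩ := hx
  obtain ⟨b, hb, rfl⟩ := hy
  exact ⟨a + b, add_mem ha hb, by ring⟩

theorem LK.neg (hx : LK v k x) : LK v k (-x) := by
  obtain ⟨a, ha, rfl⟩ := hx
  exact ⟨-a, neg_mem ha, by ring⟩

theorem LK.sub (hx : LK v k x) (hy : LK v k y) : LK v k (x - y) := by
  rw [sub_eq_add_neg]; exact hx.add hy.neg

theorem LK.mul_L (hx : LK v k x) (hl : l ∈ v.L) : LK v k (x * l) := by
  obtain ⟨a, ha, rfl⟩ := hx
  exact ⟨a * l, mul_mem ha hl, by ring⟩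

theorem LK.L_mul (hx : LK v k x) (hl : l ∈ v.L) : LK v k (l * x) := mul_comm x l ▸ hx.mul_L hl

theorem LK.mul (hx : LK v j x) (hy : LK v k y) : LK v (j + k) (x * y) := by
  obtain ⟨a, ha, rfl⟩ := hx
  obtain ⟨b, hb, rfl⟩ := hy
  exact ⟨a * b, mul_mem ha hb, by ring⟩

theorem LK_pow (v : Lv F) (k : ℕ) : LK v k ((v.M : F) ^ k) := ⟨1, one_mem _, by simp⟩

theorem LK.mono (h : j ≤ k) (hx : LK v k x) : LK v j x := by
  obtain ⟨a, ha, rfl⟩ := hx
  obtain ⟨i, rfl⟩ := Nat.exists_eq_add_of_le h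
  exact ⟨(v.M : F) ^ i * a, mul_mem (pow_mem (M_mem_L v) i) ha, by ring⟩

theorem LK.mem_L (hx : LK v k x) : x ∈ v.L := LK_zero_level.1 (hx.mono k.zero_le)

theorem LK_coe {a : 𝓞 F} (h : (v.M : 𝓞 F) ^ k ∣ a) : LK v k (a : F) := by
  obtain ⟨b, rfl⟩ := h
  exact ⟨b, v.coe_mem_L b, by push_cast; rfl⟩

theorem LK.inter (hx : LK v k x) (hR : x ∈ v.R) : ∃ a : 𝓞 F, x = (v.M : F) ^ k * a := by
  obtain ⟨l, hl, rfl⟩ := hx
  have h1 : l ∈ v.R := by
    have := mul_mem (pow_mem v.inv_M_mem k) hR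
    rwa [← mul_assoc, ← mul_pow, inv_mul_cancel₀ v.M_ne, one_pow, one_mul] at this
  obtain ⟨a, rfl⟩ := v.inter h1 hl
  exact ⟨a, rfl⟩

theorem LK_coe_iff {a : 𝓞 F} : LK v k (a : F) ↔ (v.M : 𝓞 F) ^ k ∣ a := by
  refine ⟨fun h => ?_, LK_coe⟩
  obtain ⟨b, hb⟩ := h.inter (v.coe_mem_R a)
  exact ⟨b, NumberField.RingOfIntegers.ext (by push_cast; exact hb)⟩

/-! ### `DK` -/

theorem DK_of_L (hx : x ∈ v.L) : DK v k x := mul_mem (pow_mem (M_mem_L v) k) hx

theorem DK.zero : DK v k 0 := DK_of_L (zero_mem _)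

theorem DK.add (hx : DK v k x) (hy : DK v k y) : DK v k (x + y) := by
  unfold DK at *
  rw [mul_add]; exact add_mem hx hy

theorem DK.neg (hx : DK v k x) : DK v k (-x) := by
  unfold DK at *
  rw [mul_neg]; exact neg_mem hx

theorem DK.sub (hx : DK v k x) (hy : DK v k y) : DK v k (x - y) := by
  rw [sub_eq_add_neg]; exact hx.add hy.neg

theorem DK.mul (hx : DK v j x) (hy : DK v k y) : DK v (j + k) (x * y) := by
  unfold DK at *
  rw [show (v.M : F) ^ (j + k) * (x * y) = ((v.M : F) ^ j * x) * ((v.M : F) ^ k * y) by ring]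
  exact mul_mem hx hy

theorem DK.mul_L (hx : DK v k x) (hl : l ∈ v.L) : DK v k (x * l) := hx.mul (j := k) (k := 0) (DK_of_L hl)

theorem DK.L_mul (hx : DK v k x) (hl : l ∈ v.L) : DK v k (l * x) := mul_comm x l ▸ hx.mul_L hl

theorem DK.mono (h : j ≤ k) (hx : DK v j x) : DK v k x := by
  obtain ⟨i, rfl⟩ := Nat.exists_eq_add_of_le h
  simpa using hx.mul (DK_of_L (k := i) (one_mem _))

/-- `M^(j+k) L · M^(-j) L ⊆ M^k L` -/
theorem LK.mul_DK (hx : LK v (j + k) x) (hy : DK v j y) : LK v k (x * y) := by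
  obtain ⟨a, ha, rfl⟩ := hx
  exact ⟨a * ((v.M : F) ^ j * y), mul_mem ha hy, by ring⟩

theorem LK.DK_mul (hx : LK v (j + k) x) (hy : DK v j y) : LK v k (y * x) := mul_comm x y ▸ hx.mul_DK hy

theorem exists_DK (v : Lv F) (x : F) : ∃ k, DK v k x := by
  obtain ⟨m, a, hm, ha⟩ := Lv.exists_nat_mul x
  obtain ⟨m₁, t, k, rfl, ⟨e, he⟩, ht⟩ := v.nat_split hm
  refine ⟨k, t, e * a, ht, ?_⟩
  have he' : (v.M : F) ^ k = m₁ * e := by exact_mod_cast he
  rw [he']
  push_cast at ha ⊢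
  linear_combination (e : F) * ha

/-- a finite set of elements has a common denominator -/
theorem exists_DK_finset (v : Lv F) (S : Finset F) : ∃ k, ∀ x ∈ S, DK v k x := by
  choose f hf using exists_DK v
  exact ⟨S.sup f, fun x hx => (hf x).mono (Finset.le_sup hx)⟩

theorem DK.inter (hx : DK v k x) (hR : x ∈ v.R) : ∃ a : 𝓞 F, (v.M : F) ^ k * x = a :=
  v.inter (mul_mem (pow_mem (M_mem_R v) k) hR) hx

theorem DK.inL (hx : DK v k x) (hR : x ∈ v.R) : InL (v.M ^ k) x := by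
  obtain ⟨a, ha⟩ := hx.inter hR
  exact ⟨a, by push_cast; exact ha⟩

/-! ### `UK` -/

theorem UK_one_iff : UK v 1 x ↔ v.U x :=
  ⟨fun ⟨l, hl, h⟩ => ⟨l, hl, by linear_combination h⟩, fun ⟨l, hl, h⟩ => ⟨l, hl, by linear_combination h⟩⟩

theorem UK.mono (h : j ≤ k) (hx : UK v k x) : UK v j x := LK.mono h hx

theorem UK.U (hk : 1 ≤ k) (hx : UK v k x) : v.U x := UK_one_iff.1 (hx.mono hk)

theorem UK.mem_L (hx : UK v k x) : x ∈ v.L := by
  simpa using add_mem (LK.mem_L hx) (one_mem v.L)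

theorem UK.ne_zero (hk : 1 ≤ k) (hx : UK v k x) : x ≠ 0 := v.U_ne_zero (hx.U hk)

theorem UK.inv_mem_L (hk : 1 ≤ k) (hx : UK v k x) : x⁻¹ ∈ v.L := v.U_mem_L (v.U_inv (hx.U hk))

theorem UK_one : UK v k 1 := by
  unfold UK
  rw [sub_self]; exact LK.zero

theorem UK.add_LK (hx : UK v k x) (hy : LK v k y) : UK v k (x + y) := by
  unfold UK
  rw [show x + y - 1 = x - 1 + y by ring]; exact LK.add hx hy

theorem UK.mul (hx : UK v k x) (hy : UK v k y) : UK v k (x * y) := by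
  unfold UK
  rw [show x * y - 1 = (x - 1) * y + (y - 1) by ring]
  exact (LK.mul_L hx hy.mem_L).add hy

theorem UK.inv (hk : 1 ≤ k) (hx : UK v k x) : UK v k x⁻¹ := by
  unfold UK
  rw [show x⁻¹ - 1 = -((x - 1) * x⁻¹) by field_simp [hx.ne_zero hk]; ring]
  exact (LK.mul_L hx (hx.inv_mem_L hk)).neg

theorem UK.div (hk : 1 ≤ k) (hx : UK v k x) (hy : UK v k y) : UK v k (x / y) := by
  rw [div_eq_mul_inv]; exact hx.mul (hy.inv hk)

theorem UK.pow (hx : UK v k x) (n : ℕ) : UK v k (x ^ n) := by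
  induction n with
  | zero => rw [pow_zero]; exact UK_one
  | succ n ih => rw [pow_succ]; exact ih.mul hx

/-- the relation `x / y ∈ 1 + M^k L` is an equivalence on `F ∖ 0` -/
theorem UK.ne_left (hk : 1 ≤ k) (h : UK v k (x / y)) : x ≠ 0 := fun e => h.ne_zero hk (by rw [e, zero_div])

theorem UK.ne_right (hk : 1 ≤ k) (h : UK v k (x / y)) : y ≠ 0 := fun e => h.ne_zero hk (by rw [e, div_zero])

theorem UK_refl (hx : x ≠ 0) : UK v k (x / x) := by rw [div_self hx]; exact UK_one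

theorem UK.symm (hk : 1 ≤ k) (h : UK v k (x / y)) : UK v k (y / x) := inv_div x y ▸ h.inv hk

theorem UK.trans {z : F} (hk : 1 ≤ k) (h : UK v k (x / y)) (h' : UK v k (y / z)) : UK v k (x / z) := by
  have := h.mul h'
  rwa [div_mul_div_cancel₀ (h.ne_right hk)] at this

theorem UK.cl (hk : 1 ≤ k) (h : UK v k (x / y)) : v.cl x = v.cl y :=
  (v.clsa_div (h.ne_right hk) (h.U hk)).2

theorem UK_coe_iff {a : 𝓞 F} : UK v k (a : F) ↔ (v.M : 𝓞 F) ^ k ∣ a - 1 := by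
  rw [← LK_coe_iff, UK]; push_cast; rfl

theorem UK.inter (hx : UK v k x) (hR : x ∈ v.R) : ∃ a : 𝓞 F, x = a ∧ (v.M : 𝓞 F) ^ k ∣ a - 1 := by
  obtain ⟨a, rfl⟩ := v.inter hR hx.mem_L
  exact ⟨a, rfl, UK_coe_iff.1 hx⟩

theorem mem_VK {u : (𝓞 F)ˣ} : u ∈ VK v k ↔ UK v k ((u : 𝓞 F) : F) := by
  rw [UK_coe_iff, VK, MonoidHom.mem_ker, Units.ext_iff, ← Ideal.mem_span_singleton, ← Ideal.Quotient.eq]
  rfl

theorem VK_mono (h : j ≤ k) : VK v k ≤ VK v j := fun _ hu => mem_VK.2 ((mem_VK.1 hu).mono h)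

/-- a unit of `R` in `1 + M^k L` is a unit of `𝓞 F` in `VK` -/
theorem exists_VK (hk : 1 ≤ k) {u : v.R} (hu : IsUnit u) (h : UK v k (u : F)) :
    ∃ w ∈ VK v k, (((w : (𝓞 F)ˣ) : 𝓞 F) : F) = u := by
  obtain ⟨u', hu'⟩ := hu.exists_right_inv
  have e : (u : F) * u' = 1 := congrArg Subtype.val hu'
  obtain ⟨a, ha⟩ := v.inter u.2 h.mem_L
  obtain ⟨b, hb⟩ := v.inter u'.2 (by rw [eq_inv_of_mul_eq_one_right e]; exact h.inv_mem_L hk)
  have hab : a * b = 1 := NumberField.RingOfIntegers.ext (by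
    change (a : F) * b = 1
    rw [← ha, ← hb, e])
  exact ⟨⟨a, b, hab, by rw [mul_comm, hab]⟩, mem_VK.2 (ha ▸ h), ha.symm⟩

/-! ### Approximation -/

/-- additive approximation: a class modulo `b R` meets `x + M^k L` -/
theorem approxL (k : ℕ) (x : F) {b : v.R} (hb : b ≠ 0) (a₀ : v.R) :
    ∃ a : v.R, b ∣ a - a₀ ∧ LK v k (a - x) := by
  obtain ⟨r, hr, l, hl, h⟩ := v.decomp' (v.clsd_ne hb) (pow_ne_zero k v.M_ne) (x - a₀)
  refine ⟨a₀ + b * ⟨r, hr⟩, ⟨⟨r, hr⟩, by ring⟩, -l, neg_mem hl, ?_⟩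
  push_cast
  linear_combination -h

/-- multiplicative approximation -/
theorem approxK (k : ℕ) (hx : x ≠ 0) {b : v.R} (hb : b ≠ 0) (a₀ : v.R) :
    ∃ a : v.R, b ∣ a - a₀ ∧ UK v k (a / x) := by
  obtain ⟨j, hj⟩ := exists_DK v x⁻¹
  obtain ⟨a, ha, h⟩ := approxL (j + k) x hb a₀
  refine ⟨a, ha, ?_⟩
  unfold UK
  rw [show (a : F) / x - 1 = (a - x) * x⁻¹ by field_simp]
  exact h.mul_DK hj

/-- every nonzero element of `R` is associated with an integer `b` such that `M / b ∈ L` -/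
theorem exists_red {a : v.R} (ha : a ≠ 0) :
    ∃ b : 𝓞 F, Associated a (v.up b) ∧ b ≠ 0 ∧ DK v 1 (b : F)⁻¹ := by
  obtain ⟨J, b, hJ, hb⟩ := v.gen _ (v.idl_ne_bot ha)
  have hidl : v.idl (v.up b) = v.idl a := v.idl_up_of_mul (m := 1) hb.symm (v.cp_idl ha) (by simpa using hJ)
  have hass := (v.idl_eq_iff.1 hidl).symm
  have hb0 : b ≠ 0 := by
    rintro rfl
    exact ha (by simpa using hass)
  refine ⟨b, hass, hb0, ?_⟩
  obtain ⟨w, hw⟩ := cp_iff.1 (v.cp_idl ha)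
  obtain ⟨y, hy⟩ : b ∣ (1 - (v.M : 𝓞 F) * w) * v.M := by
    rw [← Ideal.mem_span_singleton, ← hb]
    exact Ideal.mul_mem_mul (by simpa using (v.idl a).neg_mem hw) hJ
  have hc : IsCoprime (1 - (v.M : 𝓞 F) * w) (v.M : 𝓞 F) := ⟨1, w, by ring⟩
  have h0 := v.loca_ne_zero' hc
  have hb1 : (b : F) ≠ 0 := fun e => hb0 (NumberField.RingOfIntegers.ext e)
  have hy' : (((1 - (v.M : 𝓞 F) * w : 𝓞 F) : F)) * v.M = b * y := by
    have := congrArg (fun z : 𝓞 F => (z : F)) hy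
    simpa using this
  have e : (v.M : F) ^ 1 * (b : F)⁻¹ = y * ((1 - (v.M : 𝓞 F) * w : 𝓞 F) : F)⁻¹ := by
    field_simp
    linear_combination hy'
  unfold DK
  rw [e]
  exact mul_mem (v.coe_mem_L y) (v.inv_mem_L hc)

/-- `Fˣ / (Rˣ (1 + M^k L))` is finite; the representatives are integers `s` with `M / s ∈ L` -/
theorem fin_classes (v : Lv F) (hk : 1 ≤ k) : ∃ S : Finset (𝓞 F), (∀ s ∈ S, s ≠ 0 ∧ DK v 1 (s : F)⁻¹) ∧
    ∀ x : F, x ≠ 0 → ∃ s ∈ S, ∃ u : v.R, IsUnit u ∧ UK v k (x / (u * s)) := by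
  let I : Ideal (𝓞 F) := Ideal.span {(v.M : 𝓞 F) ^ (1 + k)}
  have hI : I ≠ ⊥ := by
    rw [Ne, Ideal.span_singleton_eq_bot]; exact pow_ne_zero _ v.M_ne'
  have : Fintype (𝓞 F ⧸ I) := @Fintype.ofFinite _ (Ring.HasFiniteQuotients.finiteQuotient hI)
  let P : 𝓞 F ⧸ I → 𝓞 F → Prop := fun t s => (s ≠ 0 ∧ DK v 1 (s : F)⁻¹) ∧ Ideal.Quotient.mk I s = t
  let f : 𝓞 F ⧸ I → 𝓞 F := fun t => if h : ∃ s, P t s then h.choose else 1
  refine ⟨Finset.univ.image f, fun s hs => ?_, fun x hx => ?_⟩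
  · obtain ⟨t, -, rfl⟩ := Finset.mem_image.1 hs
    by_cases h : ∃ s, P t s
    · simp only [f, dif_pos h]; exact h.choose_spec.1
    · simp only [f, dif_neg h]; exact ⟨one_ne_zero, DK_of_L (by simp)⟩
  · obtain ⟨a, -, ha⟩ := approxK (v := v) k hx one_ne_zero 0
    have ha0 : a ≠ 0 := fun e => ha.ne_left hk (by rw [e]; rfl)
    obtain ⟨b, ⟨u, hu⟩, hb0, hb⟩ := exists_red ha0
    have h : ∃ s, P (Ideal.Quotient.mk I b) s := ⟨b, ⟨hb0, hb⟩, rfl⟩
    obtain ⟨⟨hs0, hs⟩, hs'⟩ := h.choose_spec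
    have hf : f (Ideal.Quotient.mk I b) = h.choose := dif_pos h
    refine ⟨_, Finset.mem_image_of_mem f (Finset.mem_univ (Ideal.Quotient.mk I b)), ↑u⁻¹, Units.isUnit _, ?_⟩
    rw [hf]
    set s := h.choose
    have hs1 : (s : F) ≠ 0 := fun e => hs0 (NumberField.RingOfIntegers.ext e)
    have h1 : LK v (1 + k) ((b - s : 𝓞 F) : F) :=
      LK_coe (Ideal.mem_span_singleton.1 (Ideal.Quotient.eq.1 hs'.symm))
    have h2 : UK v k ((b : F) / s) := by
      unfold UK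
      rw [show (b : F) / s - 1 = ((b - s : 𝓞 F) : F) * (s : F)⁻¹ by push_cast; field_simp]
      exact h1.mul_DK hs
    have e1 : (a : F) * (u : v.R) = b := congrArg Subtype.val hu
    have e2 : ((u : v.R) : F) * ((u⁻¹ : v.Rˣ) : v.R) = 1 := congrArg Subtype.val u.mul_inv
    have e3 : (a : F) = ((u⁻¹ : v.Rˣ) : v.R) * b := by linear_combination (((u⁻¹ : v.Rˣ) : v.R) : F) * e1 - a * e2
    have hu0 : (((u⁻¹ : v.Rˣ) : v.R) : F) ≠ 0 := right_ne_zero_of_mul_eq_one e2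
    refine (ha.symm hk).trans hk ?_
    rwa [e3, mul_div_mul_left _ _ hu0]

/-! ### The symbols -/

theorem cbF_coe (a b : v.R) : cbF v a b = v.sx a b ^ 2 := dif_pos ⟨a.2, b.2⟩

theorem cbF_eq_zero (h : ¬ (x ∈ v.R ∧ y ∈ v.R)) : cbF v x y = 0 := dif_neg h

theorem cbF_eq [Md v] (a b : v.R) : cbF v a b = Ab.cb a b := by rw [cbF_coe, Ab.cb, Md.sx_eq]

theorem hil_congr {x' y' : F} (h : v.cl x = v.cl x') (h' : v.cl y = v.cl y') : hil v x y = hil v x' y' := by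
  rw [hil, hil, h, h']

theorem hil_swap (x y : F) : hil v y x = conj (hil v x y) := by
  rw [hil, hil, v.exists_hil.choose_spec.2.1, map_pow]

theorem hil_pow_three (x y : F) : hil v x y ^ 3 = 1 := by
  rw [hil, ← pow_mul]; exact v.exists_hil.choose_spec.2.2.1 _ _

theorem norm_hil (x y : F) : ‖hil v x y‖ = 1 := by
  have := congrArg norm (hil_pow_three (v := v) x y)
  rw [norm_pow, norm_one] at this
  exact (pow_eq_one_iff_of_nonneg (norm_nonneg _) three_ne_zero).1 this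

theorem hil_mul_conj (x y : F) : hil v x y * conj (hil v x y) = 1 := by
  rw [Complex.mul_conj, Complex.normSq_eq_norm_sq, norm_hil]; simp

theorem hil_mul_swap (x y : F) : hil v x y * hil v y x = 1 := by rw [hil_swap x y, hil_mul_conj]

theorem conj_hil (x y : F) : conj (hil v x y) = hil v x y ^ 2 := by
  linear_combination (hil v x y) ^ 2 * hil_mul_conj (v := v) x y - conj (hil v x y) * hil_pow_three (v := v) x y

theorem hil_self (x : F) : hil v x x = 1 := by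
  have h1 := hil_mul_swap (v := v) x x
  linear_combination hil_pow_three (v := v) x x - hil v x x * h1

theorem hil_mul_left {x' : F} (hx : x ≠ 0) (hx' : x' ≠ 0) (y : F) : hil v (x * x') y = hil v x y * hil v x' y := by
  rw [hil, hil, hil, v.cl_mul hx hx', v.exists_hil.choose_spec.1, mul_pow]

theorem hil_mul_right (x : F) {y' : F} (hy : y ≠ 0) (hy' : y' ≠ 0) :
    hil v x (y * y') = hil v x y * hil v x y' := by
  rw [hil_swap, hil_mul_left hy hy', map_mul, ← hil_swap, ← hil_swap]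

@[simp] theorem hil_one_left (y : F) : hil v 1 y = 1 := by
  have h := hil_mul_left (v := v) one_ne_zero one_ne_zero y
  rw [one_mul] at h
  linear_combination hil_pow_three (v := v) 1 y + (hil v 1 y + 1) * h

@[simp] theorem hil_one_right (x : F) : hil v x 1 = 1 := by rw [hil_swap, hil_one_left, map_one]

theorem hil_inv_left (x y : F) : hil v x⁻¹ y = conj (hil v x y) := by
  by_cases hx : x = 0
  · rw [hx, inv_zero, hil_congr (v.clsa_zero.trans v.cl_one.symm) rfl, hil_one_left, map_one]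
  have h := hil_mul_left (v := v) hx (inv_ne_zero hx) y
  rw [mul_inv_cancel₀ hx, hil_one_left] at h
  linear_combination (-conj (hil v x y)) * h - hil v x⁻¹ y * hil_mul_conj (v := v) x y

theorem hil_inv_right (x y : F) : hil v x y⁻¹ = conj (hil v x y) := by
  rw [hil_swap, hil_inv_left, hil_swap x y]; simp

theorem hil_pow_left (hx : x ≠ 0) (y : F) (n : ℕ) : hil v (x ^ n) y = hil v x y ^ n := by
  induction n with
  | zero => simp
  | succ n ih => rw [pow_succ, hil_mul_left (pow_ne_zero n hx) hx, ih, pow_succ]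

theorem hil_pow_right (x : F) (hy : y ≠ 0) (n : ℕ) : hil v x (y ^ n) = hil v x y ^ n := by
  rw [hil_swap, hil_pow_left hy, map_pow, ← hil_swap]

theorem hil_neg_left (x y : F) : hil v (-x) y = hil v x y := by
  by_cases hx : x = 0
  · rw [hx, neg_zero]
  have h : hil v (-1) y = 1 := by
    rw [show (-1 : F) = (-1) ^ 3 by norm_num, hil_pow_left (by norm_num), hil_pow_three]
  rw [← neg_one_mul, hil_mul_left (by norm_num) hx, h, one_mul]

theorem hil_neg_right (x y : F) : hil v x (-y) = hil v x y := by rw [hil_swap, hil_neg_left, ← hil_swap]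

theorem hil_UK_left (hk : 1 ≤ k) {x' : F} (h : UK v k (x / x')) (y : F) : hil v x y = hil v x' y :=
  hil_congr (h.cl hk) rfl

theorem hil_UK_right (hk : 1 ≤ k) (x : F) {y' : F} (h : UK v k (y / y')) : hil v x y = hil v x y' :=
  hil_congr rfl (h.cl hk)

theorem hil_U_left (h : v.U x) (y : F) : hil v x y = 1 := by
  rw [hil_congr ((v.cl_U h).trans v.cl_one.symm) rfl, hil_one_left]

theorem hil_U_right (x : F) (h : v.U y) : hil v x y = 1 := by rw [hil_swap, hil_U_left h, map_one]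

/-- cubic reciprocity -/
theorem cbF_recip (hx : x ≠ 0) (hy : y ≠ 0) : cbF v x y = hil v x y * cbF v y x := by
  by_cases h : x ∈ v.R ∧ y ∈ v.R
  · have := v.exists_hil.choose_spec.2.2.2 ⟨x, h.1⟩ ⟨y, h.2⟩ (fun e => hx (congrArg Subtype.val e))
      (fun e => hy (congrArg Subtype.val e))
    rw [cbF, cbF, dif_pos h, dif_pos h.symm, this, mul_pow, hil]
  · rw [cbF_eq_zero h, cbF_eq_zero fun h' => h h'.symm, mul_zero]

theorem cb_recip' [Md v] {a b : v.R} (ha : a ≠ 0) (hb : b ≠ 0) : Ab.cb a b = hil v a b * Ab.cb b a := by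
  rw [← cbF_eq, ← cbF_eq, cbF_recip (v.clsd_ne ha) (v.clsd_ne hb)]

theorem cb_unit [Md v] {u b : v.R} (hu : IsUnit u) (hb : b ≠ 0) : Ab.cb u b = hil v u b := by
  rw [cb_recip' hu.ne_zero hb, Ab.cb_unit_right _ hu, mul_one]

end Crest.Agent.R27.TH
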