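import Crest.Agent.R27.TH.CntC
import Crest.Agent.R27.TH.CntD
import Crest.Agent.R27.TH.EmbC
import Crest.Agent.R27.TH.Lev
import Crest.Agent.R27.Po.Idl

/-! Row 27, block THETA / CNT (helper79): the constant term of the base weight. -/

set_option autoImplicit false
set_option linter.unusedSectionVars false

namespace Crest.Agent.R27.TH

open Crest.NumberTheoryR.EisensteinField Crest.Agent.R27.G Crest.Agent.R27.Cn Filter Finset IsDedekindDomain
open scoped NumberField Classical Topology nonZeroDivisors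

variable {F : Type} [Field F] [NumberField F] [Algebra K3 F]

theorem Pou.hasSum_all {V : Subgroup (𝓞 F)ˣ} [V.FiniteIndex] {η : (Pl F → ℝ) → ℝ} (h : Pou V η)
    (l : Pl F → ℝ) : HasSum (fun u : (𝓞 F)ˣ => η (l + lu u)) (V.index : ℝ) := by
  let e : ((𝓞 F)ˣ ⧸ V) × V ≃ (𝓞 F)ˣ := Equiv.ofBijective (fun p => p.1.out * p.2) ⟨by
      rintro ⟨q, u⟩ ⟨q', u'⟩ hh
      have h1 : q = q' := by
        have := congrArg (QuotientGroup.mk (s := V)) hh
        simpa [QuotientGroup.mk_mul_of_mem] using this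
      subst h1
      exact Prod.ext rfl (Subtype.ext (mul_left_cancel hh)), fun x => by
      obtain ⟨u, hu⟩ := QuotientGroup.mk_out_eq_mul V x
      exact ⟨(QuotientGroup.mk x, u⁻¹), by simp [hu]⟩⟩
  have h1 : ∀ q : (𝓞 F)ˣ ⧸ V, HasSum (fun u : V => η (l + lu (e (q, u)))) 1 := fun q => by
    have := h.sum (l + lu q.out)
    convert this using 2 with u
    change η (l + lu (q.out * (u : (𝓞 F)ˣ))) = _
    rw [lu_mul, add_assoc]
  have := Fintype.ofFinite ((𝓞 F)ˣ ⧸ V)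
  have h2 : Summable fun p : ((𝓞 F)ˣ ⧸ V) × V => η (l + lu (e p)) :=
    (summable_prod_of_nonneg fun _ => h.nonneg _).2 ⟨fun q => (h1 q).summable, Summable.of_finite⟩
  have h3 := h2.hasSum.prod_fiberwise h1
  rw [← e.hasSum_iff]
  have h4 : (V.index : ℝ) = ∑' p : ((𝓞 F)ˣ ⧸ V) × V, η (l + lu (e p)) := by
    rw [← h3.tsum_eq, tsum_fintype, sum_const, Subgroup.index, Nat.card_eq_fintype_card]
    simp
  rw [h4]
  exact h2.hasSum

theorem cne_fib {A B : Type} [AddCommGroup A] [AddCommGroup B] [Fintype A] [Fintype B] (φ : A →+ B)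
    (hφ : Function.Surjective φ) (g : B → ℂ) :
    (Fintype.card B : ℂ) * ∑ x, g (φ x) = Fintype.card A * ∑ y, g y := by
  have h1 : ∀ y, (univ.filter fun x => φ x = y).card = (univ.filter fun x => φ x = 0).card := fun y =>
    AddMonoidHom.card_fiber_eq_of_mem_range φ (hφ y) (hφ 0)
  have h2 : ∀ g : B → ℂ, ∑ x, g (φ x) = (univ.filter fun x => φ x = 0).card * ∑ y, g y := fun g => by
    rw [← sum_fiberwise univ φ, mul_sum]
    refine sum_congr rfl fun y _ => ?_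
    rw [sum_congr rfl fun x hx => by rw [(mem_filter.1 hx).2], sum_const, h1, nsmul_eq_mul]
  have h3 := h2 fun _ => 1
  simp only [sum_const, card_univ, nsmul_eq_mul, mul_one] at h3
  rw [h2, h3]
  ring

variable (v : Lv F)

/-- the primes over `M` -/
noncomputable def T0 : Finset (HeightOneSpectrum (𝓞 F)) :=
  pf ⟨Ideal.span {(v.M : 𝓞 F)}, mem_nonZeroDivisors_of_ne_zero
    fun h => v.M_ne' (Ideal.span_singleton_eq_bot.1 h)⟩

theorem mem_T0 {P : HeightOneSpectrum (𝓞 F)} : P ∈ T0 v ↔ (v.M : 𝓞 F) ∈ P.asIdeal := by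
  rw [T0, mem_pf, Ideal.dvd_span_singleton]

/-- `idl n` as a nonzero ideal -/
def id0 {n : v.R} (hn : n ≠ 0) : (Ideal (𝓞 F))⁰ := ⟨v.idl n, mem_nonZeroDivisors_of_ne_zero (v.idl_ne_bot hn)⟩

/-- `idl p` as a prime -/
def idP {p : v.R} (hp : Prime p) : HeightOneSpectrum (𝓞 F) :=
  ⟨v.idl p, Ideal.isPrime_of_prime (v.prime_idl hp), v.idl_ne_bot hp.ne_zero⟩

theorem idP_not_mem {p : v.R} (hp : Prime p) : idP v hp ∉ T0 v := by
  rw [mem_T0]
  exact (cp_max ((Ideal.isPrime_of_prime (v.prime_idl hp)).isMaximal (v.idl_ne_bot hp.ne_zero))).1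
    (v.cp_idl hp.ne_zero)

theorem nI_id0 {n : v.R} (hn : n ≠ 0) : nI (id0 v hn) = Ab.nm n := (Po.idlb_nm v hn).symm

theorem nI_idP {p : v.R} (hp : Prime p) : nI (pI (idP v hp)) = v.N p := rfl

theorem cp_of_fm {T : Finset (HeightOneSpectrum (𝓞 F))} (hT : T0 v ⊆ T) {I : (Ideal (𝓞 F))⁰}
    (h : fm (aT T) I ≠ 0) : Cp (I : Ideal (𝓞 F)) (v.M : 𝓞 F) := by
  by_contra hc
  rw [Cp, Ideal.isCoprime_iff_sup_eq] at hc
  obtain ⟨P, hP, hle⟩ := Ideal.exists_le_maximal _ hc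
  have hM : (v.M : 𝓞 F) ∈ P := hle (Ideal.mem_sup_right (Ideal.mem_span_singleton_self _))
  let Q : HeightOneSpectrum (𝓞 F) := ⟨P, hP.isPrime, fun h0 => v.M_ne' (by simpa [h0] using hM)⟩
  refine h (prod_eq_zero (i := Q) (mem_pf.2 (Ideal.dvd_iff_le.2 (le_sup_left.trans hle))) ?_)
  rw [aT, if_pos (hT ((mem_T0 v).2 hM))]
  ring

theorem cnPhi_eq [Ab.Ar v.R] {n : v.R} (hn : n ≠ 0) :
    Ab.cnPhi n = ((Ab.nm n * fm (aT (T0 v)) (id0 v hn) : ℝ) : ℂ) := by
  induction n using UniqueFactorizationMonoid.induction_on_prime with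
  | h₁ => exact absurd rfl hn
  | h₂ u hu =>
    have : pf (id0 v hn) = ∅ := by
      refine eq_empty_of_forall_notMem fun P hP => P.isPrime.ne_top ?_
      have h1 := mem_pf.1 hP
      change P.asIdeal ∣ v.idl u at h1
      rw [v.idl_unit hu, Ideal.dvd_iff_le] at h1
      exact top_le_iff.1 h1
    rw [Ab.cnPhi_unit hu, Ab.nm_unit hu, fm, this]
    simp
  | h₃ a p ha hp ih =>
    have e : pf (id0 v hn) = insert (idP v hp) (pf (id0 v ha)) := by
      ext P
      rw [mem_insert, mem_pf, mem_pf]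
      change P.asIdeal ∣ v.idl (p * a) ↔ _ ∨ P.asIdeal ∣ v.idl a
      rw [v.idl_mul, P.prime.dvd_mul, prime_dvd_prime_iff_eq P.prime (v.prime_idl hp)]
      exact or_congr_left ⟨fun h => HeightOneSpectrum.ext h, fun h => by rw [h]; rfl⟩
    have e2 : idP v hp ∈ pf (id0 v ha) ↔ p ∣ a := by
      rw [mem_pf, Ideal.dvd_iff_le]
      exact v.idl_le_iff
    rw [Ab.cnPhi_mul_prime hp ha, ih ha, Ab.nm_mul, fm, fm, e]
    split_ifs with h
    · rw [insert_eq_of_mem (e2.2 h)]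
      push_cast
      ring
    · have h1 : nI (pI (idP v hp)) = Ab.nm p := nI_id0 v hp.ne_zero
      have h2 : (Ab.nm p : ℂ) ≠ 0 := Complex.ofReal_ne_zero.2 (Ab.nm_pos hp.ne_zero).ne'
      rw [prod_insert fun h' => h (e2.1 h'), aT, if_neg (idP_not_mem v hp), h1]
      push_cast
      field_simp
      ring

/-- complete sums modulo an integer -/
theorem sum_quot_int [Ab.Ar v.R] {a : 𝓞 F} (ha : a ≠ 0) {f : v.R → ℂ} (hf : Ab.Per (v.up a) f) :
    (Ab.nm (v.up a) : ℂ) * ∑ᶠ x : 𝓞 F ⧸ Ideal.span {a}, f (v.up x.out) = an (a : F) * Ab.rsum (v.up a) f := by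
  have ha' : v.up a ≠ 0 := fun h => ha (v.up_injective (h.trans (map_zero _).symm))
  have := Ideal.finiteQuotientOfFreeOfNeBot (Ideal.span {a}) fun h => ha (Ideal.span_singleton_eq_bot.1 h)
  have := Fintype.ofFinite (𝓞 F ⧸ Ideal.span {a})
  have := v.finite_quot ha'
  have := Fintype.ofFinite (v.R ⧸ Ideal.span {v.up a})
  let φ : (𝓞 F ⧸ Ideal.span {a}) →+* v.R ⧸ Ideal.span {v.up a} :=
    Ideal.quotientMap _ (algebraMap (𝓞 F) v.R)
      ((Ideal.span_singleton_le_iff_mem _).2 (Ideal.mem_comap.2 (Ideal.mem_span_singleton_self _)))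
  have hφ : Function.Surjective φ := fun y => by
    obtain ⟨u, rfl⟩ := Ideal.Quotient.mk_surjective y
    obtain ⟨x, hx⟩ := v.exists_lift ha' u
    exact ⟨Ideal.Quotient.mk _ x, by rw [Ideal.quotientMap_mk]; exact Ab.rsa_mk_eq.2 hx⟩
  have h := cne_fib φ.toAddMonoidHom hφ fun y => f y.out
  rw [Ab.rsum, finsum_eq_sum_of_fintype, finsum_eq_sum_of_fintype, an_int, Ideal.absNorm_apply,
    Submodule.cardQuot_apply, Ab.nm, Ab.nN, Nat.card_eq_fintype_card, Nat.card_eq_fintype_card]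
  push_cast
  rw [← h]
  congr 1
  refine sum_congr rfl fun x _ => hf _ _ (Ab.rsa_mk_eq.1 ?_)
  rw [Ideal.Quotient.mk_out]
  conv_rhs => rw [← Ideal.Quotient.mk_out x]
  rfl

theorem bw_int {k : ℕ} {a d : 𝓞 F} (h1 : (v.M : 𝓞 F) ^ k ∣ a) (h2 : (v.M : 𝓞 F) ^ k ∣ d - 1) :
    bw v k ((a : F), (d : F)) = cbF v a d := if_pos ⟨a, d, rfl, h1, h2⟩

theorem bw_ne {k : ℕ} {c d : F} (h : bw v k (c, d) ≠ 0) :
    ∃ a b : 𝓞 F, c = a ∧ d = b ∧ (v.M : 𝓞 F) ^ k ∣ a ∧ (v.M : 𝓞 F) ^ k ∣ b - 1 := by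
  by_contra hc
  refine h (if_neg ?_)
  rintro ⟨a, b, e, h1, h2⟩
  exact hc ⟨a, b, congrArg Prod.fst e, congrArg Prod.snd e, h1, h2⟩

theorem SS_bw [Md v] {k : ℕ} (hk : 1 ≤ k) {a : 𝓞 F} (ha : a ≠ 0) (h1 : (v.M : 𝓞 F) ^ k ∣ a) :
    (Ab.nm (v.up a) : ℂ) * SS (v.M ^ k) (bw v k) 0 (a : F) =
      an (a : F) * Ab.rsum (v.up a) fun d => Ab.cb d (v.up a) := by
  have ha' : v.up a ≠ 0 := fun h => ha (v.up_injective (h.trans (map_zero _).symm))
  have ha0 : (a : F) ≠ 0 := fun h => ha' (Subtype.ext h)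
  have hM : (v.M : F) ^ k ≠ 0 := pow_ne_zero _ v.M_ne
  have := Ideal.finiteQuotientOfFreeOfNeBot (Ideal.span {a}) fun h => ha (Ideal.span_singleton_eq_bot.1 h)
  have := Fintype.ofFinite (𝓞 F ⧸ Ideal.span {a})
  let g : (𝓞 F ⧸ Ideal.span {a}) → F ⧸ Lat F (v.M ^ k) := fun x =>
    QuotientAddGroup.mk ((1 + (v.M : F) ^ k * (x.out : 𝓞 F)) / a)
  have key : ∀ (x : 𝓞 F) (t : F ⧸ Lat F (v.M ^ k)),
      QuotientAddGroup.mk ((1 + (v.M : F) ^ k * x) / a) = t ↔
        ∃ y : 𝓞 F, (a : F) * t.out = ((1 + (v.M : 𝓞 F) ^ k * (x + a * y) : 𝓞 F) : F) := by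
    intro x t
    conv_lhs => rw [← QuotientAddGroup.out_eq' t, QuotientAddGroup.eq]
    refine exists_congr fun y => ?_
    simp only [map_add, map_mul, map_pow, map_natCast, map_one, Nat.cast_pow]
    rw [← NumberField.RingOfIntegers.coe_eq_algebraMap, ← NumberField.RingOfIntegers.coe_eq_algebraMap,
      ← NumberField.RingOfIntegers.coe_eq_algebraMap]
    constructor
    · intro h
      have : t.out = (1 + (v.M : F) ^ k * x) / a + (v.M : F) ^ k * y := by linear_combination h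
      rw [this]
      field_simp
      ring
    · intro h
      field_simp
      linear_combination h
  have hper : Ab.Per (v.up a) fun y => Ab.cb ((v.M : v.R) ^ k * y + 1) (v.up a) :=
    (Ab.per_cb (v.up a)).affine _ _
  have hg : Function.Injective g := by
    intro x x' h
    obtain ⟨y, hy⟩ := (key x.out (g x')).1 h
    obtain ⟨y', hy'⟩ := (key x'.out (g x')).1 rfl
    have h2 := NumberField.RingOfIntegers.coe_injective (hy.symm.trans hy')
    have h3 := mul_left_cancel₀ (pow_ne_zero k v.M_ne') (add_left_cancel h2)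
    rw [← Ideal.Quotient.mk_out x, ← Ideal.Quotient.mk_out x', Ideal.Quotient.eq, Ideal.mem_span_singleton]
    exact ⟨y' - y, by linear_combination h3⟩
  rw [← Ab.rsum_affine ha' ((Ab.gsa_cop_unit (v.isUnit_M.pow k) _).symm) (Ab.per_cb _) 1,
    ← sum_quot_int v ha hper, SS, if_neg ha0,
    finsum_eq_sum_of_support_subset _ (s := univ.image g), sum_image fun x _ y _ h => hg h,
    finsum_eq_sum_of_fintype]
  · congr 1
    refine sum_congr rfl fun x _ => ?_
    obtain ⟨y, hy⟩ := (key x.out (g x)).1 rfl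
    have hU : v.U ((1 + (v.M : 𝓞 F) ^ k * (x.out + a * y) : 𝓞 F) : F) :=
      (UK_coe_iff.2 ⟨x.out + a * y, by ring⟩).U hk
    rw [hy, bw_int v h1 ⟨x.out + a * y, by ring⟩, zero_mul, show eT (0 : F) = 1 by simp [eT], mul_one,
      ← v.coe_up a, ← v.coe_up (1 + _), cbF_coe, v.sx_recip hU ha', ← cbF_coe, cbF_eq]
    refine Ab.cb_congr ⟨(v.M : v.R) ^ k * v.up y, ?_⟩
    simp only [map_add, map_mul, map_pow, map_natCast, map_one]
    ring
  · intro t ht
    obtain ⟨a', b, -, hb, -, x, hx⟩ := bw_ne v (left_ne_zero_of_mul ht)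
    rw [coe_image, coe_univ, Set.image_univ]
    refine ⟨Ideal.Quotient.mk _ x, (key _ t).2 ?_⟩
    obtain ⟨y, hy⟩ : a ∣ x - (Ideal.Quotient.mk (Ideal.span {a}) x).out := by
      rw [← Ideal.mem_span_singleton, ← Ideal.Quotient.eq, Ideal.Quotient.mk_out]
    exact ⟨y, by rw [hb]; congr 1; linear_combination hx + (v.M : 𝓞 F) ^ k * hy⟩

end Crest.Agent.R27.TH
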