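import Crest.Agent.R27.TH.CntE

/-! Row 27, block THETA / CNT (helper79): asymptotics of the constant term of the base weight. -/

set_option autoImplicit false
set_option linter.unusedSectionVars false

namespace Crest.Agent.R27.TH

open Crest.NumberTheoryR.EisensteinField Crest.Agent.R27.G Crest.Agent.R27.Cn Filter Finset IsDedekindDomain
open scoped NumberField Classical Topology nonZeroDivisors

variable {F : Type} [Field F] [NumberField F] [Algebra K3 F] (v : Lv F)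

/-- `sm f` as a nonzero ideal -/
noncomputable def sm0 (f : Po.TS v → ℕ) : (Ideal (𝓞 F))⁰ :=
  ⟨Po.sm v f, mem_nonZeroDivisors_of_ne_zero (Po.Sm.ne_bot v ((Po.sm_iff v).2 ⟨f, rfl⟩))⟩

/-- its class -/
noncomputable def cl0 (f : Po.TS v → ℕ) : ClassGroup (𝓞 F) := ClassGroup.mk0 (sm0 v f)

/-- it is divisible by `M^k` -/
def e0 (k : ℕ) (f : Po.TS v → ℕ) : Prop := Ideal.span {(v.M : 𝓞 F) ^ k} ∣ Po.sm v f

/-- `(c) = 𝔰 𝔟³` -/
def Dc (k : ℕ) (c : F) (p : (Po.TS v → ℕ) × (Ideal (𝓞 F))⁰) : Prop :=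
  e0 v k p.1 ∧ Cp (p.2 : Ideal (𝓞 F)) (v.M : 𝓞 F) ∧
    ∃ a : 𝓞 F, c = a ∧ Ideal.span {a} = Po.sm v p.1 * (p.2 : Ideal (𝓞 F)) ^ 3

/-- the weight of `c` -/
noncomputable def gT (k : ℕ) (T : Finset (HeightOneSpectrum (𝓞 F))) (c : F) : ℝ :=
  if h : ∃ p, Dc v k c p then fm (aT T) h.choose.2 else 0

theorem cnf_cp3 {I : Ideal (𝓞 F)} {u : 𝓞 F} (h : Cp I u) : Cp (I ^ 3) u := by
  rw [pow_three]
  exact cp_mul_left.2 ⟨h, cp_mul_left.2 ⟨h, h⟩⟩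

variable {v}

theorem Dc.idl {k : ℕ} {a : 𝓞 F} {p : (Po.TS v → ℕ) × (Ideal (𝓞 F))⁰} (h : Dc v k a p) :
    v.idl (v.up a) = (p.2 : Ideal (𝓞 F)) ^ 3 ∧ Ideal.span {a} = Po.sm v p.1 * (p.2 : Ideal (𝓞 F)) ^ 3 := by
  obtain ⟨-, h2, a', ha, h3⟩ := h
  obtain rfl := NumberField.RingOfIntegers.coe_injective ha
  obtain ⟨m, hm⟩ := (Po.sm_iff v).2 ⟨p.1, rfl⟩
  exact ⟨v.idl_up_of_mul (h3.trans (mul_comm _ _)) (cnf_cp3 h2) hm, h3⟩

theorem cnf_cube {I J : Ideal (𝓞 F)} (h : I ^ 3 = J ^ 3) : I = J :=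
  dvd_antisymm ((UniqueFactorizationMonoid.pow_dvd_pow_iff_dvd three_ne_zero).1 h.dvd)
    ((UniqueFactorizationMonoid.pow_dvd_pow_iff_dvd three_ne_zero).1 h.symm.dvd)

theorem Dc.unique {k : ℕ} {c : F} {p p' : (Po.TS v → ℕ) × (Ideal (𝓞 F))⁰} (h : Dc v k c p) (h' : Dc v k c p') :
    p = p' := by
  obtain ⟨-, -, a, rfl, -⟩ := id h
  have h1 := cnf_cube (h.idl.1.symm.trans h'.idl.1)
  have h2 := h.idl.2.symm.trans h'.idl.2
  rw [h1] at h2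
  exact Prod.ext (Po.sm_injective v (mul_right_cancel₀ (pow_ne_zero 3 (nonZeroDivisors.coe_ne_zero _)) h2))
    (Subtype.ext h1)

theorem Dc.gT_eq {k : ℕ} {c : F} {p : (Po.TS v → ℕ) × (Ideal (𝓞 F))⁰} (h : Dc v k c p)
    (T : Finset (HeightOneSpectrum (𝓞 F))) : gT v k T c = fm (aT T) p.2 := by
  have h1 : ∃ p, Dc v k c p := ⟨p, h⟩
  rw [gT, dif_pos h1, h1.choose_spec.unique h]

theorem Dc.ne {k : ℕ} {a : 𝓞 F} {p : (Po.TS v → ℕ) × (Ideal (𝓞 F))⁰} (h : Dc v k a p) : a ≠ 0 := by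
  rintro rfl
  have := h.idl.2
  rw [Ideal.span_singleton_eq_bot.2 rfl] at this
  exact nonZeroDivisors.coe_ne_zero (sm0 v p.1 * p.2 ^ 3) this.symm

theorem Dc.an {k : ℕ} {c : F} {p : (Po.TS v → ℕ) × (Ideal (𝓞 F))⁰} (h : Dc v k c p) :
    an c = Po.qf (Po.qS v) p.1 * nI p.2 ^ 3 := by
  obtain ⟨-, -, a, rfl, h3⟩ := h
  rw [an_int, h3, map_mul, map_pow, ← Po.absNorm_sm, nI]
  push_cast
  rfl

theorem gT_nonneg (k : ℕ) (T : Finset (HeightOneSpectrum (𝓞 F))) (c : F) : 0 ≤ gT v k T c := by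
  unfold gT
  split_ifs
  · exact fm_aT_nonneg _ _
  · exact le_rfl

theorem SS_bw_eq [Md v] {k : ℕ} (hk : 1 ≤ k) (c : F) :
    SS (v.M ^ k) (bw v k) 0 c = ((an c * gT v k (T0 v) c : ℝ) : ℂ) := by
  by_cases h : ∃ p, Dc v k c p
  · obtain ⟨p, hp⟩ := h
    obtain ⟨he, h2, a, rfl, h3⟩ := id hp
    have ha' : v.up a ≠ 0 := fun h => hp.ne (v.up_injective (h.trans (map_zero _).symm))
    obtain ⟨b, hb, hb'⟩ := v.exists_idl (nonZeroDivisors.coe_ne_zero p.2) h2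
    have h4 : Associated (v.up a) (b ^ 3) := v.idl_eq_iff.1 (by rw [hp.idl.1, v.idl_pow, hb'])
    have h5 := SS_bw v hk hp.ne (Ideal.mem_span_singleton.1
      (Ideal.dvd_span_singleton.1 (h3 ▸ he.mul_right _)))
    have h6 : id0 v hb = p.2 := Subtype.ext hb'
    have h7 : (Ab.nm b : ℂ) ≠ 0 := Complex.ofReal_ne_zero.2 (Ab.nm_pos hb).ne'
    rw [Ab.cn_cube ha' h4, cnPhi_eq v hb, h6, Ab.nm_assoc h4, Ab.nm_pow] at h5
    rw [hp.gT_eq]
    push_cast at h5 ⊢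
    apply mul_left_cancel₀ (pow_ne_zero 3 h7)
    rw [h5]
    ring
  · rw [gT, dif_neg h, mul_zero, Complex.ofReal_zero]
    by_contra hS
    have hc : c ≠ 0 := fun h0 => hS (if_pos h0)
    obtain ⟨t, ht⟩ : ∃ t : F ⧸ Lat F (v.M ^ k), bw v k (c, c * t.out) ≠ 0 := by
      by_contra hn
      push Not at hn
      exact hS (by simp [SS, hn])
    obtain ⟨a, -, rfl, -, h1, -⟩ := bw_ne v ht
    have ha : a ≠ 0 := fun h0 => hc (by simp [h0])
    have ha' : v.up a ≠ 0 := fun h => ha (v.up_injective (h.trans (map_zero _).symm))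
    have h5 := SS_bw v hk ha h1
    have h7 : (Ab.nm (v.up a) : ℂ) ≠ 0 := Complex.ofReal_ne_zero.2 (Ab.nm_pos ha').ne'
    obtain ⟨b, hb⟩ := Ab.cn_exists_cube ha' (right_ne_zero_of_mul (h5 ▸ mul_ne_zero h7 hS))
    have hb0 : b ≠ 0 := by
      rintro rfl
      exact ha' (by simpa using hb)
    obtain ⟨J, m, hJ, hm⟩ := v.exists_split ha
    obtain ⟨f, rfl⟩ := (Po.sm_iff v).1 ⟨m, hm⟩
    rw [v.idl_eq_iff.2 hb, v.idl_pow] at hJ
    refine h ⟨(f, id0 v hb0), ?_, v.cp_idl hb0, a, rfl, hJ.trans (mul_comm _ _)⟩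
    have h8 : IsCoprime (v.idl b ^ 3) (Ideal.span {(v.M : 𝓞 F) ^ k}) := (cnf_cp3 (v.cp_idl hb0)).pow k
    exact h8.symm.dvd_of_dvd_mul_left (hJ ▸ Ideal.dvd_span_singleton.2 (Ideal.mem_span_singleton.2 h1))

theorem gT_cut {k : ℕ} {p : v.R} (hp : Prime p) (c : F) :
    (if c / (p : F) ∈ v.R then gT v k (T0 v) c else 0) =
      gT v k (T0 v) c - gT v k (insert (idP v hp) (T0 v)) c := by
  by_cases h : ∃ q, Dc v k c q
  · obtain ⟨q, hq⟩ := h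
    obtain ⟨-, -, a, rfl, -⟩ := id hq
    have hp0 : (p : F) ≠ 0 := fun h => hp.ne_zero (Subtype.ext h)
    have e : (a : F) / (p : F) ∈ v.R ↔ (idP v hp).asIdeal ∣ (q.2 : Ideal (𝓞 F)) := by
      rw [← (idP v hp).prime.dvd_pow_iff_dvd three_ne_zero, ← hq.idl.1, Ideal.dvd_iff_le]
      refine Iff.trans ?_ v.idl_le_iff.symm
      constructor
      · refine fun h => ⟨⟨_, h⟩, Subtype.ext ?_⟩
        simp only [MulMemClass.coe_mul, Lv.coe_up]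
        field_simp
      · rintro ⟨y, hy⟩
        have := congrArg (fun x : v.R => (x : F)) hy
        simp only [MulMemClass.coe_mul, Lv.coe_up] at this
        rw [this, mul_div_cancel_left₀ _ hp0]
        exact y.2
    rw [hq.gT_eq, hq.gT_eq, fm_aT_insert, e]
    split_ifs <;> ring
  · simp [gT, h]

theorem SS_cut (q : ℕ) (p : v.R) (ω : F × F → ℂ) (ν c : F) :
    SS q (cut v p (0, 1) ω) ν c = if c / (p : F) ∈ v.R then SS q ω ν c else 0 := by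
  by_cases h : c / (p : F) ∈ v.R <;> simp [SS, cut, h]

theorem cnf_le {s n B : ℝ} (hs : 0 < s) (hn : 0 ≤ n) (hB : 0 < B) : n ≤ (B / s) ^ (1 / 3 : ℝ) ↔ s * n ^ 3 ≤ B := by
  rw [one_div, Real.le_rpow_inv_iff_of_pos hn (div_pos hB hs).le (by norm_num), le_div_iff₀ hs, mul_comm]
  norm_cast

theorem cnf_one (f : Po.TS v → ℕ) : 1 ≤ Po.qf (Po.qS v) f := Po.one_le_qf (Po.two_le_qS v) f

theorem cnf_sum (v : Lv F) : Summable fun f : Po.TS v → ℕ => Po.qf (Po.qS v) f ^ (-(1 / 3) : ℝ) :=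
  Po.ana_sum (Po.two_le_qS v) (by norm_num)

/-- the weight of a pair -/
noncomputable def GP2 (v : Lv F) (k : ℕ) (T : Finset (HeightOneSpectrum (𝓞 F))) (B : ℝ)
    (p : (Po.TS v → ℕ) × (Ideal (𝓞 F))⁰) : ℝ :=
  if e0 v k p.1 ∧ cl0 v p.1 * ClassGroup.mk0 p.2 ^ 3 = 1 ∧ Po.qf (Po.qS v) p.1 * nI p.2 ^ 3 ≤ B then
    fm (aT T) p.2 else 0

theorem GP2_nonneg (k : ℕ) (T : Finset (HeightOneSpectrum (𝓞 F))) (B : ℝ)
    (p : (Po.TS v → ℕ) × (Ideal (𝓞 F))⁰) : 0 ≤ GP2 v k T B p := by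
  unfold GP2
  split_ifs
  · exact fm_aT_nonneg _ _
  · exact le_rfl

theorem hasSum_GP2 (k : ℕ) (T : Finset (HeightOneSpectrum (𝓞 F))) {B : ℝ} (hB : 0 < B) :
    HasSum (GP2 v k T B) (AI (Po.qf (Po.qS v)) (cl0 v) (e0 v k) T B) := by
  have h1 : ∀ f, HasSum (fun I => GP2 v k T B (f, I)) (AT (Po.qf (Po.qS v)) (cl0 v) (e0 v k) T B f) := by
    intro f
    have h0 : 0 < Po.qf (Po.qS v) f := one_pos.trans_le (cnf_one f)
    unfold AT
    split_ifs with he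
    · have e : ∑ C ∈ univ.filter fun C => cl0 v f * C ^ 3 = 1, sC (aT T) C ((B / Po.qf (Po.qS v) f) ^ (1 / 3 : ℝ)) =
          ∑ I ∈ bl F ((B / Po.qf (Po.qS v) f) ^ (1 / 3 : ℝ)), GP2 v k T B (f, I) := by
        unfold sC
        refine (sum_fiberwise_eq_sum_filter _ _ (fun I : (Ideal (𝓞 F))⁰ => ClassGroup.mk0 I) _).trans ?_
        rw [sum_filter]
        refine sum_congr rfl fun I hI => ?_
        have := (cnf_le h0 (nI_pos I).le hB).1 (mem_bl.1 hI)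
        simp [GP2, he, this]
      rw [e]
      refine hasSum_sum_of_ne_finset_zero fun I hI => if_neg fun h => hI ?_
      exact mem_bl.2 ((cnf_le h0 (nI_pos I).le hB).2 h.2.2)
    · simp [GP2, he, hasSum_zero]
  have h2 : Summable (GP2 v k T B) := (summable_prod_of_nonneg (GP2_nonneg k T B)).2
    ⟨fun f => (h1 f).summable, (summable_AT cnf_one (cnf_sum v) T hB).congr fun f => (h1 f).tsum_eq.symm⟩
  rw [AI, (h2.hasSum.prod_fiberwise h1).tsum_eq]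
  exact h2.hasSum

theorem cl0_iff (p : (Po.TS v → ℕ) × (Ideal (𝓞 F))⁰) : cl0 v p.1 * ClassGroup.mk0 p.2 ^ 3 = 1 ↔
    ∃ a : 𝓞 F, Ideal.span {a} = Po.sm v p.1 * (p.2 : Ideal (𝓞 F)) ^ 3 := by
  have h : ∀ I : (Ideal (𝓞 F))⁰, ClassGroup.mk0 I = 1 ↔ (I : Ideal (𝓞 F)).IsPrincipal := fun I =>
    ClassGroup.mk0_eq_one_iff I.2
  rw [cl0, ← map_pow, ← map_mul, h, Submonoid.coe_mul, SubmonoidClass.coe_pow]
  exact ⟨fun ⟨a, ha⟩ => ⟨a, ha.symm⟩, fun ⟨a, ha⟩ => ⟨a, ha.symm⟩⟩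

variable {V : Subgroup (𝓞 F)ˣ} [V.FiniteIndex] {η : (Pl F → ℝ) → ℝ}

theorem hasSum_gT (hη : Pou V η) (k : ℕ) {T : Finset (HeightOneSpectrum (𝓞 F))} (hT : T0 v ⊆ T) {B : ℝ}
    (hB : 0 < B) : HasSum (fun c : F => η (lg c) * if an c ≤ B then gT v k T c else 0)
      (V.index * AI (Po.qf (Po.qS v)) (cl0 v) (e0 v k) T B) := by
  let Ω := {p : (Po.TS v → ℕ) × (Ideal (𝓞 F))⁰ // ∃ a : 𝓞 F, Dc v k a p}
  choose a ha using fun p : Ω => p.2
  have hD : ∀ (p : Ω) (u : (𝓞 F)ˣ), Dc v k (((u : 𝓞 F) : F) * a p) p.1 := fun p u =>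
    ⟨(ha p).1, (ha p).2.1, u * a p, by simp, by
      rw [Ideal.span_singleton_mul_left_unit u.isUnit]; exact (ha p).idl.2⟩
  have ha0 : ∀ p : Ω, ((a p : 𝓞 F) : F) ≠ 0 := fun p h => (ha p).ne (NumberField.RingOfIntegers.coe_injective
    (h.trans (map_zero _).symm))
  let Φ : Ω × (𝓞 F)ˣ → F := fun q => ((q.2 : 𝓞 F) : F) * a q.1
  have hΦ : Function.Injective Φ := by
    rintro ⟨p, u⟩ ⟨p', u'⟩ h
    have h1 : p = p' := Subtype.ext ((hD p u).unique (by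
      have := hD p' u'
      change Dc v k (Φ (p', u')) _ at this
      rw [← h] at this
      exact this))
    subst h1
    exact Prod.ext rfl (Units.ext (NumberField.RingOfIntegers.coe_injective (mul_right_cancel₀ (ha0 p) h)))
  have hcl : ∀ {c : F} {p}, Dc v k c p → cl0 v p.1 * ClassGroup.mk0 p.2 ^ 3 = 1 := by
    rintro c p ⟨-, -, a, -, h⟩
    exact (cl0_iff p).2 ⟨a, h⟩
  have h1 : HasSum (fun p : Ω => GP2 v k T B p.1) (AI (Po.qf (Po.qS v)) (cl0 v) (e0 v k) T B) := by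
    refine (hasSum_subtype_iff_of_support_subset fun p hp => ?_).2 (hasSum_GP2 k T hB)
    have h2 : e0 v k p.1 ∧ cl0 v p.1 * ClassGroup.mk0 p.2 ^ 3 = 1 ∧ Po.qf (Po.qS v) p.1 * nI p.2 ^ 3 ≤ B := by
      by_contra h
      exact hp (if_neg h)
    have h3 : fm (aT T) p.2 ≠ 0 := fun h => hp ((if_pos h2).trans h)
    obtain ⟨b, hb⟩ := (cl0_iff p).1 h2.2.1
    exact ⟨b, h2.1, cp_of_fm v hT h3, b, rfl, hb⟩
  have h2 : ∀ p : Ω, HasSum (fun u => η (lg (Φ (p, u))) * if an (Φ (p, u)) ≤ B then gT v k T (Φ (p, u)) else 0)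
      (V.index * GP2 v k T B p.1) := by
    intro p
    refine ((hη.hasSum_all (lg ((a p : 𝓞 F) : F))).mul_right (GP2 v k T B p.1)).congr_fun fun u => ?_
    have e := hD p u
    change η (lg (((u : 𝓞 F) : F) * a p)) * (if an (((u : 𝓞 F) : F) * a p) ≤ B then
      gT v k T (((u : 𝓞 F) : F) * a p) else 0) = _
    rw [lg_mul (unit_ne u) (ha0 p), add_comm, e.gT_eq, e.an]
    simp [GP2, e.1, hcl e]
  have h3 : Summable fun q : Ω × (𝓞 F)ˣ => η (lg (Φ q)) * if an (Φ q) ≤ B then gT v k T (Φ q) else 0 := by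
    refine (summable_prod_of_nonneg fun q => mul_nonneg (hη.nonneg _) ?_).2
      ⟨fun p => (h2 p).summable, (h1.mul_left (V.index : ℝ)).summable.congr fun p => (h2 p).tsum_eq.symm⟩
    split_ifs
    · exact gT_nonneg _ _ _
    · exact le_rfl
  rw [(h1.mul_left (V.index : ℝ)).unique (h3.hasSum.prod_fiberwise h2)]
  refine (hΦ.hasSum_iff fun c hc => ?_).1 h3.hasSum
  have h4 : ¬ ∃ p, Dc v k c p := by
    rintro ⟨p, hp⟩
    obtain ⟨-, -, b, rfl, -⟩ := id hp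
    obtain ⟨u, hu⟩ := Ideal.span_singleton_eq_span_singleton.1
      ((ha ⟨p, b, hp⟩).idl.2.trans hp.idl.2.symm)
    refine hc ⟨(⟨p, b, hp⟩, u), Eq.trans ?_ (congrArg (fun x : 𝓞 F => (x : F)) hu)⟩
    simp [Φ, mul_comm]
  simp [gT, h4]

theorem Lm_gT (hη : Pou V η) (k : ℕ) {T : Finset (HeightOneSpectrum (𝓞 F))} (hT : T0 v ⊆ T) {Y : ℝ}
    (hY : 0 < Y) : HasSum (fun c : F => η (lg c) * (an c * gT v k T c) * ff (an c / Y))
      (Y * (V.index * (AI (Po.qf (Po.qS v)) (cl0 v) (e0 v k) T (2 * Y) -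
        AI (Po.qf (Po.qS v)) (cl0 v) (e0 v k) T Y))) := by
  rw [mul_sub]
  refine (((hasSum_gT hη k hT (mul_pos two_pos hY)).sub (hasSum_gT hη k hT hY)).mul_left Y).congr_fun fun c => ?_
  simp only [ff, one_lt_div hY, div_le_iff₀ hY]
  by_cases h1 : an c ≤ Y
  · rw [if_neg fun h => absurd h.1 (not_lt.2 h1), if_pos h1, if_pos (by linarith)]
    ring
  · rw [if_neg h1]
    push Not at h1
    by_cases h2 : an c ≤ 2 * Y
    · have : an c ≠ 0 := (hY.trans h1).ne'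
      rw [if_pos ⟨h1, h2⟩, if_pos h2]
      field_simp
      ring
    · rw [if_neg fun h => h2 h.2, if_neg h2]
      ring

theorem Lm_gT' (hη : Pou V η) (k : ℕ) {T T' : Finset (HeightOneSpectrum (𝓞 F))} (hT : T0 v ⊆ T) (hT' : T0 v ⊆ T')
    (s : ℝ) {a : F → ℂ} (ha : ∀ c, a c = ((η (lg c) * (an c * (gT v k T c - s * gT v k T' c)) : ℝ) : ℂ)) :
    Tendsto (Lm fc a an) atTop (𝓝 (((dT T - s * dT T') * (V.index * (((2 : ℝ) ^ (1 / 3 : ℝ) - 1) *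
      Lam (Po.qf (Po.qS v)) (cl0 v) (e0 v k))) : ℝ) : ℂ)) := by
  have h1 := tendsto_AI_two (cl := cl0 v) (e := e0 v k) cnf_one (cnf_sum v) T
  have h2 := tendsto_AI_two (cl := cl0 v) (e := e0 v k) cnf_one (cnf_sum v) T'
  have h3 := (h1.sub (h2.const_mul s)).const_mul (V.index : ℝ)
  rw [show (dT T - s * dT T') * (V.index * (((2 : ℝ) ^ (1 / 3 : ℝ) - 1) * Lam (Po.qf (Po.qS v)) (cl0 v) (e0 v k))) =
    V.index * (dT T * (((2 : ℝ) ^ (1 / 3 : ℝ) - 1) * Lam (Po.qf (Po.qS v)) (cl0 v) (e0 v k)) -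
      s * (dT T' * (((2 : ℝ) ^ (1 / 3 : ℝ) - 1) * Lam (Po.qf (Po.qS v)) (cl0 v) (e0 v k)))) by ring]
  refine ((Complex.continuous_ofReal.tendsto _).comp h3).congr' ?_
  filter_upwards [eventually_gt_atTop 0] with Y hY
  have h4 := Complex.hasSum_ofReal.2 ((Lm_gT hη k hT hY).sub ((Lm_gT hη k hT' hY).mul_left s))
  have h5 : Y ^ (-(4 / 3) : ℝ) * Y = (Y ^ (1 / 3 : ℝ))⁻¹ := by
    rw [← Real.rpow_add_one hY.ne', ← Real.rpow_neg hY.le]
    norm_num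
  rw [Lm, (h4.congr_fun (g := fun c => a c * fc (an c / Y)) fun c => by rw [ha, fc]; push_cast; ring).tsum_eq,
    Function.comp, ← Complex.ofReal_mul]
  congr 1
  simp only [div_eq_mul_inv _ (Y ^ (1 / 3 : ℝ)), ← h5]
  ring

/-- **CNT** -/
theorem cnt_bw [Md v] {k : ℕ} (hk : 1 ≤ k) (hη : Pou V η) : ∃ ρ : ℝ, 0 < ρ ∧
    Tendsto (Lm fc (co η (v.M ^ k) (bw v k) 0) an) atTop (𝓝 (ρ : ℂ)) ∧
    ∀ p : v.R, Prime p → Tendsto (Lm fc (co η (v.M ^ k) (cut v p (0, 1) (bw v k)) 0) an) atTop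
      (𝓝 (((v.N p : ℂ) + 1)⁻¹ * ρ)) := by
  obtain ⟨f₀, hf₀⟩ := (Po.sm_iff v (𝔟 := Ideal.span {(v.M : 𝓞 F) ^ k})).1 ⟨k, Ideal.mem_span_singleton_self _⟩
  have hL : 0 < Lam (Po.qf (Po.qS v)) (cl0 v) (e0 v k) := by
    refine Lam_pos cnf_one (cnf_sum v) (f₀ := f₀) hf₀.dvd ?_
    simpa using (cl0_iff (f₀, 1)).2 ⟨(v.M : 𝓞 F) ^ k, by
      rw [OneMemClass.coe_one, one_pow, mul_one]; exact hf₀⟩
  have hV : (0 : ℝ) < V.index := Nat.cast_pos.2 (Nat.pos_of_ne_zero Subgroup.FiniteIndex.index_ne_zero)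
  refine ⟨dT (T0 v) * (V.index * (((2 : ℝ) ^ (1 / 3 : ℝ) - 1) * Lam (Po.qf (Po.qS v)) (cl0 v) (e0 v k))),
    mul_pos (dT_pos _) (mul_pos hV (mul_pos two_rpow_pos hL)), ?_, fun p hp => ?_⟩
  · simpa using Lm_gT' hη k subset_rfl subset_rfl 0 (a := co η (v.M ^ k) (bw v k) 0) fun c => by
      rw [co, SS_bw_eq hk]
      push_cast
      ring
  · have h := Lm_gT' hη k subset_rfl (subset_insert (idP v hp) _) 1
      (a := co η (v.M ^ k) (cut v p (0, 1) (bw v k)) 0) fun c => by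
        rw [co, SS_cut, SS_bw_eq hk, one_mul, ← gT_cut hp]
        split_ifs <;> simp
    have h0 : ((v.N p : ℝ) + 1) ≠ 0 := by positivity
    rw [dT_insert (idP_not_mem v hp), nI_idP, show dT (T0 v) - 1 * ((v.N p : ℝ) / (v.N p + 1) * dT (T0 v)) =
      ((v.N p : ℝ) + 1)⁻¹ * dT (T0 v) by field_simp; ring, mul_assoc] at h
    simpa using h

end Crest.Agent.R27.TH
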