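import Crest.Agent.R27.TH.Gam

/-! Row 27, block TH/GRAM (owner helper53): unfolding of the Gram integrals. -/

set_option autoImplicit false
set_option linter.unusedSectionVars false

namespace Crest.Agent.R27.TH

open Crest.NumberTheoryR.EisensteinField Crest.Agent.R27.G MeasureTheory Filter Set
open scoped NumberField ComplexConjugate Classical Real Topology MatrixGroups ENNReal

noncomputable section

variable {F : Type} [Field F] [NumberField F] [Algebra K3 F]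

/-- a character of `Γ(q)` as a function of the bottom row -/
structure Kub (q : ℕ) (χ : F × F → ℂ) : Prop where
  adm : Adm χ
  row : ∀ r, χ r ≠ 0 → ∃ g ∈ Gam F q, rm (0, 1) g = r
  coc : ∀ g ∈ Gam F q, ∀ r, χ (rm r g) = χ r * χ (rm (0, 1) g)
  nrm : ∀ g ∈ Gam F q, ‖χ (rm (0, 1) g)‖ = 1

/-- an equivariant family of weights -/
def Eqv (q : ℕ) (χ : F × F → ℂ) (Ω : F × F → F × F → ℂ) : Prop :=
  ∀ g ∈ Gam F q, ∀ r r', Ω (rm r' g) (rm r g) = Ω r' r * χ (rm (0, 1) g)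

/-- the Gram density -/
def GN (η : (Pl F → ℝ) → ℝ) (χ : F × F → ℂ) (Ω : F × F → F × F → ℂ) (Y Y' : ℝ) (w : X F) : ℂ :=
  (Y' ^ (-(4 / 3) : ℝ) : ℝ) * ∑' r, conj (χ r) * (pf η Y' w r : ℂ) * EN η (Ω r) Y w

/-- the profile of the row `(0, 1)` -/
def gY (η : (Pl F → ℝ) → ℝ) (Y : ℝ) (l : Pl F → ℝ) : ℝ := η (fun i => -l i / 2) * ff (Real.exp (-∑ i, l i) / Y)

/-- ... times the density of `mu` -/
def hY (η : (Pl F → ℝ) → ℝ) (Y : ℝ) (l : Pl F → ℝ) : ℂ := ((gY η Y l * Real.exp (-(2 * ∑ i, l i)) : ℝ) : ℂ)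

/-- the unfolded density -/
def uG (η : (Pl F → ℝ) → ℝ) (D : Set (Pl F → ℂ)) (ω : F × F → ℂ) (Y Y' : ℝ) (w : X F) : ℂ :=
  if w.1 ∈ D then (gY η Y' w.2 : ℂ) * EN η ω Y w else 0

variable {V : Subgroup (𝓞 F)ˣ} {η : (Pl F → ℝ) → ℝ} {χ ω : F × F → ℂ} {Ω : F × F → F × F → ℂ} {q : ℕ}
  {D : Set (Pl F → ℂ)} {β : X F → ℝ}

theorem pf_e (η : (Pl F → ℝ) → ℝ) (Y : ℝ) (w : X F) : pf η Y w (0, 1) = gY η Y w.2 := by
  rw [pf, gY, lQ_zero_one, NQ_zero_left, an_one, one_mul]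

theorem gY_nonneg (hη : Pou V η) (Y : ℝ) (l : Pl F → ℝ) : 0 ≤ gY η Y l := mul_nonneg (hη.nonneg _) (ff_nonneg _)

theorem gY_le_one (hη : Pou V η) (Y : ℝ) (l : Pl F → ℝ) : gY η Y l ≤ 1 :=
  mul_le_one₀ (hη.le_one _) (ff_nonneg _) (ff_le_one _)

theorem measurable_gY (hη : Pou V η) (Y : ℝ) : Measurable (gY η Y) :=
  (hη.meas.comp (by fun_prop)).mul (measurable_ff.comp (by fun_prop))

theorem gY_supp (hη : Pou V η) (Y : ℝ) : ∃ B : ℝ, 0 ≤ B ∧ ∀ l, gY η Y l ≠ 0 → ‖l‖ ≤ B := by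
  obtain ⟨B, hB⟩ := pf_bdd hη Y
  refine ⟨2 * |B|, by positivity, fun l hl => (pi_norm_le_iff_of_nonneg (by positivity)).2 fun i => ?_⟩
  have := hB (0, l) (0, 1) (by rwa [pf_e]) i
  rw [lQ_zero_one, abs_div, abs_neg, abs_two] at this
  rw [Real.norm_eq_abs]
  linarith [le_abs_self B]

theorem tst_hY (hη : Pou V η) (Y : ℝ) : Tst (hY η Y) := by
  obtain ⟨B, h0, hB⟩ := gY_supp hη Y
  refine ⟨Complex.measurable_ofReal.comp ((measurable_gY hη Y).mul (by fun_prop)),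
    B + Real.exp (2 * (Fintype.card (Pl F) * B)), fun l => ?_⟩
  have he := Real.exp_pos (2 * (Fintype.card (Pl F) * B))
  by_cases hl : gY η Y l = 0
  · simp only [hY, hl, zero_mul, Complex.ofReal_zero, norm_zero, ne_eq, not_true_eq_false, false_imp_iff, and_true]
    positivity
  refine ⟨?_, fun _ => (hB l hl).trans (by linarith)⟩
  have h1 : -∑ i, l i ≤ Fintype.card (Pl F) * B := by
    rw [← Finset.sum_neg_distrib]
    refine (Finset.sum_le_sum fun i _ => (neg_le_abs (l i)).trans ((norm_le_pi_norm l i).trans (hB l hl))).trans ?_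
    simp
  rw [hY, Complex.norm_real, Real.norm_of_nonneg (mul_nonneg (gY_nonneg hη _ _) (Real.exp_pos _).le)]
  have h2 : Real.exp (-(2 * ∑ i, l i)) ≤ Real.exp (2 * (Fintype.card (Pl F) * B)) := Real.exp_le_exp.2 (by linarith)
  have h3 := mul_le_of_le_one_left (Real.exp_pos (-(2 * ∑ i, l i))).le (gY_le_one hη Y l)
  linarith

theorem mu_compact {K : Set (X F)} (hK : IsCompact K) : mu K < ⊤ := by
  have hc : Continuous fun w : X F => Real.exp (-(2 * ∑ i, w.2 i)) := by fun_prop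
  rw [mu, withDensity_apply _ hK.measurableSet]
  exact (hc.continuousOn.integrableOn_compact hK).lintegral_lt_top

/-- bounded measurable functions of bounded support are integrable -/
theorem integrable_mu {f : X F → ℂ} (hf : Measurable f) {R B : ℝ} (hR : ∀ w, f w ≠ 0 → ‖w‖ ≤ R)
    (hB : ∀ w, ‖w‖ ≤ R → ‖f w‖ ≤ B) : Integrable f mu := by
  have h1 : IntegrableOn f (Metric.closedBall 0 R) mu :=
    Measure.integrableOn_of_bounded (M := B) (mu_compact (isCompact_closedBall 0 R)).ne hf.aestronglyMeasurable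
      (ae_restrict_of_forall_mem measurableSet_closedBall fun w hw => hB w (mem_closedBall_zero_iff.1 hw))
  exact (integrableOn_iff_integrable_of_support_subset fun w hw => mem_closedBall_zero_iff.2 (hR w hw)).1 h1

theorem integral_mu (f : X F → ℂ) : ∫ w, f w ∂mu = ∫ w : X F, (Real.exp (-(2 * ∑ i, w.2 i)) : ℂ) * f w := by
  rw [mu, integral_withDensity_eq_integral_toReal_smul (by fun_prop) (Eventually.of_forall fun _ => ENNReal.ofReal_lt_top)]
  refine integral_congr_ae (Eventually.of_forall fun w => ?_)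
  simp only [ENNReal.toReal_ofReal (Real.exp_pos _).le, Complex.real_smul]

theorem measurable_uG (hη : Pou V η) (hD : IsFD q D) (ω : F × F → ℂ) (Y Y' : ℝ) : Measurable (uG η D ω Y Y') :=
  Measurable.ite (measurable_fst hD.meas) ((Complex.measurable_ofReal.comp
    ((measurable_gY hη Y').comp measurable_snd)).mul (measurable_EN hη ω Y)) measurable_const

theorem integrable_uG (hη : Pou V η) (hD : IsFD q D) (hω : Adm ω) (Y Y' : ℝ) : Integrable (uG η D ω Y Y') mu := by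
  obtain ⟨B, -, hB⟩ := gY_supp hη Y'
  obtain ⟨R, hR⟩ := hD.bdd.exists_norm_le
  obtain ⟨C, hC⟩ := hω.EN_bdd hη Y (max R B)
  refine integrable_mu (measurable_uG hη hD ω Y Y') (R := max R B) (B := C) (fun w hw => ?_) fun w hw => ?_
  · have h1 : w.1 ∈ D := by
      by_contra h
      exact hw (if_neg h)
    rw [uG, if_pos h1] at hw
    exact max_le_max (hR _ h1) (hB _ (Complex.ofReal_ne_zero.1 (left_ne_zero_of_mul hw)))
  · have := hC w hw
    unfold uG
    split_ifs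
    · rw [norm_mul, Complex.norm_real, Real.norm_of_nonneg (gY_nonneg hη _ _)]
      exact (mul_le_of_le_one_left (norm_nonneg _) (gY_le_one hη _ _)).trans this
    · rw [norm_zero]
      exact (norm_nonneg _).trans this

theorem integral_uG (η : (Pl F → ℝ) → ℝ) (D : Set (Pl F → ℂ)) (ω : F × F → ℂ) (Y Y' : ℝ) :
    ∫ w, uG η D ω Y Y' w ∂mu = ∫ w : X F, EN η ω Y w * (D.indicator 1 w.1 * kn 0 (hY η Y') w) := by
  rw [integral_mu]
  refine integral_congr_ae (Eventually.of_forall fun w => ?_)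
  by_cases h : w.1 ∈ D
  · simp only [uG, if_pos h, indicator_of_mem h, kn, hY, eZ_zero_left, map_one, Pi.one_apply]
    push_cast
    ring
  · simp [uG, h]

theorem GN_eq (hK : Kub q χ) (hΩ : Eqv q χ Ω) (hD : IsFD q D) (η : (Pl F → ℝ) → ℝ) (Y Y' : ℝ) (w : X F) :
    GN η χ Ω Y Y' w = (Y' ^ (-(4 / 3) : ℝ) : ℝ) * ∑' γ : Gam F q, uG η D (Ω (0, 1)) Y Y' (actG q γ w) := by
  rw [GN, ← tsum_gam hD w fun r hr => hK.row r fun h => hr (by simp [h])]
  congr 1
  refine tsum_congr fun γ => if_congr Iff.rfl ?_ rfl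
  have h1 : Ω (rm (0, 1) γ) = fun r => χ (rm (0, 1) γ) * Ω (0, 1) (rm r γ.1⁻¹) := funext fun r => by
    rw [mul_comm, ← hΩ γ γ.2, ← rm_mul, inv_mul_cancel, rm_one]
  have h2 : conj (χ (rm (0, 1) γ)) * χ (rm (0, 1) γ) = 1 := by
    rw [Complex.conj_mul', hK.nrm γ γ.2]
    simp
  rw [h1, EN_smul, ← EN_act, ← pf_act, pf_e, actG]
  linear_combination (gY η Y' (act γ w).2 * EN η (Ω (0, 1)) Y (act γ w)) * h2

theorem GN_act (hK : Kub q χ) (hΩ : Eqv q χ Ω) (hD : IsFD q D) (η : (Pl F → ℝ) → ℝ) (Y Y' : ℝ) {g : SL(2, F)}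
    (hg : g ∈ Gam F q) (w : X F) : GN η χ Ω Y Y' (act g w) = GN η χ Ω Y Y' w := by
  rw [GN_eq hK hΩ hD, GN_eq hK hΩ hD, ← (Equiv.mulRight (⟨g, hg⟩ : Gam F q)).tsum_eq
    fun γ => uG η D (Ω (0, 1)) Y Y' (actG q γ w)]
  simp only [actG, ← act_mul]
  rfl

theorem measurable_GN (hη : Pou V η) (χ : F × F → ℂ) (Ω : F × F → F × F → ℂ) (Y Y' : ℝ) :
    Measurable (GN η χ Ω Y Y') :=
  (Measurable.tsum fun r => ((Complex.measurable_ofReal.comp (measurable_pf hη Y' r)).const_mul _).mul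
    (measurable_EN hη _ Y)).const_mul _

/-- UNFOLDING -/
theorem gram_int (hη : Pou V η) (hK : Kub q χ) (hΩ : Eqv q χ Ω) (hω : Adm (Ω (0, 1))) (hD : IsFD q D)
    (hβ : GP mu (actG q) β) (Y Y' : ℝ) : Integrable (fun w => (β w : ℂ) * GN η χ Ω Y Y' w) mu ∧
      ∫ w, (β w : ℂ) * GN η χ Ω Y Y' w ∂mu =
        (Y' ^ (-(4 / 3) : ℝ) : ℝ) * ∫ w, uG η D (Ω (0, 1)) Y Y' w ∂mu := by
  obtain ⟨h1, h2⟩ := hβ.integral (integrable_uG hη hD hω Y Y')
  simp only [GN_eq hK hΩ hD, mul_left_comm (β _ : ℂ)]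
  exact ⟨h1.const_mul _, by rw [integral_const_mul, h2]⟩

theorem GN_const (η : (Pl F → ℝ) → ℝ) (χ ω : F × F → ℂ) (Y Y' : ℝ) (w : X F) :
    GN η χ (fun _ => ω) Y Y' w = EN η ω Y w * conj (EN η χ Y' w) := by
  rw [GN, tsum_mul_right, EN_eq η χ, map_mul, Complex.conj_ofReal, Complex.conj_tsum]
  simp only [map_mul, Complex.conj_ofReal]
  ring

theorem lintegral_beta {N : X F → ℂ} (hβ : ∀ w, 0 ≤ β w) (h0 : ∀ w, 0 ≤ (N w).re)
    (hi : Integrable (fun w => (β w : ℂ) * N w) mu) :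
    ∫⁻ w, ENNReal.ofReal (β w) * ENNReal.ofReal (N w).re ∂mu = ENNReal.ofReal (∫ w, (β w : ℂ) * N w ∂mu).re := by
  have h1 := integral_re hi
  have h2 := hi.re
  simp only [RCLike.re_to_complex, Complex.re_ofReal_mul] at h1 h2
  rw [← h1, ofReal_integral_eq_lintegral_ofReal h2 (Eventually.of_forall fun w => mul_nonneg (hβ w) (h0 w))]
  exact lintegral_congr fun w => (ENNReal.ofReal_mul (hβ w)).symm

theorem enorm_sq_eq (z : ℂ) : ‖z‖ₑ ^ 2 = ENNReal.ofReal (‖z‖ ^ 2) := by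
  rw [ENNReal.ofReal_pow (norm_nonneg _), ofReal_norm]

/-- a small invariant majorant gives convergence in `L²_loc` -/
theorem l2z_of_gram (hβ : GP mu (actG q) β) {α : Type} {l : Filter α} {u N : α → X F → ℂ}
    (hu : ∀ a, Measurable (u a)) (hN : ∀ a, Measurable (N a)) (hle : ∀ a w, ‖u a w‖ ^ 2 ≤ (N a w).re)
    (hinv : ∀ a, ∀ g ∈ Gam F q, ∀ w, N a (act g w) = N a w)
    (hi : ∀ a, Integrable (fun w => (β w : ℂ) * N a w) mu)
    (ht : Tendsto (fun a => ∫ w, (β w : ℂ) * N a w ∂mu) l (𝓝 0)) : L2z l u := by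
  refine ⟨hu, fun K hK => ?_⟩
  obtain ⟨C, hC, h⟩ := local_le hβ hK
  have h1 := ENNReal.Tendsto.const_mul (a := C)
    (ENNReal.tendsto_ofReal ((Complex.continuous_re.tendsto 0).comp ht)) (Or.inr hC)
  simp only [Complex.zero_re, ENNReal.ofReal_zero, mul_zero] at h1
  refine tendsto_of_tendsto_of_tendsto_of_le_of_le tendsto_const_nhds h1 (fun _ => zero_le) fun a => ?_
  refine le_trans (lintegral_mono fun w => ?_) ((h (fun w => ENNReal.ofReal (N a w).re)
    (Complex.measurable_re.comp (hN a)).ennreal_ofReal fun g hg w => by rw [hinv a g hg]).trans_eq ?_)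
  · rw [enorm_sq_eq]
    exact ENNReal.ofReal_le_ofReal (hle a w)
  · rw [lintegral_beta hβ.nonneg (fun w => (sq_nonneg _).trans (hle a w)) (hi a)]
    rfl

end

end Crest.Agent.R27.TH
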