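import Crest.Agent.R27.TH.Loc
import Crest.Agent.R27.TH.Emb

/-! Row 27, THETA, block L2 (owner helper14): the series `EN`, convergence in `L²_loc`. -/

set_option autoImplicit false

namespace Crest.Agent.R27.TH

open Crest.Agent.R17 (sgK sg EntBdd gth)
open Crest.Agent.R17.D (Qf KB pw)
open Crest.NumberTheoryR.EisensteinField Crest.Agent.R27.G MeasureTheory Filter Set
open scoped NumberField ComplexConjugate Classical Real Topology MatrixGroups

variable {F : Type} [Field F] [NumberField F] [Algebra K3 F]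

theorem Qi_add (z : Pl F → ℂ) (l : Pl F → ℝ) (x c d : F) (i : Pl F) :
    Qi (z + em x, l) (c, d) i = Qi (z, l) (c, d + c * x) i := by
  simp only [Qi, Qf, em_add, em_mul, Pi.add_apply, Pi.mul_apply]
  rw [mul_add, add_assoc, add_comm (em c i * em x i)]

theorem NQ_row (z : Pl F → ℂ) (l : Pl F → ℝ) (c t : F) : NQ (z, l) (c, c * t) = an c * PP (z + em t, l) := by
  have h := NQ_smul (z, l) c 1 t
  rw [mul_one] at h
  rw [h, PP]
  simp only [NQ, Qi_add, zero_add, one_mul]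

theorem rm_smul (u c d : F) (g : SL(2, F)) :
    rm (u * c, u * d) g = (u * (rm (c, d) g).1, u * (rm (c, d) g).2) := by
  simp only [rm, Prod.mk.injEq]
  constructor <;> ring

theorem rm_det (r r' : F × F) (g : SL(2, F)) :
    (rm r g).1 * (rm r' g).2 - (rm r g).2 * (rm r' g).1 = r.1 * r'.2 - r.2 * r'.1 := by
  have h := g.det_coe
  rw [Matrix.det_fin_two] at h
  simp only [rm]
  linear_combination (r.1 * r'.2 - r.2 * r'.1) * h

theorem rm_inv (r : F × F) (g : SL(2, F)) :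
    rm r g⁻¹ = (r.1 * g 1 1 - r.2 * g 1 0, -(r.1 * g 0 1) + r.2 * g 0 0) := by
  simp only [rm, Matrix.SpecialLinearGroup.SL2_inv_expl, Prod.mk.injEq]
  constructor <;> (simp; try ring)

theorem prf_fc : Prf fc := by
  refine ⟨Complex.measurable_ofReal.comp measurable_ff, ⟨2, fun t ht => ?_⟩, fun δ _ => ⟨1, fun t _ => ?_⟩⟩
  · have : ff t = 0 := by
      by_contra h
      linarith [(ff_ne_zero h).2]
    simp [fc, this]
  · rw [fc, Complex.norm_real, Real.norm_of_nonneg (ff_nonneg t)]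
    exact ff_le_one t

theorem l2a_inL_mul {m n : ℕ} {x y : F} (hx : InL m x) (hy : InL n y) : InL (m * n) (x * y) := by
  obtain ⟨a, ha⟩ := hx
  obtain ⟨b, hb⟩ := hy
  refine ⟨a * b, ?_⟩
  rw [show ((a * b : 𝓞 F) : F) = (a : F) * (b : F) from map_mul _ _ _, ← ha, ← hb, Nat.cast_mul]
  ring

theorem l2a_inL_one (n : ℕ) : InL n (1 : F) := ⟨n, by simp⟩

theorem l2a_inL_left {m : ℕ} (n : ℕ) {x : F} (hx : InL m x) : InL (m * n) x := by
  simpa using l2a_inL_mul hx (l2a_inL_one n)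

theorem l2a_inL_right (m : ℕ) {n : ℕ} {x : F} (hx : InL n x) : InL (m * n) x := by
  simpa using l2a_inL_mul (l2a_inL_one m) hx

theorem l2a_inL_add {m : ℕ} {x y : F} (hx : InL m x) (hy : InL m y) : InL m (x + y) := by
  obtain ⟨a, ha⟩ := hx
  obtain ⟨b, hb⟩ := hy
  refine ⟨a + b, ?_⟩
  rw [show ((a + b : 𝓞 F) : F) = (a : F) + (b : F) from map_add _ _ _, ← ha, ← hb]
  ring

theorem l2a_exists_inL (x : F) : ∃ m : ℕ, 0 < m ∧ InL m x := by
  obtain ⟨m, hm, h⟩ := ((IsFractionRing.isAlgebraic_iff ℤ ℚ F).2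
    (Algebra.IsAlgebraic.isAlgebraic (R := ℚ) x)).exists_integral_multiple
  refine ⟨m.natAbs, Int.natAbs_pos.2 hm, ?_⟩
  have h1 : IsIntegral ℤ ((m.natAbs : F) * x) := by
    rcases Int.natAbs_eq m with h' | h'
    · rw [h', zsmul_eq_mul] at h
      simpa using h
    · rw [h', zsmul_eq_mul] at h
      simpa using h.neg
  exact ⟨⟨_, h1⟩, rfl⟩

theorem l2a_exists_inL_mat (g : SL(2, F)) : ∃ m : ℕ, 0 < m ∧ ∀ i j, InL m (g i j) := by
  choose m hm h using fun p : Fin 2 × Fin 2 => l2a_exists_inL (g p.1 p.2)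
  refine ⟨∏ p, m p, Finset.prod_pos fun p _ => hm p, fun i j => ?_⟩
  rw [← Finset.mul_prod_erase _ _ (Finset.mem_univ (i, j))]
  exact l2a_inL_left _ (h (i, j))

theorem Adm.add {ω ω' : F × F → ℂ} (h : Adm ω) (h' : Adm ω') : Adm fun r => ω r + ω' r := by
  obtain ⟨B, hB⟩ := h.bdd
  obtain ⟨B', hB'⟩ := h'.bdd
  obtain ⟨m, hm, hs⟩ := h.supp
  obtain ⟨m', hm', hs'⟩ := h'.supp
  refine ⟨⟨B + B', fun r => (norm_add_le _ _).trans (add_le_add (hB r) (hB' r))⟩,
    m * m', Nat.mul_pos hm hm', fun r hr => ?_⟩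
  by_cases h0 : ω r = 0
  · have h1 : ω' r ≠ 0 := by simpa [h0] using hr
    exact ⟨l2a_inL_right m (hs' r h1).1, l2a_inL_right m (hs' r h1).2⟩
  · exact ⟨l2a_inL_left m' (hs r h0).1, l2a_inL_left m' (hs r h0).2⟩

theorem Adm.smul {ω : F × F → ℂ} (h : Adm ω) (a : ℂ) : Adm fun r => a * ω r := by
  obtain ⟨B, hB⟩ := h.bdd
  obtain ⟨m, hm, hs⟩ := h.supp
  refine ⟨⟨‖a‖ * B, fun r => ?_⟩, m, hm, fun r hr => hs r (right_ne_zero_of_mul hr)⟩
  rw [norm_mul]
  exact mul_le_mul_of_nonneg_left (hB r) (norm_nonneg _)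

theorem Adm.ite {ω : F × F → ℂ} (h : Adm ω) (p : F × F → Prop) : Adm fun r => if p r then ω r else 0 := by
  obtain ⟨B, hB⟩ := h.bdd
  obtain ⟨m, hm, hs⟩ := h.supp
  refine ⟨⟨B, fun r => ?_⟩, m, hm, fun r hr => hs r fun h0 => hr (by simp [h0])⟩
  split_ifs
  · exact hB r
  · simpa using (norm_nonneg _).trans (hB r)

theorem Adm.act {ω : F × F → ℂ} (h : Adm ω) (g : SL(2, F)) : Adm fun r => ω (rm r g) := by
  obtain ⟨B, hB⟩ := h.bdd
  obtain ⟨m, hm, hs⟩ := h.supp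
  obtain ⟨n, hn, hg⟩ := l2a_exists_inL_mat g⁻¹
  refine ⟨⟨B, fun r => hB _⟩, m * n, Nat.mul_pos hm hn, fun r hr => ?_⟩
  obtain ⟨h1, h2⟩ := hs _ hr
  have e : r = rm (rm r g) g⁻¹ := by simp only [← rm_mul, mul_inv_cancel, rm_one]
  rw [e]
  exact ⟨l2a_inL_add (l2a_inL_mul h1 (hg 0 0)) (l2a_inL_mul h2 (hg 1 0)),
    l2a_inL_add (l2a_inL_mul h1 (hg 0 1)) (l2a_inL_mul h2 (hg 1 1))⟩

section EN
variable {V : Subgroup (𝓞 F)ˣ} {η : (Pl F → ℝ) → ℝ} {ω ω' : F × F → ℂ}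

/-- L2-a.  `pou_tsum` for the group `V` with `p r = η' (lQ w r)` (`Pou.index`) and `q r = η (lQ w r)` -/
theorem EN_level (hη : Pou V η) {V' : Subgroup (𝓞 F)ˣ} [V'.FiniteIndex] {η' : (Pl F → ℝ) → ℝ} (hη' : Pou V' η')
    (hV : V' ≤ V) (hω : Adm ω)
    (hinv : ∀ u ∈ V, ∀ c d : F, ω (((u : (𝓞 F)ˣ) : 𝓞 F) * c, ((u : (𝓞 F)ˣ) : 𝓞 F) * d) = ω (c, d))
    (Y : ℝ) (w : X F) : EN η' ω Y w = (V'.relIndex V : ℂ) * EN η ω Y w := by
  have hs : Summable fun r : F × F => ‖ω r * (ff (NQ w r / Y) : ℂ)‖ * η (lQ w r) := by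
    obtain ⟨s, hs⟩ := hω.exists_rows hη Y ‖w‖
    refine summable_of_ne_finset_zero (s := s) fun r hr => ?_
    have h1 := congrArg norm (hs w le_rfl r hr)
    rw [norm_mul, norm_zero, Complex.norm_real, Real.norm_of_nonneg (pf_nonneg hη _ _ _), pf] at h1
    rw [norm_mul, Complex.norm_real, Real.norm_of_nonneg (ff_nonneg _), ← h1]
    ring
  have hne : ∀ r : F × F, ω r * (ff (NQ w r / Y) : ℂ) ≠ 0 → r ≠ 0 := by
    rintro r hr rfl
    apply hr
    simp [NQ_zero, ff]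
  have key := (pou_tsum (G := V) (Z := F × F)
    (fun u r => ((((u : (𝓞 F)ˣ) : 𝓞 F) : F) * r.1, (((u : (𝓞 F)ˣ) : 𝓞 F) : F) * r.2))
    (fun r => by simp) (fun u u' r => by simp [mul_assoc])
    (a := fun r => ω r * (ff (NQ w r / Y) : ℂ)) (p := fun r => η (lQ w r)) (q := fun r => η' (lQ w r))
    (m := 1) (n := (V'.relIndex V : ℝ)) one_pos
    (fun u r => by simp only [hinv u u.2, NQ_smul, an_unit, one_mul])
    (fun r => hη.nonneg _) (fun r => hη'.nonneg _)
    (fun r hr => by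
      simp only [lQ_smul w (unit_ne _) (hne r hr)]
      exact hη.sum _)
    (fun r hr => by
      simp only [lQ_smul w (unit_ne _) (hne r hr)]
      exact hη'.index hV _) hs).2
  have e : ∀ ζ : (Pl F → ℝ) → ℝ, ∑' r : F × F, ω r * ((ζ (lQ w r) * ff (NQ w r / Y) : ℝ) : ℂ) =
      ∑' r : F × F, ω r * (ff (NQ w r / Y) : ℂ) * (ζ (lQ w r) : ℂ) := fun ζ =>
    tsum_congr fun r => by push_cast; ring
  unfold EN
  rw [e, e]
  push_cast at key
  linear_combination (-((Y ^ (-(4 / 3) : ℝ) : ℝ) : ℂ)) * key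

/-- L2-a.  re-index `(c, d) ↦ (c, d + c x)` (`Qi_add`) -/
theorem EN_per {q : ℕ} (hω : Fc V q ω) (η : (Pl F → ℝ) → ℝ) (Y : ℝ) (z : Pl F → ℂ) (l : Pl F → ℝ) (x : Lat F q) :
    EN η ω Y (z + em (x : F), l) = EN η ω Y (z, l) := by
  obtain ⟨x, a, rfl⟩ := x
  let e : F × F ≃ F × F :=
    { toFun := fun r => (r.1, r.2 + r.1 * (q * a))
      invFun := fun r => (r.1, r.2 - r.1 * (q * a))
      left_inv := fun r => by simp
      right_inv := fun r => by simp }
  rw [EN_eq, EN_eq, ← e.tsum_eq fun r => ω r * (pf η Y (z, l) r : ℂ)]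
  congr 1
  refine tsum_congr fun r => ?_
  obtain ⟨c, d⟩ := r
  have h1 : lQ (z + em ((q : F) * a), l) (c, d) = lQ (z, l) (c, d + c * (q * a)) := by
    funext i
    simp only [lQ, Qi_add]
  have h2 : NQ (z + em ((q : F) * a), l) (c, d) = NQ (z, l) (c, d + c * (q * a)) := by
    simp only [NQ, Qi_add]
  simp only [e, Equiv.coe_fn_mk, hω.per, pf, h1, h2]

/-- L2-a.  `NQ w (0, d) = an d · exp (-∑ ℓ) ≤ Y` -/
theorem EN_zero_row {q : ℕ} (hω : Fc V q ω) (η : (Pl F → ℝ) → ℝ) (B : ℝ) :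
    ∀ᶠ Y : ℝ in atTop, ∀ w : X F, ‖w.2‖ ≤ B → EN η (fun r => if r.1 = 0 then ω r else 0) Y w = 0 := by
  obtain ⟨A, hA⟩ := hω.zero
  filter_upwards [eventually_ge_atTop (|A| * Real.exp (Fintype.card (Pl F) * B))] with Y hY w hw
  rw [EN_eq]
  refine mul_eq_zero_of_right _ ?_
  refine (tsum_congr fun r => ?_).trans tsum_zero
  obtain ⟨c, d⟩ := r
  by_cases hc : c = 0
  · subst hc
    by_cases h0 : ω (0, d) = 0
    · simp [h0]
    · have : pf η Y w (0, d) = 0 := by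
        by_contra hp
        obtain ⟨-, -, h1, -⟩ := pf_ne_zero hp
        rw [NQ_zero_left] at h1
        have h2 : -∑ i, w.2 i ≤ Fintype.card (Pl F) * B := by
          rw [← Finset.sum_neg_distrib]
          refine (Finset.sum_le_card_nsmul _ _ B fun i _ => ?_).trans (by simp)
          exact (neg_le_abs _).trans ((norm_le_pi_norm w.2 i).trans hw)
        have h3 : an d * Real.exp (-∑ i, w.2 i) ≤ |A| * Real.exp (Fintype.card (Pl F) * B) :=
          mul_le_mul ((hA d h0).trans (le_abs_self _)) (Real.exp_le_exp.2 h2) (Real.exp_pos _).le (abs_nonneg _)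
        linarith
      simp [this]
  · simp [hc]

end EN

section L2z
variable {α : Type} {l : Filter α} {u u' : α → X F → ℂ}

theorem l2b1_sq {f g : α → ENNReal} {c : ENNReal} (hc : c ≠ ⊤) (h : Tendsto g l (𝓝 0))
    (hle : ∀ a, f a ≤ c * g a) : Tendsto f l (𝓝 0) :=
  tendsto_of_tendsto_of_tendsto_of_le_of_le tendsto_const_nhds
    (by simpa using ENNReal.Tendsto.const_mul h (Or.inr hc)) (fun _ => zero_le) hle

theorem l2b1_cmp {C : Set (X F)} (hC : IsCompact C) : ∃ c : ENNReal, c ≠ ⊤ ∧ ∀ f : X F → ENNReal, Measurable f →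
    ∫⁻ w in C, f w ∂mu ≤ c * ∫⁻ w in C, f w ∧ ∫⁻ w in C, f w ≤ c * ∫⁻ w in C, f w ∂mu := by
  obtain ⟨R, hR⟩ := hC.exists_bound_of_continuousOn (f := fun w : X F => 2 * ∑ i, w.2 i)
    (Continuous.continuousOn (by fun_prop))
  refine ⟨ENNReal.ofReal (Real.exp R), ENNReal.ofReal_ne_top, fun f hf => ?_⟩
  rw [mu, setLIntegral_withDensity_eq_setLIntegral_mul _ (by fun_prop) hf hC.measurableSet,
    ← lintegral_const_mul' _ _ ENNReal.ofReal_ne_top, ← lintegral_const_mul' _ _ ENNReal.ofReal_ne_top]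
  refine ⟨setLIntegral_mono' hC.measurableSet fun w hw => ?_, setLIntegral_mono' hC.measurableSet fun w hw => ?_⟩
  · have h1 := (abs_le.1 (hR w hw)).1
    exact mul_le_mul_left (ENNReal.ofReal_le_ofReal (Real.exp_le_exp.2 (by linarith))) _
  · have h1 := (abs_le.1 (hR w hw)).2
    rw [Pi.mul_apply, ← mul_assoc, ← ENNReal.ofReal_mul (Real.exp_pos _).le, ← Real.exp_add]
    exact le_mul_of_one_le_left' (ENNReal.one_le_ofReal.2 (Real.one_le_exp (by linarith)))

/-- L2-b.  the density is bounded above and below on compact sets -/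
theorem l2z_iff : L2z l u ↔ (∀ a, Measurable (u a)) ∧
    ∀ C : Set (X F), IsCompact C → Tendsto (fun a => ∫⁻ w in C, ‖u a w‖ₑ ^ 2) l (𝓝 0) := by
  refine and_congr_right fun hm => forall₂_congr fun C hC => ?_
  obtain ⟨c, hc, h⟩ := l2b1_cmp hC
  have hf : ∀ a, Measurable fun w => ‖u a w‖ₑ ^ 2 := fun a => (hm a).enorm.pow_const 2
  exact ⟨fun ht => l2b1_sq hc ht fun a => (h _ (hf a)).2, fun ht => l2b1_sq hc ht fun a => (h _ (hf a)).1⟩

theorem L2z.add (h : L2z l u) (h' : L2z l u') : L2z l fun a w => u a w + u' a w := by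
  refine ⟨fun a => (h.1 a).add (h'.1 a), fun C hC => ?_⟩
  refine l2b1_sq (c := 2) (by simp) (by simpa using (h.2 C hC).add (h'.2 C hC)) fun a => ?_
  rw [← lintegral_add_left ((h.1 a).enorm.pow_const 2), ← lintegral_const_mul' _ _ (by simp)]
  refine lintegral_mono fun w => (pow_le_pow_left' (enorm_add_le _ _) 2).trans ?_
  have : (‖u a w‖₊ + ‖u' a w‖₊) ^ 2 ≤ 2 * (‖u a w‖₊ ^ 2 + ‖u' a w‖₊ ^ 2) := add_sq_le
  simp only [enorm_eq_nnnorm]
  exact_mod_cast this

theorem L2z.smul (h : L2z l u) (c : ℂ) : L2z l fun a w => c * u a w := by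
  refine ⟨fun a => (h.1 a).const_mul c, fun C hC => ?_⟩
  refine l2b1_sq (c := ‖c‖ₑ ^ 2) (by simp) (h.2 C hC) fun a => ?_
  rw [← lintegral_const_mul' _ _ (by simp)]
  simp only [enorm_mul, mul_pow, le_refl]

theorem L2z.sub (h : L2z l u) (h' : L2z l u') : L2z l fun a w => u a w - u' a w := by
  simpa only [neg_mul, one_mul, sub_eq_add_neg] using h.add (h'.smul (-1))

theorem l2z_zero : L2z l fun (_ : α) (_ : X F) => (0 : ℂ) := by
  exact ⟨fun _ => measurable_const, fun C _ => by simpa using tendsto_const_nhds⟩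

theorem L2z.congr (h : L2z l u) (h' : ∀ a w, u' a w = u a w) : L2z l u' := by
  rwa [show u' = u from funext₂ h']

theorem L2z.comp {β : Type} {l' : Filter β} {f : β → α} (h : L2z l u) (hf : Tendsto f l' l) :
    L2z l' fun b => u (f b) := by
  exact ⟨fun b => h.1 (f b), fun C hC => (h.2 C hC).comp hf⟩

/-- L2-b.  `act_mp`, `continuous_act` -/
theorem L2z.act (h : L2z l u) (g : SL(2, F)) : L2z l fun a w => u a (act g w) := by
  have hg := continuous_act g
  refine ⟨fun a => (h.1 a).comp hg.measurable, fun C hC => ?_⟩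
  refine l2b1_sq (c := 1) (by simp) (h.2 _ (hC.image hg)) fun a => ?_
  rw [one_mul, ← (act_mp g).setLIntegral_comp_preimage (hC.image hg).measurableSet
    ((h.1 a).enorm.pow_const 2)]
  exact lintegral_mono_set (subset_preimage_image _ _)

/-- L2-b.  Cauchy-Schwarz -/
theorem L2z.pair (h : L2z l u) {φ : X F → ℂ} (hφ : Measurable φ) {B : ℝ} (hB : ∀ w, ‖φ w‖ ≤ B)
    {C : Set (X F)} (hC : IsCompact C) (hs : ∀ w, φ w ≠ 0 → w ∈ C) :
    Tendsto (fun a => ∫ w, u a w * φ w) l (𝓝 0) := by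
  obtain ⟨hm, ht⟩ := l2z_iff.1 h
  have h1 : Tendsto (fun a => ENNReal.ofReal B * volume C ^ (1 / 2 : ℝ) *
      (∫⁻ w in C, ‖u a w‖ₑ ^ 2) ^ (1 / 2 : ℝ)) l (𝓝 0) := by
    have h2 := (ENNReal.continuous_rpow_const (y := 1 / 2)).continuousAt.tendsto.comp (ht C hC)
    rw [ENNReal.zero_rpow_of_pos (by norm_num)] at h2
    have h3 := ENNReal.Tendsto.const_mul (a := ENNReal.ofReal B * volume C ^ (1 / 2 : ℝ)) h2
      (Or.inr (ENNReal.mul_ne_top ENNReal.ofReal_ne_top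
        (ENNReal.rpow_ne_top_of_nonneg (by norm_num) hC.measure_lt_top.ne)))
    rwa [mul_zero] at h3
  rw [tendsto_zero_iff_enorm_tendsto_zero]
  refine tendsto_of_tendsto_of_tendsto_of_le_of_le tendsto_const_nhds h1 (fun _ => zero_le) fun a => ?_
  have h4 := ENNReal.lintegral_mul_le_Lp_mul_Lq (volume.restrict C) Real.HolderConjugate.two_two
    (f := fun w => ‖u a w‖ₑ) (g := fun _ => 1) (hm a).enorm.aemeasurable aemeasurable_const
  simp only [Pi.mul_apply, mul_one, one_pow, lintegral_const, Measure.restrict_apply_univ, one_mul,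
    ENNReal.rpow_ofNat] at h4
  calc ‖∫ w, u a w * φ w‖ₑ ≤ ∫⁻ w, ‖u a w * φ w‖ₑ := enorm_integral_le_lintegral_enorm _
    _ ≤ ∫⁻ w, C.indicator (fun w => ENNReal.ofReal B * ‖u a w‖ₑ) w := by
        refine lintegral_mono fun w => ?_
        by_cases h0 : φ w = 0
        · simp [h0]
        · rw [indicator_of_mem (hs w h0), enorm_mul, mul_comm, ← ofReal_norm (φ w)]
          gcongr
          exact hB w
    _ = ENNReal.ofReal B * ∫⁻ w in C, ‖u a w‖ₑ := by
        rw [lintegral_indicator hC.measurableSet, lintegral_const_mul' _ _ ENNReal.ofReal_ne_top]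
    _ ≤ _ := by
        rw [mul_assoc, mul_comm (volume C ^ _)]
        gcongr

/-- L2-b.  `Continuous.ae_eq_iff_eq` -/
theorem L2z.eq_zero [l.NeBot] {f : X F → ℂ} (hf : Continuous f) (h : L2z l fun _ => f) (w : X F) : f w = 0 := by
  have h1 := tendsto_const_nhds_iff.1 ((l2z_iff.1 h).2 _ (isCompact_closedBall w 1))
  rw [lintegral_eq_zero_iff (hf.measurable.enorm.pow_const 2)] at h1
  have h2 : f =ᵐ[volume.restrict (Metric.ball w 1)] fun _ => 0 := by
    filter_upwards [ae_restrict_of_ae_restrict_of_subset Metric.ball_subset_closedBall h1] with x hx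
    simpa using hx
  exact Measure.eqOn_open_of_ae_eq h2 Metric.isOpen_ball hf.continuousOn continuousOn_const
    (Metric.mem_ball_self one_pos)

/-- L2-b.  `δ ≤ β` on `C` -/
theorem l2z_of_weight (hm : ∀ a, Measurable (u a)) {β : X F → ℝ} (h0 : ∀ w, 0 ≤ β w)
    (hβ : ∀ C : Set (X F), IsCompact C → ∃ δ : ℝ, 0 < δ ∧ ∀ w ∈ C, δ ≤ β w) {N : α → X F → ℝ}
    (hN : ∀ a w, ‖u a w‖ ^ 2 ≤ N a w) (hi : ∀ᶠ a in l, Integrable (fun w => β w * N a w) mu)
    (ht : Tendsto (fun a => ∫ w, β w * N a w ∂mu) l (𝓝 0)) : L2z l u := by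
  refine ⟨hm, fun C hC => ?_⟩
  obtain ⟨δ, hδ, hδ'⟩ := hβ C hC
  have h1 := ENNReal.tendsto_ofReal (ht.const_mul δ⁻¹)
  rw [mul_zero, ENNReal.ofReal_zero] at h1
  refine tendsto_of_tendsto_of_tendsto_of_le_of_le' tendsto_const_nhds h1
    (Eventually.of_forall fun _ => zero_le) ?_
  filter_upwards [hi] with a ha
  have hN0 : ∀ w, 0 ≤ N a w := fun w => (sq_nonneg _).trans (hN a w)
  rw [← integral_const_mul, ofReal_integral_eq_lintegral_ofReal (ha.const_mul _)
    (Eventually.of_forall fun w => mul_nonneg (inv_nonneg.2 hδ.le) (mul_nonneg (h0 w) (hN0 w)))]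
  refine le_trans (setLIntegral_mono' hC.measurableSet fun w hw => ?_) (setLIntegral_le_lintegral C _)
  rw [← ofReal_norm, ← ENNReal.ofReal_pow (norm_nonneg _)]
  refine ENNReal.ofReal_le_ofReal ((hN a w).trans ?_)
  rw [le_inv_mul_iff₀ hδ]
  exact mul_le_mul_of_nonneg_right (hδ' w hw) (hN0 w)

end L2z

theorem l2c1_gen {α β ι : Type} [MeasurableSpace α] [MeasurableSpace β] [Countable ι] {μ : Measure α}
    {ν : Measure β} [IsFiniteMeasure μ] [IsFiniteMeasure ν] {θ : α × β → ℂ} (hθ : MemLp θ 2 (μ.prod ν))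
    (p : ι → Prop) {e : ι → α → ℂ} (he : ∀ i, Measurable (e i)) (hb : ∀ i z, ‖e i z‖ ≤ 1)
    (hu : ∀ u : α → ℂ, MemLp u 2 μ → (∀ i, p i → ∫ z, u z * e i z ∂μ = 0) → u =ᵐ[μ] 0)
    (h0 : ∀ i, p i → ∀ s : Set β, MeasurableSet s →
      ∫ w, θ w * (e i w.1 * s.indicator 1 w.2) ∂μ.prod ν = 0) : θ =ᵐ[μ.prod ν] 0 := by
  have hi : Integrable θ (μ.prod ν) := hθ.integrable one_le_two
  have hg : ∀ i, Integrable (fun w : α × β => θ w * e i w.1) (μ.prod ν) := fun i =>
    hi.mul_bdd ((he i).comp measurable_fst).aestronglyMeasurable (Eventually.of_forall fun w => hb i w.1)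
  have h1 : ∀ i, ∀ᵐ l ∂ν, p i → ∫ z, θ (z, l) * e i z ∂μ = 0 := by
    intro i
    by_cases hp : p i
    · have := (hg i).integral_prod_right.ae_eq_zero_of_forall_setIntegral_eq_zero fun s hs _ => by
        have h2 : Integrable (fun w : α × β => θ w * e i w.1 * s.indicator (1 : β → ℂ) w.2) (μ.prod ν) :=
          (hg i).mul_bdd (c := 1)
            ((measurable_one.indicator hs).comp measurable_snd).aestronglyMeasurable
            (Eventually.of_forall fun w => by by_cases hw : w.2 ∈ s <;> simp [hw])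
        have h3 := h0 i hp s hs
        simp only [← mul_assoc] at h3
        rw [integral_prod_symm _ h2] at h3
        rw [← h3, ← integral_indicator hs]
        refine integral_congr_ae (Eventually.of_forall fun l => ?_)
        by_cases hl : l ∈ s <;> simp [hl]
      filter_upwards [this] with l hl _ using hl
    · exact Eventually.of_forall fun l h => absurd h hp
  have h2 : Integrable (fun w => ‖θ w‖ ^ 2) (μ.prod ν) := (memLp_two_iff_integrable_sq_norm hθ.1).1 hθ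
  have h3 : ∀ᵐ l ∂ν, ∫ z, ‖θ (z, l)‖ ∂μ = 0 := by
    filter_upwards [ae_all_iff.2 h1, hi.prod_left_ae, h2.prod_left_ae] with l a b c
    refine integral_eq_zero_of_ae ?_
    filter_upwards [hu _ ((memLp_two_iff_integrable_sq_norm b.1).2 c) a] with z hz
    simpa using hz
  have h4 : ∫ w, ‖θ w‖ ∂μ.prod ν = 0 := by
    rw [integral_prod_symm _ hi.norm]
    exact integral_eq_zero_of_ae h3
  filter_upwards [(integral_eq_zero_iff_of_nonneg (fun w => norm_nonneg (θ w)) hi.norm).1 h4] with w hw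
  simpa using hw

/-- L2-c.  a function on `D × K` that is orthogonal to all `kn ν h` vanishes: for each `ν` the coefficient
`ℓ ↦ ∫_D θ conj (eZ ν)` vanishes a.e. (`h` = indicators of measurable subsets of `K`), `F` is countable,
`IsFD.four_uniq` for a.e. `ℓ` (Fubini). -/
theorem ae_zero_of_pair {q : ℕ} (hq : 0 < q) {D : Set (Pl F → ℂ)} (hD : IsFD q D) {K : Set (Pl F → ℝ)}
    (hK : IsCompact K) {θ : X F → ℂ} (hθ : MemLp θ 2 (volume.restrict (D ×ˢ K)))
    (h0 : ∀ ν : F, Dl q ν → ∀ s : Set (Pl F → ℝ), MeasurableSet s → s ⊆ K →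
      ∫ w in D ×ˢ K, θ w * kn ν (s.indicator 1) w = 0) : θ =ᵐ[volume.restrict (D ×ˢ K)] 0 := by
  have hm : MeasurableSet (D ×ˢ K) := hD.meas.prod hK.measurableSet
  have he : (volume : Measure (X F)).restrict (D ×ˢ K) = (volume.restrict D).prod (volume.restrict K) := by
    rw [Measure.volume_eq_prod, Measure.prod_restrict]
  have := hD.finite
  have : IsFiniteMeasure ((volume : Measure (Pl F → ℝ)).restrict K) :=
    ⟨by rw [Measure.restrict_apply_univ]; exact hK.measure_lt_top⟩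
  have h1 : ∀ ν : F, Dl q ν → ∀ s : Set (Pl F → ℝ), MeasurableSet s →
      ∫ w in D ×ˢ K, θ w * (conj (eZ ν w.1) * s.indicator 1 w.2) = 0 := by
    intro ν hν s hs
    rw [← h0 ν hν (s ∩ K) (hs.inter hK.measurableSet) inter_subset_right]
    refine setIntegral_congr_fun hm fun w hw => ?_
    by_cases hw' : w.2 ∈ s
    · simp only [kn, indicator_of_mem hw', indicator_of_mem (mem_inter hw' hw.2)]
    · simp only [kn, indicator_of_notMem hw', indicator_of_notMem fun h : w.2 ∈ s ∩ K => hw' h.1]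
  rw [he] at hθ h1 ⊢
  exact l2c1_gen hθ (Dl q) (e := fun ν z => conj (eZ ν z))
    (fun ν => (Complex.continuous_conj.comp (continuous_eZ ν)).measurable)
    (fun ν z => by rw [Complex.norm_conj, norm_eZ]) (fun u hu h => hD.four_uniq hq hu h) h1

theorem l2c_norm {Ω : Type} [MeasurableSpace Ω] (m : Measure Ω) (f : Ω → ℂ) :
    eLpNorm f 2 m = (∫⁻ w, ‖f w‖ₑ ^ 2 ∂m) ^ (1 / 2 : ℝ) := by
  rw [eLpNorm_eq_lintegral_rpow_enorm_toReal two_ne_zero ENNReal.ofNat_ne_top]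
  simp only [ENNReal.toReal_ofNat, ENNReal.rpow_ofNat]

theorem l2c_iff {Ω α : Type} [MeasurableSpace Ω] (m : Measure Ω) (l : Filter α) (f : α → Ω → ℂ) :
    Tendsto (fun a => eLpNorm (f a) 2 m) l (𝓝 0) ↔ Tendsto (fun a => ∫⁻ w, ‖f a w‖ₑ ^ 2 ∂m) l (𝓝 0) := by
  simp only [l2c_norm]
  constructor <;> intro h
  · have h1 := (ENNReal.continuous_rpow_const (y := 2)).continuousAt.tendsto.comp h
    simpa only [Function.comp_def, ← ENNReal.rpow_mul, one_div, inv_mul_cancel₀ (two_ne_zero' ℝ), ENNReal.rpow_one,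
      ENNReal.zero_rpow_of_pos (two_pos : (0 : ℝ) < 2)] using h1
  · have h1 := (ENNReal.continuous_rpow_const (y := 1 / 2)).continuousAt.tendsto.comp h
    rwa [ENNReal.zero_rpow_of_pos (by norm_num)] at h1

theorem l2c_abs {Ω : Type} [MeasurableSpace Ω] {m : Measure Ω} {u : ℝ → Ω → ℂ} (hu : ∀ Y, MemLp (u Y) 2 m)
    (hc : Tendsto (fun p : ℝ × ℝ => ∫⁻ w, ‖u p.1 w - u p.2 w‖ₑ ^ 2 ∂m) (atTop ×ˢ atTop) (𝓝 0))
    (h0 : ∀ θ : Ω → ℂ, MemLp θ 2 m → (∀ φ : Ω → ℂ, MemLp φ 2 m →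
      Tendsto (fun Y => ∫ w, u Y w * φ w ∂m) atTop (𝓝 (∫ w, θ w * φ w ∂m))) → θ =ᵐ[m] 0) :
    Tendsto (fun Y => ∫⁻ w, ‖u Y w‖ₑ ^ 2 ∂m) atTop (𝓝 0) := by
  have hcs : CauchySeq fun Y => (hu Y).toLp (u Y) := by
    rw [cauchySeq_iff_tendsto_dist_atTop_0, ← prod_atTop_atTop_eq]
    have h1 := (ENNReal.tendsto_toReal ENNReal.zero_ne_top).comp
      ((l2c_iff m _ fun p : ℝ × ℝ => u p.1 - u p.2).2 hc)
    simpa only [Function.comp_def, dist_edist, Lp.edist_toLp_toLp, ENNReal.toReal_zero] using h1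
  obtain ⟨θ, hθ⟩ := cauchySeq_tendsto_of_complete hcs
  have hz : θ = 0 := by
    refine Lp.eq_zero_iff_ae_eq_zero.2 (h0 θ (Lp.memLp θ) fun φ hφ => ?_)
    have e : ∀ g : Lp ℂ 2 m, inner ℂ (hφ.star.toLp (star φ)) g = ∫ w, g w * φ w ∂m := fun g => by
      rw [L2.inner_def]
      refine integral_congr_ae ?_
      filter_upwards [hφ.star.coeFn_toLp] with w hw
      rw [hw, RCLike.inner_apply]
      simp
    have h1 := (tendsto_const_nhds (x := hφ.star.toLp (star φ))).inner (𝕜 := ℂ) hθ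
    simp only [e] at h1
    refine h1.congr fun Y => integral_congr_ae ?_
    filter_upwards [(hu Y).coeFn_toLp] with w hw
    rw [hw]
  rw [hz, tendsto_iff_edist_tendsto_0] at hθ
  simp only [Lp.edist_toLp_zero] at hθ
  exact (l2c_iff m _ u).1 hθ

/-- L2-c.  CAUCHY AND WEAKLY NULL IS NULL.  On `D × K` the classes of `u Y` are Cauchy in `Lp ℂ 2`, the limit is
orthogonal to all `kn ν h`, `ae_zero_of_pair`; a compact set is covered by finitely many translates (`IsFD.cover`). -/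
theorem l2z_of_weak {q : ℕ} (hq : 0 < q) {D : Set (Pl F → ℂ)} (hD : IsFD q D) {u : ℝ → X F → ℂ}
    (hm : ∀ Y, Measurable (u Y)) (hb : ∀ Y (C : Set (X F)), IsCompact C → ∃ B : ℝ, ∀ w ∈ C, ‖u Y w‖ ≤ B)
    (hper : ∀ Y z l (x : Lat F q), u Y (z + em (x : F), l) = u Y (z, l))
    (hc : L2z (atTop ×ˢ atTop) fun (p : ℝ × ℝ) w => u p.1 w - u p.2 w)
    (hw : ∀ ν : F, Dl q ν → ∀ h, Tst h →
      Tendsto (fun Y => ∫ w : X F, u Y w * (D.indicator 1 w.1 * kn ν h w)) atTop (𝓝 0)) :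
    L2z atTop u := by
  refine l2z_iff.2 ⟨hm, fun C hC => ?_⟩
  set K : Set (Pl F → ℝ) := Prod.snd '' C with hKd
  have hK : IsCompact K := hC.image continuous_snd
  have hC' : IsCompact (closure D ×ˢ K) := hD.bdd.isCompact_closure.prod hK
  have hsub : D ×ˢ K ⊆ closure D ×ˢ K := prod_mono subset_closure subset_rfl
  have hmeas : MeasurableSet (D ×ˢ K) := hD.meas.prod hK.measurableSet
  have : IsFiniteMeasure (volume.restrict (D ×ˢ K)) :=
    isFiniteMeasure_restrict.2 ((measure_mono hsub).trans_lt hC'.measure_lt_top).ne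
  have h1 : Tendsto (fun Y => ∫⁻ w in D ×ˢ K, ‖u Y w‖ₑ ^ 2) atTop (𝓝 0) := by
    refine l2c_abs (fun Y => ?_) ?_ fun θ hθ hφ => ae_zero_of_pair hq hD hK hθ fun ν hν s hs hsK => ?_
    · obtain ⟨B, hB⟩ := hb Y _ hC'
      exact MemLp.of_bound (hm Y).aestronglyMeasurable B (ae_restrict_of_forall_mem hmeas fun w hw => hB w (hsub hw))
    · exact tendsto_of_tendsto_of_tendsto_of_le_of_le tendsto_const_nhds ((l2z_iff.1 hc).2 _ hC')
        (fun _ => zero_le) fun _ => lintegral_mono_set hsub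
    · have hi : ∀ l, ‖(s.indicator 1 : (Pl F → ℝ) → ℂ) l‖ ≤ 1 := fun l =>
        (norm_indicator_le_norm_self _ _).trans (by simp)
      have hsm : Measurable (s.indicator 1 : (Pl F → ℝ) → ℂ) := measurable_one.indicator hs
      obtain ⟨B, hB⟩ := hK.isBounded.exists_norm_le
      have h2 := hw ν hν (s.indicator 1) ⟨hsm, max 1 B, fun l => ⟨(hi l).trans (le_max_left _ _),
        fun hl => (hB l (hsK (mem_of_indicator_ne_zero hl))).trans (le_max_right _ _)⟩⟩
      have h3 := hφ (kn ν (s.indicator 1)) (MemLp.of_bound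
        (((Complex.continuous_conj.comp (continuous_eZ ν)).measurable.comp measurable_fst).mul
          (hsm.comp measurable_snd)).aestronglyMeasurable 1 (Eventually.of_forall fun w => by
            rw [kn, norm_mul, Complex.norm_conj, norm_eZ, one_mul]
            exact hi _))
      refine tendsto_nhds_unique h3 (h2.congr fun Y => ?_)
      rw [← integral_indicator hmeas]
      congr 1
      funext w
      by_cases hw1 : w.1 ∈ D
      · by_cases hw2 : w.2 ∈ K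
        · rw [indicator_of_mem hw1, indicator_of_mem (show w ∈ D ×ˢ K from ⟨hw1, hw2⟩), Pi.one_apply, one_mul]
        · rw [indicator_of_notMem (show w ∉ D ×ˢ K from fun h => hw2 h.2), kn,
            indicator_of_notMem fun h => hw2 (hsK h)]
          simp
      · rw [indicator_of_notMem hw1, indicator_of_notMem (show w ∉ D ×ˢ K from fun h => hw1 h.1)]
        simp
  obtain ⟨S, hS⟩ := hD.cover hq (hC.image continuous_fst).isBounded
  have h2 := tendsto_finsetSum S fun _ _ => h1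
  rw [Finset.sum_const_zero] at h2
  refine tendsto_of_tendsto_of_tendsto_of_le_of_le tendsto_const_nhds h2 (fun _ => zero_le) fun Y => ?_
  have hcov : C ⊆ ⋃ x : S, Prod.map (· + em ((x : Lat F q) : F)) id ⁻¹' (D ×ˢ K) := fun w hw => by
    obtain ⟨x, hx, hxD⟩ := hS w.1 (mem_image_of_mem _ hw)
    exact mem_iUnion.2 ⟨⟨x, hx⟩, hxD, w, hw, rfl⟩
  refine (lintegral_mono_set hcov).trans ((lintegral_iUnion_le _ _).trans (le_of_eq ?_))
  rw [tsum_fintype, ← Finset.sum_coe_sort S]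
  refine Finset.sum_congr rfl fun x _ => ?_
  have h3 := ((measurePreserving_add_right (volume : Measure (Pl F → ℂ)) (em ((x : Lat F q) : F))).prod
    (MeasurePreserving.id (volume : Measure (Pl F → ℝ)))).setLIntegral_comp_preimage_emb
      ((measurableEmbedding_addRight _).prodMap MeasurableEmbedding.id) (fun w => ‖u Y w‖ₑ ^ 2) (D ×ˢ K)
  rw [Measure.volume_eq_prod, ← h3]
  refine lintegral_congr fun w => ?_
  rw [← hper Y w.1 w.2 x]
  rfl

variable (v : Lv F) {η : (Pl F → ℝ) → ℝ} {V : Subgroup (𝓞 F)ˣ} {ω ω' : F × F → ℂ}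

theorem Adm.cut (h : Adm ω) (p : v.R) (r₀ : F × F) : Adm (cut v p r₀ ω) :=
  h.ite fun r => (r.1 * r₀.2 - r.2 * r₀.1) / (p : F) ∈ v.R

theorem L2d_adm_zero : Adm fun _ : F × F => (0 : ℂ) :=
  ⟨⟨0, fun _ => by simp⟩, ⟨1, one_pos, fun _ h => absurd rfl h⟩⟩

theorem L2d_EN_zero (η : (Pl F → ℝ) → ℝ) (Y : ℝ) (w : X F) : EN η (fun _ => 0) Y w = 0 := by
  simp [EN]

theorem good_zero (η : (Pl F → ℝ) → ℝ) : Good v η fun _ => 0 := by
  refine ⟨L2d_adm_zero, l2z_zero.congr fun a w => by simp [L2d_EN_zero], fun p _ r₀ _ => ?_⟩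
  have e : cut v p r₀ (fun _ => (0 : ℂ)) = fun _ => 0 := by
    funext r; simp [cut]
  exact l2z_zero.congr fun a w => by simp [e, L2d_EN_zero]

theorem Good.add (hη : Pou V η) (h : Good v η ω) (h' : Good v η ω') : Good v η fun r => ω r + ω' r := by
  refine ⟨h.adm.add h'.adm, (L2z.add h.cau h'.cau).congr fun a w => ?_, fun p hp r₀ hr => ?_⟩
  · rw [EN_add hη h.adm h'.adm, EN_add hη h.adm h'.adm]; ring
  · have e : cut v p r₀ (fun r => ω r + ω' r) = fun r => cut v p r₀ ω r + cut v p r₀ ω' r := by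
      funext r; unfold cut; split_ifs <;> simp
    refine ((h.van p hp r₀ hr).add (h'.van p hp r₀ hr)).congr fun a w => ?_
    rw [e, EN_add hη (h.adm.cut v p r₀) (h'.adm.cut v p r₀), EN_add hη h.adm h'.adm]; ring

theorem Good.smul (h : Good v η ω) (a : ℂ) : Good v η fun r => a * ω r := by
  refine ⟨h.adm.smul a, (L2z.smul h.cau a).congr fun b w => ?_, fun p hp r₀ hr => ?_⟩
  · rw [EN_smul, EN_smul]; ring
  · have e : cut v p r₀ (fun r => a * ω r) = fun r => a * cut v p r₀ ω r := by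
      funext r; unfold cut; split_ifs <;> simp
    refine ((h.van p hp r₀ hr).smul a).congr fun b w => ?_
    rw [e, EN_smul, EN_smul]; ring

theorem Good.sum (hη : Pou V η) {ι : Type} (s : Finset ι) {f : ι → F × F → ℂ} (h : ∀ i ∈ s, Good v η (f i)) :
    Good v η fun r => ∑ i ∈ s, f i r := by
  induction s using Finset.induction_on with
  | empty => simpa using good_zero v η
  | insert i s hi ih =>
    simp only [Finset.sum_insert hi]
    exact Good.add v hη (h i (Finset.mem_insert_self _ _)) (ih fun j hj => h j (Finset.mem_insert_of_mem hj))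

theorem Row.rm {r : F × F} (h : Row v r) {g : SL(2, F)} (hg : InR v g) : Row v (rm r g) := by
  obtain ⟨c, d, ⟨a, b, hab⟩, rfl⟩ := h
  have hdet : g 0 0 * g 1 1 - g 0 1 * g 1 0 = 1 := by
    have := g.det_coe; rwa [Matrix.det_fin_two] at this
  have hab' : (a : F) * c + b * d = 1 := by exact_mod_cast congrArg (fun x : v.R => (x : F)) hab
  refine ⟨c * ⟨_, hg 0 0⟩ + d * ⟨_, hg 1 0⟩, c * ⟨_, hg 0 1⟩ + d * ⟨_, hg 1 1⟩,
    ⟨a * ⟨_, hg 1 1⟩ - b * ⟨_, hg 0 1⟩, b * ⟨_, hg 0 0⟩ - a * ⟨_, hg 1 0⟩, ?_⟩, ?_⟩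
  · apply Subtype.ext
    push_cast
    linear_combination ((a : F) * c + b * d) * hdet + hab'
  · simp [TH.rm]

theorem InR.inv {g : SL(2, F)} (hg : InR v g) : InR v g⁻¹ := by
  intro i j
  rw [Matrix.SpecialLinearGroup.SL2_inv_expl]
  fin_cases i <;> fin_cases j
  · exact hg 1 1
  · exact v.R.neg_mem (hg 0 1)
  · exact v.R.neg_mem (hg 1 0)
  · exact hg 0 0

theorem InR.mul {g h : SL(2, F)} (hg : InR v g) (hh : InR v h) : InR v (g * h) := by
  intro i j
  have : (g * h) i j = ∑ k, g i k * h k j := by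
    rw [Matrix.SpecialLinearGroup.coe_mul, Matrix.mul_apply]
  rw [this]
  exact v.R.sum_mem fun k _ => v.R.mul_mem (hg i k) (hh k j)

/-- L2-d.  `EN_act`, `L2z.act`, `rm_det` -/
theorem Good.act (h : Good v η ω) {g : SL(2, F)} (hg : InR v g) : Good v η fun r => ω (rm r g⁻¹) := by
  refine ⟨h.adm.act g⁻¹, (L2z.act h.cau g).congr fun a w => ?_, fun p hp r₀ hr => ?_⟩
  · rw [EN_act, EN_act]
  · have e : cut v p r₀ (fun r => ω (rm r g⁻¹)) = fun r => cut v p (rm r₀ g⁻¹) ω (rm r g⁻¹) := by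
      funext r; unfold cut; rw [rm_det]
    refine ((h.van p hp _ (Row.rm v hr (InR.inv v hg))).act g).congr fun a w => ?_
    rw [e, EN_act, EN_act]

theorem l2a2_unit_mem (u : (𝓞 F)ˣ) (x : F) : ((u : 𝓞 F) : F) * x ∈ v.R ↔ x ∈ v.R := by
  refine ⟨fun h => ?_, fun h => mul_mem (v.coe_mem_R _) h⟩
  have h1 := mul_mem (v.coe_mem_R ((u⁻¹ : (𝓞 F)ˣ) : 𝓞 F)) h
  rwa [← mul_assoc, ← map_mul, Units.inv_mul, map_one, one_mul] at h1

theorem l2a2_cut_inv
    (hinv : ∀ u ∈ V, ∀ c d : F, ω (((u : (𝓞 F)ˣ) : 𝓞 F) * c, ((u : (𝓞 F)ˣ) : 𝓞 F) * d) = ω (c, d))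
    (p : v.R) (r₀ : F × F) : ∀ u ∈ V, ∀ c d : F,
      cut v p r₀ ω (((u : (𝓞 F)ˣ) : 𝓞 F) * c, ((u : (𝓞 F)ˣ) : 𝓞 F) * d) = cut v p r₀ ω (c, d) := by
  intro u hu c d
  have e : (((u : 𝓞 F) : F) * c * r₀.2 - ((u : 𝓞 F) : F) * d * r₀.1) / (p : F) =
      ((u : 𝓞 F) : F) * ((c * r₀.2 - d * r₀.1) / (p : F)) := by ring
  simp only [cut, hinv u hu, e, l2a2_unit_mem]

/-- L2-d.  `EN_level`; the cut of an invariant weight is invariant; `Subgroup.relIndex_ne_zero` -/
theorem Good.level (hη : Pou V η) {V' : Subgroup (𝓞 F)ˣ} [V'.FiniteIndex] {η' : (Pl F → ℝ) → ℝ} (hη' : Pou V' η')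
    (hV : V' ≤ V)
    (hinv : ∀ u ∈ V, ∀ c d : F, ω (((u : (𝓞 F)ˣ) : 𝓞 F) * c, ((u : (𝓞 F)ˣ) : 𝓞 F) * d) = ω (c, d)) :
    Good v η ω ↔ Good v η' ω := by
  have hn : (V'.relIndex V : ℂ) ≠ 0 := by
    exact_mod_cast ne_zero_of_dvd_ne_zero Subgroup.FiniteIndex.index_ne_zero (Subgroup.relIndex_dvd_index_of_le hV)
  constructor
  · intro h
    refine ⟨h.adm, (h.cau.smul (V'.relIndex V : ℂ)).congr fun a w => ?_, fun p hp r₀ hr =>
      ((h.van p hp r₀ hr).smul (V'.relIndex V : ℂ)).congr fun a w => ?_⟩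
    · rw [EN_level hη hη' hV h.adm hinv, EN_level hη hη' hV h.adm hinv]
      ring
    · rw [EN_level hη hη' hV h.adm hinv, EN_level hη hη' hV (h.adm.cut v p r₀) (l2a2_cut_inv v hinv p r₀)]
      ring
  · intro h
    refine ⟨h.adm, (h.cau.smul (V'.relIndex V : ℂ)⁻¹).congr fun a w => ?_, fun p hp r₀ hr =>
      ((h.van p hp r₀ hr).smul (V'.relIndex V : ℂ)⁻¹).congr fun a w => ?_⟩
    · rw [EN_level hη hη' hV h.adm hinv, EN_level hη hη' hV h.adm hinv]
      field_simp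
    · rw [EN_level hη hη' hV h.adm hinv, EN_level hη hη' hV (h.adm.cut v p r₀) (l2a2_cut_inv v hinv p r₀)]
      field_simp

theorem Fc.cut {q : ℕ} (h : Fc V q ω) (p : v.R) : Fc V q (cut v p (0, 1) ω) := by
  refine ⟨h.adm.cut v p _, l2a2_cut_inv v h.inv p _, fun c d a => ?_, ?_⟩
  · simp only [TH.cut, h.per, mul_zero]
  · obtain ⟨B, hB⟩ := h.zero
    refine ⟨B, fun d hd => hB d fun h0 => hd ?_⟩
    simp only [TH.cut, h0, ite_self]

theorem Fc.mono {q : ℕ} (h : Fc V q ω) {V' : Subgroup (𝓞 F)ˣ} (hV : V' ≤ V) : Fc V' q ω := by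
  exact ⟨h.adm, fun u hu => h.inv u (hV hu), h.per, h.zero⟩

end Crest.Agent.R27.TH
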