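import Crest.Agent.R27.TH.Lvl
import Crest.Agent.R27.TH.L2
import Crest.Agent.R27.TH.GramA

/-! Row 27, THETA, block ARI (owner helper6): the Kubota cocycle. -/

set_option autoImplicit false
set_option linter.unusedSectionVars false

namespace Crest.Agent.R27.TH

open Crest.NumberTheoryR.EisensteinField Crest.Agent.R27.G Filter Set
open Crest.Agent.R27.Ab (cb)
open scoped NumberField ComplexConjugate Classical MatrixGroups

variable {F : Type} [Field F] [NumberField F] [Algebra K3 F] {v : Lv F} [Md v]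

theorem exists_cop {R : Type} [CommRing R] [IsDomain R] [IsPrincipalIdealRing R] {c C D : R} (hc : c ≠ 0)
    (h : IsCoprime C D) : ∃ t, IsCoprime c (C - D * t) := by
  obtain ⟨t, h1, h2⟩ : ∃ t, IsCoprime t C ∧ ∀ p, Prime p → p ∣ c → p ∣ C ∨ p ∣ t := by
    induction c using UniqueFactorizationMonoid.induction_on_prime with
    | h₁ => exact absurd rfl hc
    | h₂ x hx => exact ⟨1, isCoprime_one_left, fun p hp hd => absurd (isUnit_of_dvd_unit hd hx) hp.not_isUnit⟩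
    | h₃ a q ha hq ih =>
      obtain ⟨t, h1, h2⟩ := ih ha
      by_cases hd : q ∣ C
      · exact ⟨t, h1, fun p hp h => (hp.dvd_or_dvd h).elim (fun e => Or.inl (e.trans hd)) (h2 p hp)⟩
      · exact ⟨q * t, (hq.irreducible.coprime_iff_not_dvd.2 hd).mul_left h1, fun p hp h => (hp.dvd_or_dvd h).elim
          (fun e => Or.inr (e.mul_right t)) fun e => (h2 p hp e).imp id fun e => e.mul_left q⟩
  refine ⟨t, isCoprime_of_prime_dvd (fun e => hc e.1) fun p hp h3 h4 => ?_⟩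
  have h5 : p ∣ C := (h2 p hp h3).elim id fun e => by simpa using dvd_add h4 (e.mul_left D)
  exact (hp.dvd_or_dvd ((dvd_sub_right h5).1 h4)).elim (fun e => hp.not_isUnit (h.isUnit_of_dvd' h5 e))
    fun e => hp.not_isUnit (h1.isUnit_of_dvd' e h5)

theorem cb_shift {c c₁ d : v.R} (h : d ∣ c₁ - c) (hU : v.U ((c₁ : F) / c)) : cb d c₁ = cb d c := by
  have h1 : c₁ ≠ 0 := fun e => v.U_ne_zero hU (by simp [e])
  have h0 : c ≠ 0 := fun e => v.U_ne_zero hU (by simp [e])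
  rcases eq_or_ne d 0 with rfl | hd
  · rw [sub_eq_zero.1 (zero_dvd_iff.1 h)]
  · rw [cb_recip' hd h1, cb_recip' hd h0, hil_congr_right _ hU, Ab.cb_congr h]

theorem tri0 {c d A B C D c' d' : v.R} (hdet : A * D - B * C = 1) (e : c' = c * A + d * C) (e' : d' = c * B + d * D)
    (hc : c ≠ 0) (hC : C ≠ 0) (hc' : c' ≠ 0) (h : IsCoprime c C) :
    cb d' c' = cb d c * cb D C * (hil v c c' * hil v c' C * hil v C c) := by
  have h1 : cb c' c = cb d c * cb C c := by rw [← Ab.cb_mul_left]; exact Ab.cb_congr ⟨A, by rw [e]; ring⟩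
  have h2 : cb c c' = cb d' c' * cb C c' := by
    rw [← Ab.cb_mul_left, ← Ab.cb_neg_left (d' * C)]
    exact Ab.cb_congr ⟨D, by rw [e, e']; linear_combination -c * hdet⟩
  have h3 : cb c' C = cb c C * cb A C := by rw [← Ab.cb_mul_left]; exact Ab.cb_congr ⟨d, by rw [e]; ring⟩
  have h4 : cb A C * cb D C = 1 := by
    rw [← Ab.cb_mul_left, ← Ab.cb_one_left hC]; exact Ab.cb_congr ⟨B, by linear_combination hdet⟩
  rw [cb_recip' hc' hc, h2, cb_recip' hC hc, cb_recip' hC hc', h3] at h1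
  have h5 : hil v c' c * hil v C c' * cb d' c' * cb A C = cb d c * hil v C c :=
    mul_right_cancel₀ (Ab.cb_ne_zero.2 ⟨hC, h⟩) (by linear_combination h1)
  calc cb d' c' = (hil v c c' * hil v c' c) * (hil v c' C * hil v C c') * (cb A C * cb D C) * cb d' c' := by
        rw [hil_mul_swap, hil_mul_swap, h4]; ring
    _ = (hil v c' c * hil v C c' * cb d' c' * cb A C) * cb D C * hil v c c' * hil v c' C := by ring
    _ = _ := by rw [h5]; ring

/-- THE TRIANGLE IDENTITY -/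
theorem tri {c d A B C D c' d' : v.R} (hdet : A * D - B * C = 1) (e : c' = c * A + d * C) (e' : d' = c * B + d * D)
    (hc : c ≠ 0) (hC : C ≠ 0) (hc' : c' ≠ 0) :
    cb d' c' = cb d c * cb D C * (hil v c c' * hil v c' C * hil v C c) := by
  obtain ⟨t₀, h0⟩ := exists_cop (C := C) (D := D) hc ⟨-B, A, by linear_combination hdet⟩
  obtain ⟨i, hi⟩ := exists_DK v ((D : F) / C)
  obtain ⟨j, hj⟩ := exists_DK v ((d' : F) / c')
  obtain ⟨t, ⟨s, hs⟩, ht⟩ := approxL (i + j + 1) 0 hc t₀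
  rw [sub_zero] at ht
  have u : ∀ {x y : v.R}, x ≠ 0 → DK v (i + j) ((y : F) / x) → v.U (((x - y * t : v.R) : F) / x) := fun {x y} hx h => by
    have := v.clsd_ne hx
    rw [← UK_one_iff, UK, show ((x - y * t : v.R) : F) / x - 1 = -(t * (y / x)) by push_cast; field_simp; ring]
    exact (ht.mul_DK h).neg
  have u1 := u hC (hi.mono (by omega))
  have u2 := u hc' (hj.mono (by omega))
  have h := tri0 (c := c) (d := d) (A := A - B * t) (B := B) (C := C - D * t) (D := D) (c' := c' - d' * t)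
    (by linear_combination hdet) (by rw [e, e']; ring) e' hc (fun e => v.U_ne_zero u1 (by simp [e]))
    (fun e => v.U_ne_zero u2 (by simp [e])) (by
      rw [show C - D * t = C - D * t₀ + c * -(D * s) by linear_combination -D * hs]
      exact h0.add_mul_left_right _)
  rwa [cb_shift ⟨-t, by ring⟩ u1, cb_shift ⟨-t, by ring⟩ u2, hil_congr_right _ u2, hil_congr_left u2,
    hil_congr_right _ u1, hil_congr_left u1] at h

theorem InR.ex {g : SL(2, F)} (hg : InR v g) : ∃ A B C D : v.R, A * D - B * C = 1 ∧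
    g 0 0 = A ∧ g 0 1 = B ∧ g 1 0 = C ∧ g 1 1 = D :=
  ⟨⟨_, hg 0 0⟩, ⟨_, hg 0 1⟩, ⟨_, hg 1 0⟩, ⟨_, hg 1 1⟩,
    Subtype.ext ((Matrix.det_fin_two _).symm.trans g.det_coe), rfl, rfl, rfl, rfl⟩

theorem ne_of_coe {c : v.R} (h : (c : F) ≠ 0) : c ≠ 0 := fun e => h (by rw [e]; rfl)

theorem cbF_rm {c d : v.R} {g : SL(2, F)} (hg : InR v g) (hc : c ≠ 0) (hC : g 1 0 ≠ 0)
    (hc' : (rm ((c : F), (d : F)) g).1 ≠ 0) :
    cbF v (rm ((c : F), (d : F)) g).2 (rm ((c : F), (d : F)) g).1 = cbF v d c * cbF v (g 1 1) (g 1 0) *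
      (hil v c (rm ((c : F), (d : F)) g).1 * hil v (rm ((c : F), (d : F)) g).1 (g 1 0) * hil v (g 1 0) c) := by
  obtain ⟨A, B, C, D, hdet, hA, hB, hC', hD⟩ := hg.ex
  simp only [rm, hA, hB, hC', hD] at *
  have := tri (c := c) (d := d) hdet rfl rfl hc (ne_of_coe hC) (ne_of_coe (by simpa using hc'))
  simpa only [← cbF_eq, MulMemClass.coe_mul, AddMemClass.coe_add] using this

/-! ### the symbol on `F` -/

theorem InR.mem_iff {g : SL(2, F)} (hg : InR v g) (r : F × F) :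
    (rm r g).1 ∈ v.R ∧ (rm r g).2 ∈ v.R ↔ r.1 ∈ v.R ∧ r.2 ∈ v.R := by
  have h : ∀ {g : SL(2, F)} {r : F × F}, InR v g → r.1 ∈ v.R ∧ r.2 ∈ v.R → (rm r g).1 ∈ v.R ∧ (rm r g).2 ∈ v.R :=
    fun hg h => ⟨add_mem (mul_mem h.1 (hg 0 0)) (mul_mem h.2 (hg 1 0)),
      add_mem (mul_mem h.1 (hg 0 1)) (mul_mem h.2 (hg 1 1))⟩
  exact ⟨fun e => by simpa only [← rm_mul, mul_inv_cancel, rm_one] using h hg.inv e, h hg⟩

theorem cbF_mem {x y : F} (h : cbF v x y ≠ 0) : x ∈ v.R ∧ y ∈ v.R := by_contra fun e => h (cbF_eq_zero e)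

@[simp] theorem cbF_zero_right (x : F) : cbF v x 0 = 0 := by_contra fun h => (cbF_ne_zero.1 h).1 rfl

theorem cbF_zero_left {d : F} (h : cbF v 0 d ≠ 0) : ∃ u : v.R, IsUnit u ∧ d = u := by
  obtain ⟨-, c, u, hc, e⟩ := cbF_ne_zero.1 h
  obtain ⟨e1, rfl⟩ := Prod.ext_iff.1 e
  obtain rfl : c = 0 := Subtype.ext e1.symm
  exact ⟨u, isCoprime_zero_left.1 hc, rfl⟩

theorem cbF_smul {k : ℕ} (hk : 1 ≤ k) {u : (𝓞 F)ˣ} (hu : u ∈ VK v k) (x y : F) :
    cbF v (((u : 𝓞 F) : F) * x) (((u : 𝓞 F) : F) * y) = cbF v x y := by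
  by_cases h : x ∈ v.R ∧ y ∈ v.R
  · lift x to v.R using h.1
    lift y to v.R using h.2
    rcases eq_or_ne y 0 with rfl | hy
    · simp
    have hu' : IsUnit (v.up u) := u.isUnit.map _
    have := Ab.cb_mul_right (v.up u * x) (v.up u) y
    rw [Ab.cb_unit_right _ hu', one_mul, Ab.cb_mul_left _ x y, cb_unit hu' hy, v.coe_up, hil_U ((mem_VK.1 hu).U hk),
      one_mul, ← cbF_eq, ← cbF_eq] at this
    exact this
  · rw [cbF_eq_zero h, cbF_eq_zero (by rwa [l2a2_unit_mem, l2a2_unit_mem])]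

/-! ### the base weight -/

theorem bw_eq {k : ℕ} (r : F × F) : bw v k r = if LK v k r.1 ∧ UK v k r.2 then cbF v r.1 r.2 else 0 := by
  by_cases h : cbF v r.1 r.2 = 0
  · simp [bw, h]
  refine if_congr ⟨?_, fun ⟨h1, h2⟩ => ?_⟩ rfl rfl
  · rintro ⟨c, d, rfl, h1, h2⟩
    exact ⟨LK_coe h1, UK_coe_iff.2 h2⟩
  · obtain ⟨c, hc⟩ := v.inter (cbF_mem h).1 h1.mem_L
    obtain ⟨d, hd, h3⟩ := h2.inter (cbF_mem h).2
    exact ⟨c, d, Prod.ext hc hd, LK_coe_iff.1 (hc ▸ h1), h3⟩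

theorem bw_ne' {k : ℕ} {r : F × F} (h : bw v k r ≠ 0) : LK v k r.1 ∧ UK v k r.2 ∧ cbF v r.1 r.2 ≠ 0 := by
  rw [bw_eq] at h
  split_ifs at h with e
  · exact ⟨e.1, e.2, h⟩
  · exact absurd rfl h

theorem mem_Lat_iff {k : ℕ} {x : F} : x ∈ Lat F (v.M ^ k) ↔ x ∈ v.R ∧ LK v k x := by
  constructor
  · rintro ⟨a, rfl⟩
    exact ⟨mul_mem (natCast_mem _ _) (v.coe_mem_R a), a, v.coe_mem_L a, by rw [Nat.cast_pow]⟩
  · rintro ⟨h1, h2⟩
    obtain ⟨a, ha⟩ := h2.inter h1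
    exact ⟨a, by rw [ha, Nat.cast_pow]⟩

theorem mem_Gam {k : ℕ} {g : SL(2, F)} : g ∈ Gam F (v.M ^ k) ↔
    InR v g ∧ UK v k (g 0 0) ∧ LK v k (g 0 1) ∧ LK v k (g 1 0) ∧ UK v k (g 1 1) := by
  constructor
  · rintro ⟨h1, h2, h3, h4⟩
    rw [mem_Lat_iff] at h1 h2 h3 h4
    refine ⟨fun i j => ?_, h1.2, h2.2, h3.2, h4.2⟩
    fin_cases i <;> fin_cases j
    exacts [by simpa using add_mem h1.1 (one_mem _), h2.1, h3.1, by simpa using add_mem h4.1 (one_mem _)]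
  · rintro ⟨h, h1, h2, h3, h4⟩
    exact ⟨mem_Lat_iff.2 ⟨sub_mem (h 0 0) (one_mem _), h1⟩, mem_Lat_iff.2 ⟨h 0 1, h2⟩, mem_Lat_iff.2 ⟨h 1 0, h3⟩,
      mem_Lat_iff.2 ⟨sub_mem (h 1 1) (one_mem _), h4⟩⟩

theorem box_rm {k : ℕ} {g : SL(2, F)} (hg : g ∈ Gam F (v.M ^ k)) (r : F × F) :
    LK v k (rm r g).1 ∧ UK v k (rm r g).2 ↔ LK v k r.1 ∧ UK v k r.2 := by
  have h : ∀ {g : SL(2, F)} {r : F × F}, g ∈ Gam F (v.M ^ k) → LK v k r.1 ∧ UK v k r.2 →
      LK v k (rm r g).1 ∧ UK v k (rm r g).2 := fun hg h => by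
    obtain ⟨-, h1, h2, h3, h4⟩ := mem_Gam.1 hg
    exact ⟨(h.1.mul_L h1.mem_L).add (h3.L_mul h.2.mem_L),
      by simpa only [rm, add_comm] using (h.2.mul h4).add_LK (h2.L_mul h.1.mem_L)⟩
  exact ⟨fun e => by simpa only [← rm_mul, mul_inv_cancel, rm_one] using h (inv_mem hg) e, h hg⟩

theorem coc_R {c d A B C D : v.R} (hdet : A * D - B * C = 1) (hA : v.U A) (hD : v.U D) (hd : v.U d)
    (hd' : v.U (c * B + d * D : v.R)) : cb (c * A + d * C) (c * B + d * D) = cb c d * cb C D := by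
  rcases eq_or_ne B 0 with rfl | hB
  · have h : A * D = 1 := by simpa using hdet
    have h1 := Ab.cb_congr (u := c * A + d * C) (v := c * A) (n := d) ⟨C, by ring⟩
    rw [mul_zero, zero_add, Ab.cb_mul_right, Ab.cb_unit_right _ (.of_mul_eq_one_right A h),
      Ab.cb_unit_right _ (.of_mul_eq_one_right A h), h1, Ab.cb_mul_left,
      cb_unit (.of_mul_eq_one D h) (v.clsd_U_ne hd), hil_U hA, mul_one]
  · have hdet' : D * A - C * B = 1 := by linear_combination hdet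
    rw [tri (c := d) (d := c) hdet' (by ring) (by ring) (v.clsd_U_ne hd) hB (v.clsd_U_ne hd'),
      tri (c := 1) (d := 0) (c' := D) (d' := C) hdet' (by ring) (by ring) one_ne_zero hB (v.clsd_U_ne hD),
      hil_U hd, hil_U hd', hil_U_right _ hd, hil_U hD]
    simp

theorem bw_rm {k : ℕ} (hk : 1 ≤ k) {g : SL(2, F)} (hg : g ∈ Gam F (v.M ^ k)) (r : F × F) :
    bw v k (rm r g) = bw v k r * cbF v (g 1 0) (g 1 1) := by
  rw [bw_eq, bw_eq, if_congr (box_rm hg r) rfl rfl]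
  split_ifs with h
  · have h' := ((box_rm hg r).2 h).2.U hk
    obtain ⟨hR, h1, -, -, h4⟩ := mem_Gam.1 hg
    by_cases e : r.1 ∈ v.R ∧ r.2 ∈ v.R
    · obtain ⟨A, B, C, D, hdet, hA, hB, hC, hD⟩ := hR.ex
      obtain ⟨c, d⟩ := r
      lift c to v.R using e.1
      lift d to v.R using e.2
      simp only [rm, hA, hB, hC, hD] at *
      have := coc_R (c := c) hdet (h1.U hk) (h4.U hk) (h.2.U hk) (by simpa using h')
      simpa only [← cbF_eq, MulMemClass.coe_mul, AddMemClass.coe_add] using this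
    · rw [cbF_eq_zero e, cbF_eq_zero fun e' => e ((hR.mem_iff r).1 e'), zero_mul]
  · rw [zero_mul]

theorem bw_e (k : ℕ) : bw v k (0, 1) = 1 := by
  rw [bw_eq, if_pos ⟨LK.zero, UK_one⟩]
  exact (cbF_eq (0 : v.R) 1).trans (Ab.cb_one_right 0)

theorem norm_bw_le (k : ℕ) (r : F × F) : ‖bw v k r‖ ≤ 1 := by
  rw [bw_eq]
  split_ifs
  exacts [norm_cbF_le _ _, by simp]

theorem adm_bw (k : ℕ) : Adm (bw v k) := ⟨⟨1, norm_bw_le k⟩, 1, one_pos, fun r h => by
  obtain ⟨h1, h2, h3⟩ := bw_ne' h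
  obtain ⟨a, ha⟩ := v.inter (cbF_mem h3).1 h1.mem_L
  obtain ⟨b, hb⟩ := v.inter (cbF_mem h3).2 h2.mem_L
  exact ⟨⟨a, by simpa using ha⟩, b, by simpa using hb⟩⟩

/-- the matrix with given entries -/
def mkSL (a b c d : F) (h : a * d - b * c = 1) : SL(2, F) := ⟨!![a, b; c, d], by rwa [Matrix.det_fin_two_of]⟩

theorem inR_mkSL {a b c d : v.R} (h : (a : F) * d - b * c = 1) : InR v (mkSL (a : F) b c d h) := fun i j => by
  fin_cases i <;> fin_cases j
  exacts [a.2, b.2, c.2, d.2]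

theorem kub_bw {k : ℕ} (hk : 1 ≤ k) : Kub (v.M ^ k) (bw v k) where
  adm := adm_bw k
  row r h := by
    obtain ⟨h1, h2, h3⟩ := bw_ne' h
    obtain ⟨h0, c, d, ⟨b, a, hab⟩, e⟩ := cbF_ne_zero.1 h3
    obtain rfl : r = ((c : F), (d : F)) := e
    obtain ⟨t, -, ht⟩ := approxL (v := v) k ((b : F) / d) one_ne_zero 0
    have hab' : (b : F) * c + a * d = 1 := congrArg Subtype.val hab
    have hdet : ((a + t * c : v.R) : F) * d - (t * d - b : v.R) * c = 1 := by push_cast; linear_combination hab'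
    have h4 : LK v k ((t * d - b : v.R) : F) := by
      rw [show ((t * d - b : v.R) : F) = (t - b / d) * d by push_cast; field_simp]
      exact ht.mul_L h2.mem_L
    refine ⟨mkSL _ _ _ _ hdet, mem_Gam.2 ⟨inR_mkSL hdet, ?_, h4, h1, h2⟩, rm_e _⟩
    show UK v k ((a + t * c : v.R) : F)
    rw [show ((a + t * c : v.R) : F) = (1 + (t * d - b : v.R) * c) / d by rw [eq_div_iff h0]; linear_combination hdet]
    exact (UK_one.add_LK (h4.mul_L h1.mem_L)).div hk h2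
  coc g hg r := by rw [bw_rm hk hg, bw_rm hk hg, bw_e, one_mul]
  nrm g hg := by
    obtain ⟨hR, -, -, -, h4⟩ := mem_Gam.1 hg
    obtain ⟨A, B, C, D, hdet, -, -, hC, hD⟩ := hR.ex
    rw [bw_rm hk hg, bw_e, one_mul, hC, hD, cbF_eq]
    exact Ab.norm_cb (ne_of_coe (hD ▸ h4.ne_zero hk)) ⟨-B, A, by linear_combination hdet⟩

theorem fc_bw {k : ℕ} (hk : 1 ≤ k) : Fc (VK v k) (v.M ^ k) (bw v k) where
  adm := adm_bw k
  inv u hu c d := by
    have h := mem_VK.1 hu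
    have h0 := h.ne_zero hk
    rw [bw_eq, bw_eq, cbF_smul hk hu]
    refine if_congr (and_congr ⟨fun e => ?_, fun e => e.L_mul h.mem_L⟩ ⟨fun e => ?_, h.mul⟩) rfl rfl
    · simpa [h0] using e.L_mul (h.inv_mem_L hk)
    · simpa [h0] using (h.inv hk).mul e
  per c d a := by
    have := (kub_bw (v := v) hk).coc _ (nn_mem ⟨a, rfl⟩) (c, d)
    rwa [rm_nn, rm_nn, zero_mul, add_zero, bw_e, mul_one] at this
  zero := ⟨1, fun d h => by
    obtain ⟨-, h2, h3⟩ := bw_ne' h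
    obtain ⟨u, hu, rfl⟩ := cbF_zero_left h3
    rw [← ns_unit hu, ns_UK hk (y := 1) (by simpa using h2), ns_one]⟩

theorem std_bw {k : ℕ} (hk : 1 ≤ k) : Std v k (bw v k) where
  bdd := ⟨1, norm_bw_le k⟩
  supp r h := by
    obtain ⟨h1, h2, h3⟩ := bw_ne' h
    exact ⟨(cbF_mem h3).1, (cbF_mem h3).2, DK_of_L h1.mem_L, DK_of_L h2.mem_L⟩
  zero := (fc_bw hk).zero
  inv0 u hu d := by simpa using (fc_bw hk).inv u (VK_mono (by omega) hu) 0 d
  form := by
    refine ⟨fun x y => if LK v k x ∧ UK v k y then 1 else 0, ⟨1, fun x y => by dsimp only; split_ifs <;> simp⟩,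
      fun x y h => ?_, fun x x' y y' h h' => ?_, fun c d hc => ?_⟩
    · have : LK v k x ∧ UK v k y := by_contra fun e => h (if_neg e)
      exact ⟨DK_of_L this.1.mem_L, DK_of_L this.2.mem_L⟩
    · refine if_congr (and_congr ⟨fun e => ?_, fun e => ?_⟩ ⟨fun e => ?_, fun e => ?_⟩) rfl rfl
      · simpa [mul_div_cancel₀ _ (h.ne_left hk)] using e.mul_L (h.symm hk).mem_L
      · simpa [mul_div_cancel₀ _ (h.ne_right hk)] using e.mul_L h.mem_L
      · simpa using e.add_LK h'.neg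
      · simpa using e.add_LK h'
    · rw [bw_eq]
      dsimp only
      split_ifs with e
      · rw [cbF_recip hc (e.2.ne_zero hk), hil_U_right _ (e.2.U hk), one_mul, mul_one]
      · rw [mul_zero]

end Crest.Agent.R27.TH
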