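import Crest.Agent.R27.TH.L2

/-! Row 27, THETA, block CONV (owner helper14): kernels, smooth sums, the symmetric convolution argument. -/

set_option autoImplicit false

namespace Crest.Agent.R27.TH

open Crest.Agent.R17 (sgK sg EntBdd gth)
open Crest.Agent.R17.D (Qf KB pw)
open Crest.NumberTheoryR.EisensteinField Crest.Agent.R27.G MeasureTheory Filter Set
open scoped NumberField ComplexConjugate Classical Real Topology MatrixGroups

variable {F : Type} [Field F] [NumberField F] [Algebra K3 F]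

theorem PP_eq (w : X F) : PP w = ∏ i, (‖w.1 i‖ ^ 2 + Real.exp (w.2 i) ^ 2) / Real.exp (w.2 i) := by
  simp [PP, NQ, Qi, Qf]

theorem PP_pos (w : X F) : 0 < PP w := by
  exact NQ_pos w (by simp)

theorem continuous_PP : Continuous (PP : X F → ℝ) := by
  exact continuous_NQ _

theorem PP_ge (w : X F) : Real.exp (∑ i, w.2 i) ≤ PP w := by
  rw [PP_eq, Real.exp_sum]
  refine Finset.prod_le_prod (fun i _ => (Real.exp_pos _).le) fun i _ => ?_
  rw [le_div_iff₀ (Real.exp_pos _), ← sq]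
  exact le_add_of_nonneg_left (sq_nonneg _)

/-- admissible kernels -/
structure Ker (k : X F → ℂ) : Prop where
  meas : Measurable k
  low : ∃ P₀ : ℝ, 0 < P₀ ∧ ∀ w, k w ≠ 0 → P₀ ≤ PP w
  int : Integrable fun w => ((PP w ^ (-(4 / 3) : ℝ) : ℝ) : ℂ) * k w

theorem tst_h0 : Tst (h0 F) := by
  refine ⟨measurable_one.indicator measurableSet_Icc, 1, fun l => ⟨?_, fun h => ?_⟩⟩
  · exact (norm_indicator_le_norm_self _ _).trans_eq norm_one
  · have hl := mem_of_indicator_ne_zero h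
    exact (pi_norm_le_iff_of_nonneg zero_le_one).2 fun i => (Real.norm_of_nonneg (hl.1 i)).trans_le (hl.2 i)

theorem Tst.shift {h : (Pl F → ℝ) → ℂ} (hh : Tst h) (a : Pl F → ℝ) : Tst fun l => h (l + a) := by
  obtain ⟨B, hB⟩ := hh.bdd
  refine ⟨hh.meas.comp (measurable_add_const a), B + ‖a‖, fun l => ⟨?_, fun h0 => ?_⟩⟩
  · exact (hB _).1.trans (le_add_of_nonneg_right (norm_nonneg _))
  · have := norm_sub_le (l + a) a
    rw [add_sub_cancel_right] at this
    linarith [(hB _).2 h0]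

/-- Conv-a.  `PP ^ (-4/3) ≤ C ∏ (1 + ‖z i‖²) ^ (-4/3)` for `‖ℓ‖ ≤ B`; `Integrable.fintype_prod`,
`integrable_rpow_neg_one_add_norm_sq`, `Integrable.mul_prod` -/
theorem ker_kn (ν : F) {h : (Pl F → ℝ) → ℂ} (hh : Tst h) : Ker (kn ν h) := by
  obtain ⟨B, hB⟩ := hh.bdd
  have hm : Measurable (kn ν h) :=
    (Complex.continuous_conj.measurable.comp ((continuous_eZ ν).measurable.comp measurable_fst)).mul
      (hh.meas.comp measurable_snd)
  have hl : ∀ w : X F, h w.2 ≠ 0 → ∀ i, |w.2 i| ≤ B := fun w h0 i => (norm_le_pi_norm w.2 i).trans ((hB _).2 h0)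
  refine ⟨hm, ⟨Real.exp (∑ _i : Pl F, -B), Real.exp_pos _, fun w h0 => le_trans ?_ (PP_ge w)⟩, ?_⟩
  · exact Real.exp_le_exp.2 (Finset.sum_le_sum fun i _ => (abs_le.1 (hl w (right_ne_zero_of_mul h0) i)).1)
  have h1 : Integrable fun z : ℂ => (Real.exp (-B) * (1 + ‖z‖ ^ 2)) ^ (-(4 / 3) : ℝ) := by
    refine ((integrable_rpow_neg_one_add_norm_sq (E := ℂ) (μ := volume) (r := 8 / 3)
      (by rw [Complex.finrank_real_complex]; norm_num)).const_mul (Real.exp (-B) ^ (-(4 / 3) : ℝ))).congr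
      (Eventually.of_forall fun z => ?_)
    beta_reduce
    rw [Real.mul_rpow (Real.exp_pos _).le (by positivity)]
    norm_num
  have h2 : Integrable fun z : Pl F → ℂ => ∏ i, (Real.exp (-B) * (1 + ‖z i‖ ^ 2)) ^ (-(4 / 3) : ℝ) :=
    Integrable.fintype_prod fun _ => h1
  have h3 : Integrable h := by
    refine (integrableOn_iff_integrable_of_support_subset (s := Metric.closedBall 0 B)
      fun l h0 => mem_closedBall_zero_iff.2 ((hB l).2 h0)).1 ?_
    exact Measure.integrableOn_of_bounded measure_closedBall_lt_top.ne hh.meas.aestronglyMeasurable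
      (Eventually.of_forall fun l => (hB l).1)
  refine Integrable.mono' (h2.mul_prod h3.norm) ((Complex.measurable_ofReal.comp
    (continuous_PP.measurable.pow_const _)).mul hm).aestronglyMeasurable (Eventually.of_forall fun w => ?_)
  rw [kn, norm_mul, norm_mul, Complex.norm_conj, norm_eZ, one_mul, Complex.norm_real,
    Real.norm_of_nonneg (Real.rpow_nonneg (PP_pos w).le _)]
  rcases eq_or_ne (h w.2) 0 with h0 | h0
  · simp only [h0, norm_zero, mul_zero, le_refl]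
  refine mul_le_mul_of_nonneg_right ?_ (norm_nonneg _)
  rw [Real.finsetProd_rpow _ _ fun i _ => by positivity]
  refine Real.rpow_le_rpow_of_nonpos (Finset.prod_pos fun i _ => by positivity) ?_ (by norm_num)
  rw [PP_eq]
  refine Finset.prod_le_prod (fun i _ => by positivity) fun i _ => ?_
  have a1 : Real.exp (-B) ≤ Real.exp (w.2 i) := Real.exp_le_exp.2 (abs_le.1 (hl w h0 i)).1
  have a2 : Real.exp (-B) * Real.exp (w.2 i) ≤ 1 := by
    rw [← Real.exp_add]
    exact Real.exp_le_one_iff.2 (by linarith [(abs_le.1 (hl w h0 i)).2])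
  have a3 := Real.exp_pos (w.2 i)
  rw [le_div_iff₀ a3]
  nlinarith [mul_le_mul_of_nonneg_right a2 (sq_nonneg ‖w.1 i‖), mul_le_mul_of_nonneg_right a1 a3.le]

section
variable {g : ℝ → ℂ} {k k' : X F → ℂ} {α : Type} {a a' : α → ℂ} {sz : α → ℝ}

theorem conva_bound (hk : Ker k) (hg : Prf g) {δ : ℝ} (hδ : 0 < δ) : ∃ C : ℝ, ∀ t, δ ≤ t → ∀ w : X F,
    ‖g (t * PP w) * k w‖ ≤ C * ‖((PP w ^ (-(4 / 3) : ℝ) : ℝ) : ℂ) * k w‖ := by
  obtain ⟨P₀, hP, hlow⟩ := hk.low
  obtain ⟨B, hB⟩ := hg.top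
  obtain ⟨C, hC⟩ := hg.bdd _ (mul_pos hδ hP)
  have hC0 : 0 ≤ C := (norm_nonneg _).trans (hC _ le_rfl)
  refine ⟨C * (|B| / δ) ^ (4 / 3 : ℝ), fun t ht w => ?_⟩
  rcases eq_or_ne (g (t * PP w) * k w) 0 with h0 | h0
  · rw [h0, norm_zero]
    positivity
  have hw := PP_pos w
  have h1 : t * PP w ≤ B := not_lt.1 fun h => left_ne_zero_of_mul h0 (hB _ h)
  have h2 : PP w ≤ |B| / δ := by
    rw [le_div_iff₀' hδ]
    exact (mul_le_mul_of_nonneg_right ht hw.le).trans (h1.trans (le_abs_self B))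
  have h3 := hC _ (mul_le_mul ht (hlow w (right_ne_zero_of_mul h0)) hP.le (hδ.le.trans ht))
  rw [norm_mul, norm_mul, ← mul_assoc, Complex.norm_real, Real.norm_of_nonneg (Real.rpow_nonneg hw.le _)]
  refine mul_le_mul_of_nonneg_right (h3.trans ?_) (norm_nonneg _)
  rw [mul_assoc, Real.rpow_neg hw.le, ← div_eq_mul_inv]
  exact le_mul_of_one_le_right hC0 ((one_le_div (Real.rpow_pos_of_pos hw _)).2
    (Real.rpow_le_rpow hw.le h2 (by norm_num)))

/-- Conv-a.  `g (t P) ≠ 0` forces `P ≤ B / t`, so `1 ≤ (B / t)^(4/3) P^(-4/3)` -/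
theorem Ker.integrable (hk : Ker k) (hg : Prf g) {t : ℝ} (ht : 0 < t) :
    Integrable fun w : X F => g (t * PP w) * k w := by
  obtain ⟨C, hC⟩ := conva_bound hk hg ht
  exact (hk.int.norm.const_mul C).mono' ((hg.meas.comp (continuous_PP.measurable.const_mul t)).mul
    hk.meas).aestronglyMeasurable (Eventually.of_forall (hC t le_rfl))

/-- Conv-a -/
theorem prf_cv (hg : Prf g) (hk : Ker k) : Prf (cv g k) := by
  refine ⟨?_, ?_, fun δ hδ => ?_⟩
  · have h : Measurable fun p : ℝ × X F => g (p.1 * PP p.2) * k p.2 :=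
      (hg.meas.comp (measurable_fst.mul (continuous_PP.measurable.comp measurable_snd))).mul
        (hk.meas.comp measurable_snd)
    exact h.stronglyMeasurable.integral_prod_right'.measurable
  · obtain ⟨P₀, hP, hlow⟩ := hk.low
    obtain ⟨B, hB⟩ := hg.top
    refine ⟨|B| / P₀, fun t ht => integral_eq_zero_of_ae (Eventually.of_forall fun w => ?_)⟩
    by_contra h0
    have h1 : 0 ≤ t := le_trans (by positivity) ht.le
    exact left_ne_zero_of_mul h0 (hB _ (((le_abs_self B).trans_lt ((div_lt_iff₀ hP).1 ht)).trans_le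
      (mul_le_mul_of_nonneg_left (hlow w (right_ne_zero_of_mul h0)) h1)))
  · obtain ⟨C, hC⟩ := conva_bound hk hg hδ
    exact ⟨_, fun t ht => norm_integral_le_of_norm_le (hk.int.norm.const_mul C) (Eventually.of_forall (hC t ht))⟩

theorem prf_gst : Prf (gst F) := prf_cv prf_fc (ker_kn 1 tst_h0)

theorem convb_fin (ha : LF a sz) (hg : Prf g) (Y₁ : ℝ) : ∃ S : Finset α, (∀ i ∈ S, a i ≠ 0) ∧
    ∀ Y, 0 < Y → Y ≤ Y₁ → ∀ i ∉ S, a i * g (sz i / Y) = 0 := by
  obtain ⟨B, hB⟩ := hg.top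
  refine ⟨(ha.2 (max B 0 * Y₁)).toFinset, fun i hi => ((Set.Finite.mem_toFinset _).1 hi).1,
    fun Y hY hY' i hi => ?_⟩
  by_contra hc
  refine hi ((Set.Finite.mem_toFinset _).2 ⟨left_ne_zero_of_mul hc, ?_⟩)
  have h1 : sz i / Y ≤ B := not_lt.1 fun h => right_ne_zero_of_mul hc (hB _ h)
  exact ((div_le_iff₀ hY).1 (h1.trans (le_max_left B 0))).trans
    (mul_le_mul_of_nonneg_left hY' (le_max_right _ _))

theorem Lm_eq_sum (ha : LF a sz) (hg : Prf g) (Y₁ : ℝ) : ∃ S : Finset α, (∀ i ∈ S, a i ≠ 0) ∧ ∀ Y, 0 < Y → Y ≤ Y₁ →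
    Lm g a sz Y = (Y ^ (-(4 / 3) : ℝ) : ℝ) * ∑ i ∈ S, a i * g (sz i / Y) := by
  obtain ⟨S, h1, h2⟩ := convb_fin ha hg Y₁
  exact ⟨S, h1, fun Y hY hY' => by rw [Lm, tsum_eq_sum (h2 Y hY hY')]⟩

theorem Lm_summable (ha : LF a sz) (hg : Prf g) {Y : ℝ} (hY : 0 < Y) : Summable fun i => a i * g (sz i / Y) := by
  obtain ⟨S, -, h2⟩ := convb_fin ha hg Y
  exact summable_of_ne_finset_zero (h2 Y hY le_rfl)

/-- Conv-b.  zero for small `Y`, a finite sum of bounded terms for `Y` in a compact interval -/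
theorem Lm_bdd (ha : LF a sz) (hg : Prf g) {lam : ℂ} (h : Tendsto (Lm g a sz) atTop (𝓝 lam)) :
    ∃ C : ℝ, ∀ Y, 0 < Y → ‖Lm g a sz Y‖ ≤ C := by
  obtain ⟨Y₀, h0⟩ := eventually_atTop.1 (h.norm.eventually (eventually_le_nhds (lt_add_one ‖lam‖)))
  obtain ⟨S, h1, h2⟩ := Lm_eq_sum ha hg (max Y₀ 1)
  obtain ⟨B, hB⟩ := hg.top
  have key : ∀ i, ∃ C : ℝ, a i ≠ 0 → ∀ Y, 0 < Y → Y ≤ max Y₀ 1 →
      ‖((Y ^ (-(4 / 3) : ℝ) : ℝ) : ℂ) * (a i * g (sz i / Y))‖ ≤ C := fun i => by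
    by_cases hi : a i = 0
    · exact ⟨0, fun h => (h hi).elim⟩
    have hs := ha.1 i hi
    obtain ⟨C, hC⟩ := hg.bdd (sz i / max Y₀ 1) (by positivity)
    have hC0 : 0 ≤ C := (norm_nonneg _).trans (hC _ le_rfl)
    refine ⟨(sz i / max B 1) ^ (-(4 / 3) : ℝ) * (‖a i‖ * C), fun _ Y hY hY' => ?_⟩
    by_cases hz : g (sz i / Y) = 0
    · rw [hz, mul_zero, mul_zero, norm_zero]; positivity
    have h3 : sz i / Y ≤ max B 1 := (not_lt.1 fun h => hz (hB _ h)).trans (le_max_left _ _)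
    have h4 : sz i / max B 1 ≤ Y := by
      rw [div_le_iff₀ (by positivity)]; rw [div_le_iff₀ hY] at h3; linarith
    rw [norm_mul, norm_mul, Complex.norm_real, Real.norm_of_nonneg (by positivity)]
    exact mul_le_mul (Real.rpow_le_rpow_of_nonpos (by positivity) h4 (by norm_num))
      (mul_le_mul_of_nonneg_left (hC _ (div_le_div_of_nonneg_left hs.le hY hY')) (norm_nonneg _))
      (by positivity) (by positivity)
  choose C hC using key
  refine ⟨max (‖lam‖ + 1) (∑ i ∈ S, C i), fun Y hY => ?_⟩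
  rcases le_total Y (max Y₀ 1) with h3 | h3
  · rw [h2 Y hY h3, Finset.mul_sum]
    exact le_max_of_le_right ((norm_sum_le _ _).trans (Finset.sum_le_sum fun i hi => hC i (h1 i hi) Y hY h3))
  · exact le_max_of_le_left (h0 Y ((le_max_left _ _).trans h3))

theorem measurable_Lm [Countable α] (hg : Prf g) (a : α → ℂ) (sz : α → ℝ) : Measurable (Lm g a sz) := by
  exact (Complex.measurable_ofReal.comp (measurable_id.pow_const _)).mul
    (Measurable.tsum fun i => (hg.meas.comp (measurable_const.div measurable_id)).const_mul (a i))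

/-- Conv-b.  finite sums (`P₀ ≤ PP` on the support of `k`) -/
theorem Lm_cv (ha : LF a sz) (hg : Prf g) (hk : Ker k) {Y : ℝ} (hY : 0 < Y) :
    Lm (cv g k) a sz Y = ∫ w : X F, ((PP w ^ (-(4 / 3) : ℝ) : ℝ) : ℂ) * k w * Lm g a sz (Y / PP w) := by
  obtain ⟨P₀, hP, hlow⟩ := hk.low
  obtain ⟨S, h1, h2⟩ := convb_fin ha hg (Y / P₀)
  have e : ∀ i (w : X F), sz i / (Y / PP w) = sz i / Y * PP w := fun i w => by
    rw [div_div_eq_mul_div, div_mul_eq_mul_div]
  have h3 : ∀ w : X F, k w ≠ 0 → ∀ i ∉ S, a i * g (sz i / Y * PP w) = 0 := fun w hw i hi => by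
    rw [← e]
    exact h2 _ (div_pos hY (PP_pos w)) (div_le_div_of_nonneg_left hY.le hP (hlow w hw)) i hi
  have h4 : ∀ i ∉ S, a i * cv g k (sz i / Y) = 0 := fun i hi => by
    rw [cv, ← integral_const_mul]
    refine integral_eq_zero_of_ae (Eventually.of_forall fun w => ?_)
    by_cases hw : k w = 0
    · simp [hw]
    · simp only [← mul_assoc, h3 w hw i hi, zero_mul, Pi.zero_apply]
  rw [Lm, tsum_eq_sum h4]
  simp only [cv, ← integral_const_mul]
  rw [← integral_finsetSum _ fun i hi => (hk.integrable hg (div_pos (ha.1 i (h1 i hi)) hY)).const_mul _,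
    ← integral_const_mul]
  refine integral_congr_ae (Eventually.of_forall fun w => ?_)
  by_cases hw : k w = 0
  · simp [hw]
  have h5 : Y ^ (-(4 / 3) : ℝ) = PP w ^ (-(4 / 3) : ℝ) * (Y / PP w) ^ (-(4 / 3) : ℝ) := by
    rw [← Real.mul_rpow (PP_pos w).le (div_pos hY (PP_pos w)).le, mul_div_cancel₀ _ (PP_pos w).ne']
  simp only [Lm, e]
  rw [tsum_eq_sum (h3 w hw), h5]
  simp only [← mul_assoc, ← Finset.sum_mul]
  push_cast
  ring

/-- Conv-b.  dominated convergence -/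
theorem tendsto_cv [Countable α] (ha : LF a sz) (hg : Prf g) (hk : Ker k) {lam : ℂ}
    (h : Tendsto (Lm g a sz) atTop (𝓝 lam)) : Tendsto (Lm (cv g k) a sz) atTop (𝓝 (lam * mt k)) := by
  obtain ⟨C, hC⟩ := Lm_bdd ha hg h
  have hP : Measurable (PP : X F → ℝ) := continuous_PP.measurable
  have key := tendsto_integral_filter_of_dominated_convergence (μ := (volume : Measure (X F))) (l := atTop)
    (F := fun (Y : ℝ) (w : X F) => ((PP w ^ (-(4 / 3) : ℝ) : ℝ) : ℂ) * k w * Lm g a sz (Y / PP w))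
    (f := fun w => ((PP w ^ (-(4 / 3) : ℝ) : ℝ) : ℂ) * k w * lam)
    (fun w => ‖((PP w ^ (-(4 / 3) : ℝ) : ℝ) : ℂ) * k w‖ * C)
    (Eventually.of_forall fun Y => hk.int.1.mul
      ((measurable_Lm hg a sz).comp (measurable_const.div hP)).aestronglyMeasurable)
    (by
      filter_upwards [eventually_gt_atTop 0] with Y hY
      refine Eventually.of_forall fun w => ?_
      rw [norm_mul]
      exact mul_le_mul_of_nonneg_left (hC _ (div_pos hY (PP_pos w))) (norm_nonneg _))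
    (hk.int.norm.mul_const C)
    (Eventually.of_forall fun w => (h.comp (tendsto_id.atTop_div_const (PP_pos w))).const_mul _)
  rw [integral_mul_const, mul_comm] at key
  refine key.congr' ?_
  filter_upwards [eventually_gt_atTop 0] with Y hY
  exact (Lm_cv ha hg hk hY).symm

theorem cvc_bd (hg : Prf g) {δ : ℝ} (hδ : 0 < δ) :
    ∃ D : ℝ, ∀ s, δ ≤ s → ‖g s‖ ≤ D * s ^ (-(4 / 3) : ℝ) := by
  obtain ⟨B, hB⟩ := hg.top
  obtain ⟨C, hC⟩ := hg.bdd δ hδ
  have hC0 : 0 ≤ C := (norm_nonneg _).trans (hC δ le_rfl)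
  have hB0 : 0 < max B δ := lt_max_of_lt_right hδ
  refine ⟨C * max B δ ^ (4 / 3 : ℝ), fun s hs => ?_⟩
  have hs0 : 0 < s := hδ.trans_le hs
  rcases lt_or_ge B s with h | h
  · rw [hB s h, norm_zero]; positivity
  · have h1 : s ^ (4 / 3 : ℝ) ≤ max B δ ^ (4 / 3 : ℝ) :=
      Real.rpow_le_rpow hs0.le (le_max_of_le_left h) (by norm_num)
    have h2 : 0 < s ^ (4 / 3 : ℝ) := by positivity
    rw [Real.rpow_neg hs0.le, mul_assoc, ← div_eq_mul_inv]
    exact (hC s hs).trans (le_mul_of_one_le_right hC0 ((one_le_div h2).2 h1))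

/-- Conv-c.  Fubini -/
theorem cv_comm (hg : Prf g) (hk : Ker k) (hk' : Ker k') {t : ℝ} (ht : 0 < t) :
    cv (cv g k) k' t = cv (cv g k') k t := by
  obtain ⟨P, hP, hPk⟩ := hk.low
  obtain ⟨P', hP', hPk'⟩ := hk'.low
  obtain ⟨D, hD⟩ := cvc_bd hg (δ := t * P' * P) (by positivity)
  have hm : Measurable (PP : X F → ℝ) := continuous_PP.measurable
  have hi : Integrable (Function.uncurry fun w' w : X F => g (t * PP w' * PP w) * k w * k' w')
      (volume.prod volume) := by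
    refine ((hk'.int.norm.mul_prod hk.int.norm).const_mul (D * t ^ (-(4 / 3) : ℝ))).mono'
      (((hg.meas.comp ((measurable_const.mul (hm.comp measurable_fst)).mul
        (hm.comp measurable_snd))).mul (hk.meas.comp measurable_snd)).mul
          (hk'.meas.comp measurable_fst)).aestronglyMeasurable (Eventually.of_forall fun p => ?_)
    obtain ⟨w', w⟩ := p
    simp only [Function.uncurry_apply_pair, norm_mul, Complex.norm_real]
    by_cases h1 : k w = 0
    · simp [h1]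
    by_cases h2 : k' w' = 0
    · simp [h2]
    have h3 := PP_pos w
    have h4 := PP_pos w'
    have h5 := hD (t * PP w' * PP w) (mul_le_mul (mul_le_mul_of_nonneg_left (hPk' w' h2) ht.le)
      (hPk w h1) hP.le (by positivity))
    rw [Real.mul_rpow (by positivity) h3.le, Real.mul_rpow ht.le h4.le] at h5
    rw [Real.norm_of_nonneg (by positivity), Real.norm_of_nonneg (by positivity)]
    calc _ ≤ D * (t ^ (-(4 / 3) : ℝ) * PP w' ^ (-(4 / 3) : ℝ) * PP w ^ (-(4 / 3) : ℝ)) * ‖k w‖ * ‖k' w'‖ := by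
          gcongr
      _ = _ := by ring
  simp only [cv, ← integral_mul_const]
  rw [integral_integral_swap hi]
  refine integral_congr_ae (Eventually.of_forall fun w => integral_congr_ae
    (Eventually.of_forall fun w' => ?_))
  simp only [mul_right_comm t (PP w'), mul_right_comm _ (k w)]

theorem Lm_congr {g' : ℝ → ℂ} (ha : LF a sz) (h : ∀ t, 0 < t → g t = g' t) {Y : ℝ} (hY : 0 < Y) :
    Lm g a sz Y = Lm g' a sz Y := by
  unfold Lm
  congr 1
  refine tsum_congr fun i => ?_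
  by_cases hi : a i = 0
  · simp [hi]
  · rw [h _ (div_pos (ha.1 i hi) hY)]

/-- Conv-c.  THE SYMMETRIC CONVOLUTION ARGUMENT -/
theorem conv_sym [Countable α] (ha : LF a sz) (hg : Prf g) (hk : Ker k) (hk' : Ker k') {lam lam' : ℂ}
    (h : Tendsto (Lm (cv g k) a sz) atTop (𝓝 lam)) (h' : Tendsto (Lm (cv g k') a sz) atTop (𝓝 lam')) :
    lam * mt k' = lam' * mt k := by
  refine tendsto_nhds_unique (tendsto_cv ha (prf_cv hg hk) hk' h)
    ((tendsto_cv ha (prf_cv hg hk') hk h').congr' ?_)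
  filter_upwards [eventually_gt_atTop 0] with Y hY
  exact Lm_congr ha (fun t ht => cv_comm hg hk' hk ht) hY

theorem Lm_scale (g : ℝ → ℂ) (a : α → ℂ) (sz : α → ℝ) (c : ℂ) {x Y : ℝ} (hx : 0 < x) (hY : 0 < Y) :
    Lm (fun t => c * g (t / x)) a sz Y = c * (x ^ (4 / 3 : ℝ) : ℝ) * Lm g a sz (Y * x) := by
  have h1 : (x ^ (4 / 3 : ℝ) : ℝ) * (Y * x) ^ (-(4 / 3) : ℝ) = Y ^ (-(4 / 3) : ℝ) := by
    rw [Real.mul_rpow hY.le hx.le, Real.rpow_neg hx.le, mul_left_comm,
      mul_inv_cancel₀ (by positivity), mul_one]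
  simp only [Lm, div_div, mul_left_comm _ c, tsum_mul_left]
  rw [← h1]
  push_cast
  ring

theorem Lm_size (g : ℝ → ℂ) (a : α → ℂ) (sz : α → ℝ) {x Y : ℝ} (hx : 0 < x) (hY : 0 < Y) :
    Lm g a (fun i => x * sz i) Y = (x ^ (-(4 / 3) : ℝ) : ℝ) * Lm g a sz (Y / x) := by
  have h1 : (x ^ (-(4 / 3) : ℝ) : ℝ) * (Y / x) ^ (-(4 / 3) : ℝ) = Y ^ (-(4 / 3) : ℝ) := by
    rw [← Real.mul_rpow hx.le (by positivity), mul_div_cancel₀ _ hx.ne']
  have h2 : ∀ i, x * sz i / Y = sz i / (Y / x) := fun i => by field_simp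
  simp only [Lm, h2]
  rw [← h1]
  push_cast
  ring

theorem Lm_smul (g : ℝ → ℂ) (a : α → ℂ) (sz : α → ℝ) (c : ℂ) (Y : ℝ) :
    Lm g (fun i => c * a i) sz Y = c * Lm g a sz Y := by
  simp only [Lm, mul_assoc c, tsum_mul_left]
  ring

theorem Lm_add (ha : LF a sz) (ha' : LF a' sz) (hg : Prf g) {Y : ℝ} (hY : 0 < Y) :
    Lm g (fun i => a i + a' i) sz Y = Lm g a sz Y + Lm g a' sz Y := by
  simp only [Lm, add_mul]
  rw [(Lm_summable ha hg hY).tsum_add (Lm_summable ha' hg hY), mul_add]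

theorem LF.mono (ha : LF a sz) (h : ∀ i, a' i ≠ 0 → a i ≠ 0) : LF a' sz := by
  exact ⟨fun i hi => ha.1 i (h i hi), fun B => (ha.2 B).subset fun i hi => ⟨h i hi.1, hi.2⟩⟩

theorem LF.add (ha : LF a sz) (ha' : LF a' sz) : LF (fun i => a i + a' i) sz := by
  have h : ∀ i, a i + a' i ≠ 0 → a i ≠ 0 ∨ a' i ≠ 0 := fun i hi => by
    by_contra h
    push Not at h
    exact hi (by rw [h.1, h.2, add_zero])
  exact ⟨fun i hi => (h i hi).elim (ha.1 i) (ha'.1 i), fun B => ((ha.2 B).union (ha'.2 B)).subset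
    fun i hi => (h i hi.1).imp (fun h => ⟨h, hi.2⟩) fun h => ⟨h, hi.2⟩⟩

theorem HasT.unique {τ τ' : ℂ} (h : HasT F a sz τ) (h' : HasT F a sz τ') : τ = τ' := by
  exact tendsto_nhds_unique h h' 

theorem HasT.add {τ τ' : ℂ} (h : HasT F a sz τ) (h' : HasT F a' sz τ') (ha : LF a sz) (ha' : LF a' sz) :
    HasT F (fun i => a i + a' i) sz (τ + τ') := by
  refine (Tendsto.add h h').congr' ?_
  filter_upwards [eventually_gt_atTop 0] with Y hY
  exact (Lm_add ha ha' prf_gst hY).symm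

theorem HasT.smul {τ : ℂ} (h : HasT F a sz τ) (c : ℂ) : HasT F (fun i => c * a i) sz (c * τ) := by
  exact (Tendsto.const_mul c h).congr fun Y => (Lm_smul _ a sz c Y).symm

theorem hasT_zero (sz : α → ℝ) : HasT F (fun _ => 0) sz 0 := by
  exact tendsto_const_nhds.congr fun Y => by simp [Lm]

theorem HasT.sum {ι : Type} (s : Finset ι) {f : ι → α → ℂ} {τ : ι → ℂ} (h : ∀ j ∈ s, HasT F (f j) sz (τ j))
    (hf : ∀ j ∈ s, LF (f j) sz) : HasT F (fun i => ∑ j ∈ s, f j i) sz (∑ j ∈ s, τ j) := by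
  suffices H : HasT F (fun i => ∑ j ∈ s, f j i) sz (∑ j ∈ s, τ j) ∧ LF (fun i => ∑ j ∈ s, f j i) sz from H.1
  induction s using Finset.induction_on with
  | empty => exact ⟨by simpa using hasT_zero sz, by simp, by simp⟩
  | insert j s hj ih =>
    obtain ⟨h1, h2⟩ := ih (fun j hj => h j (Finset.mem_insert_of_mem hj))
      fun j hj => hf j (Finset.mem_insert_of_mem hj)
    simp only [Finset.sum_insert hj]
    exact ⟨(h j (Finset.mem_insert_self j s)).add h1 (hf j (Finset.mem_insert_self j s)) h2,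
      (hf j (Finset.mem_insert_self j s)).add h2⟩

theorem HasT.size {τ : ℂ} (h : HasT F a sz τ) {x : ℝ} (hx : 0 < x) :
    HasT F a (fun i => x * sz i) ((x ^ (-(4 / 3) : ℝ) : ℝ) * τ) := by
  refine (Tendsto.const_mul _ (Tendsto.comp h (tendsto_id.atTop_div_const hx))).congr' ?_
  filter_upwards [eventually_gt_atTop 0] with Y hY
  exact (Lm_size _ a sz hx hY).symm

/-- re-indexing along an injection that covers the support -/
theorem Lm_inj {β : Type} {e : β → α} (he : Function.Injective e) (hs : ∀ i, a i ≠ 0 → i ∈ range e)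
    (g : ℝ → ℂ) (sz : α → ℝ) (Y : ℝ) : Lm g a sz Y = Lm g (fun j => a (e j)) (fun j => sz (e j)) Y := by
  unfold Lm
  rw [he.tsum_eq (f := fun i => a i * g (sz i / Y)) fun i hi => hs i (left_ne_zero_of_mul hi)]

end

/-- Conv-d.  the linear map `z ↦ s z` has determinant `∏ ‖s i‖²` (`Measure.pi` of `Complex` scalings,
`integral_comp_mul_left`-type lemmas or `MeasurePreserving.pi`), translation in `ℓ` -/
theorem integral_scale {s : Pl F → ℂ} (hs : ∀ i, s i ≠ 0) (G : X F → ℂ) :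
    ∫ w : X F, G w = ((∏ i, ‖s i‖ ^ 2 : ℝ) : ℂ) * ∫ w : X F, G (s * w.1, w.2 + fun i => Real.log ‖s i‖) := by
  have hp : 0 < ∏ i, ‖s i‖ ^ 2 := Finset.prod_pos fun i _ => pow_pos (norm_pos_iff.2 (hs i)) 2
  have h1 : MeasurePreserving (fun (z : Pl F → ℂ) i => s i * z i) volume
      (ENNReal.ofReal (∏ i, ‖s i‖ ^ 2)⁻¹ • volume) := ⟨by fun_prop, map_mul_pi hs⟩
  have h2 := (h1.prod (measurePreserving_add_right (volume : Measure (Pl F → ℝ))
    fun i => Real.log ‖s i‖)).integral_comp (((Homeomorph.piCongrRight fun i =>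
      Homeomorph.mulLeft₀ (s i) (hs i)).prodCongr (Homeomorph.addRight _)).measurableEmbedding) G
  rw [Measure.prod_smul_left, integral_smul_measure, ENNReal.toReal_ofReal (inv_pos.2 hp).le,
    eq_inv_smul_iff₀ hp.ne'] at h2
  exact h2.symm

theorem PP_scale {s : Pl F → ℂ} (hs : ∀ i, s i ≠ 0) (w : X F) :
    PP (s * w.1, w.2 + fun i => Real.log ‖s i‖) = (∏ i, ‖s i‖) * PP w := by
  rw [PP_eq, PP_eq, ← Finset.prod_mul_distrib]
  refine Finset.prod_congr rfl fun i _ => ?_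
  have h := norm_pos_iff.2 (hs i)
  have := Real.exp_pos (w.2 i)
  simp only [Pi.mul_apply, Pi.add_apply, norm_mul, Real.exp_add, Real.exp_log h]
  field_simp

/-- Conv-d.  `integral_scale` with `s = em ν` -/
theorem cv_kn {ν : F} (hν : ν ≠ 0) (g : ℝ → ℂ) (h : (Pl F → ℝ) → ℂ) (t : ℝ) :
    cv g (kn ν fun l => h (l + lg ν)) t = ((an ν)⁻¹ : ℝ) * cv g (kn 1 h) (t / Real.sqrt (an ν)) := by
  have h0 := an_pos hν
  have e : ∏ i, ‖em ν i‖ = Real.sqrt (an ν) := by
    rw [an, Finset.prod_pow, Real.sqrt_sq (Finset.prod_nonneg fun _ _ => norm_nonneg _)]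
  rw [cv, cv, integral_scale (em_ne_zero hν) fun w => g (t / Real.sqrt (an ν) * PP w) * kn 1 h w,
    ← mul_assoc, ← Complex.ofReal_mul, ← an, inv_mul_cancel₀ h0.ne', Complex.ofReal_one, one_mul]
  refine integral_congr_ae (Eventually.of_forall fun w => ?_)
  simp only [PP_scale (em_ne_zero hν), e, kn, ← eZ_mul, one_mul, ← mul_assoc,
    div_mul_cancel₀ t (Real.sqrt_pos.2 h0).ne']
  rfl

theorem convd_Lm {α : Type} (a : α → ℂ) (sz : α → ℝ) {ν : F} (hν : ν ≠ 0) {Y : ℝ} (hY : 0 < Y) :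
    Lm (cv fc (kn ν fun l => h0 F (l + lg ν))) a sz Y =
      (an ν ^ (-(1 / 3) : ℝ) : ℝ) * Lm (gst F) a sz (Y * Real.sqrt (an ν)) := by
  have h := an_pos hν
  rw [funext (cv_kn hν fc (h0 F)), Lm_scale (cv fc (kn 1 (h0 F))) a sz _ (Real.sqrt_pos.2 h) hY,
    ← Complex.ofReal_mul, Real.sqrt_eq_rpow, ← Real.rpow_mul h.le, ← Real.rpow_neg_one,
    ← Real.rpow_add h, gst]
  norm_num

/-- Conv-d.  `cv_kn` with `h = h0 F`, `Lm_scale` -/
theorem hasT_of_kn {α : Type} {a : α → ℂ} {sz : α → ℝ} {ν : F} (hν : ν ≠ 0) {lam : ℂ}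
    (h : Tendsto (Lm (cv fc (kn ν fun l => h0 F (l + lg ν))) a sz) atTop (𝓝 lam)) :
    HasT F a sz ((an ν ^ (1 / 3 : ℝ) : ℝ) * lam) := by
  have h0 := an_pos hν
  have hx := Real.sqrt_pos.2 h0
  refine ((h.comp (tendsto_id.atTop_div_const hx)).const_mul _).congr' ?_
  filter_upwards [eventually_gt_atTop 0] with Y hY
  rw [Function.comp_apply, id, convd_Lm a sz hν (div_pos hY hx), div_mul_cancel₀ _ hx.ne', ← mul_assoc,
    ← Complex.ofReal_mul, ← Real.rpow_add h0, add_neg_cancel, Real.rpow_zero, Complex.ofReal_one, one_mul]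

theorem HasT.kn {α : Type} {a : α → ℂ} {sz : α → ℝ} {ν : F} (hν : ν ≠ 0) {τ : ℂ} (h : HasT F a sz τ) :
    Tendsto (Lm (cv fc (kn ν fun l => h0 F (l + lg ν))) a sz) atTop (𝓝 ((an ν ^ (-(1 / 3) : ℝ) : ℝ) * τ)) := by
  refine ((Tendsto.comp h (tendsto_id.atTop_mul_const (Real.sqrt_pos.2 (an_pos hν)))).const_mul _).congr' ?_
  filter_upwards [eventually_gt_atTop 0] with Y hY
  exact (convd_Lm a sz hν hY).symm

end Crest.Agent.R27.TH
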