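import Crest.Agent.R27.TH.Gram

/-! Row 27, THETA, block ARI (owner helper6): the big cell weight is a combination of translates of `bw`. -/

set_option autoImplicit false
set_option linter.unusedSectionVars false

namespace Crest.Agent.R27.TH

open Crest.NumberTheoryR.EisensteinField Crest.Agent.R27.G Filter Set
open scoped NumberField ComplexConjugate Classical MatrixGroups

theorem exists_reps_fin {α ι : Type} [Nonempty α] [Finite ι] {Ω : Set α} {E : α → α → Prop} (h1 : ∀ x ∈ Ω, E x x)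
    (h2 : ∀ x y, E x y → E y x) (h3 : ∀ x y z, E x y → E y z → E x z) (f : α → ι)
    (hf : ∀ x ∈ Ω, ∀ y ∈ Ω, f x = f y → E x y) :
    ∃ T : Finset α, (∀ y ∈ T, y ∈ Ω) ∧ ∀ x ∈ Ω, ∃! y, y ∈ T ∧ E x y := by
  let ρ : α → α := fun x => Classical.epsilon fun y => y ∈ Ω ∧ E x y
  have a : ∀ x ∈ Ω, ρ x ∈ Ω ∧ E x (ρ x) := fun x hx =>
    Classical.epsilon_spec (p := fun y => y ∈ Ω ∧ E x y) ⟨x, hx, h1 x hx⟩
  have b : ∀ x y, E x y → ρ x = ρ y := fun x y h => congrArg Classical.epsilon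
    (funext fun z => propext (and_congr_right fun _ => ⟨h3 _ _ _ (h2 _ _ h), h3 _ _ _ h⟩))
  have c : (ρ '' Ω).Finite := Finite.of_finite_image (f := f) (toFinite _) (by
    rintro _ ⟨x, hx, rfl⟩ _ ⟨y, hy, rfl⟩ h
    exact b _ _ (h3 _ _ _ (h3 _ _ _ (a x hx).2 (hf _ (a x hx).1 _ (a y hy).1 h)) (h2 _ _ (a y hy).2)))
  refine ⟨c.toFinset, fun y hy => ?_, fun x hx => ⟨ρ x, ⟨c.mem_toFinset.2 ⟨x, hx, rfl⟩, (a x hx).2⟩, fun y hy => ?_⟩⟩
  · obtain ⟨x, hx, rfl⟩ := c.mem_toFinset.1 hy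
    exact (a x hx).1
  · obtain ⟨z, hz, rfl⟩ := c.mem_toFinset.1 hy.1
    exact (b _ _ (h3 _ _ _ hy.2 (h2 _ _ (a z hz).2))).symm

variable {F : Type} [Field F] [NumberField F] [Algebra K3 F] {v : Lv F} [Md v]

/-- `L / M^m L` is finite -/
theorem exists_res (v : Lv F) (m : ℕ) : ∃ (ι : Type) (_ : Finite ι) (f : F → ι),
    ∀ x ∈ v.L, ∀ y ∈ v.L, f x = f y → LK v m (x - y) := by
  have : ∀ x : F, ∃ a : 𝓞 F, x ∈ v.L → LK v m (a - x) := fun x => by
    by_cases hx : x ∈ v.L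
    · obtain ⟨a, -, ha⟩ := approxL (v := v) m x one_ne_zero 0
      obtain ⟨b, hb⟩ := v.inter a.2 (by simpa using add_mem ha.mem_L hx)
      exact ⟨b, fun _ => hb ▸ ha⟩
    · exact ⟨0, fun h => absurd h hx⟩
  choose a ha using this
  refine ⟨𝓞 F ⧸ Ideal.span {(v.M : 𝓞 F) ^ m}, Ring.HasFiniteQuotients.finiteQuotient (by
    rw [Ne, Ideal.span_singleton_eq_bot]; exact pow_ne_zero _ v.M_ne'), fun x => Ideal.Quotient.mk _ (a x),
    fun x hx y hy h => ?_⟩
  have := ((LK_coe (Ideal.mem_span_singleton.1 (Ideal.Quotient.eq.1 h))).sub (ha x hx)).add (ha y hy)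
  rwa [ci_sub, show (a x : F) - a y - (a x - x) + (a y - y) = x - y by ring] at this

theorem cbF_add_mul (d c : F) {t : F} (ht : t ∈ v.R) : cbF v (d + c * t) c = cbF v d c := by
  by_cases h : d ∈ v.R ∧ c ∈ v.R
  · lift d to v.R using h.1
    lift c to v.R using h.2
    lift t to v.R using ht
    simpa only [← cbF_eq, MulMemClass.coe_mul, AddMemClass.coe_add] using
      Ab.cb_congr (u := d + c * t) (v := d) (n := c) ⟨t, by ring⟩
  · rw [cbF_eq_zero h, cbF_eq_zero fun e => h ⟨by simpa using sub_mem e.1 (mul_mem e.2 ht), e.2⟩]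

/-- the boxes -/
def Bx (v : Lv F) (k : ℕ) (r y : F × F) : Prop := UK v k (r.1 / y.1) ∧ LK v k (r.1 * y.2 - r.2 * y.1)

theorem Bx.symm {k : ℕ} (hk : 1 ≤ k) {r y : F × F} (h : Bx v k r y) : Bx v k y r :=
  ⟨h.1.symm hk, by convert h.2.neg using 1; ring⟩

theorem Bx.trans {k : ℕ} (hk : 1 ≤ k) {r y z : F × F} (h : Bx v k r y) (h' : Bx v k y z) : Bx v k r z :=
  ⟨h.1.trans hk h'.1, by
    have := h.1.ne_right hk
    convert (h'.2.L_mul h.1.mem_L).add (h.2.L_mul (h'.1.symm hk).mem_L) using 1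
    field_simp
    ring⟩

/-- the translates of the base weight -/
theorem exists_tr {k : ℕ} (hk : 1 ≤ k) {y : F × F} (hy : cbF v y.2 y.1 ≠ 0) : ∃ (g : SL(2, F)) (a : ℂ), InR v g ∧
    ∀ r, a * bw v k (rm r g⁻¹) = if Bx v k r y then cbF v r.2 r.1 else 0 := by
  obtain ⟨h0, D, C, ⟨a, b, hab⟩, e⟩ := cbF_ne_zero.1 hy
  obtain rfl : y = ((C : F), (D : F)) := Prod.ext (congrArg Prod.snd e) (congrArg Prod.fst e)
  dsimp only at h0
  obtain ⟨t, -, ht⟩ := approxL (v := v) 1 (1 - (a : F) / C) one_ne_zero 0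
  obtain ⟨A, B, hdet, hU⟩ : ∃ A B : v.R, A * D - B * C = 1 ∧ v.U ((A : F) / C) :=
    ⟨a + t * C, t * D - b, by linear_combination hab, UK_one_iff.1 (by
      unfold UK
      convert ht using 1
      push_cast
      field_simp
      ring)⟩
  have hdet' : (A : F) * D - B * C = 1 := congrArg Subtype.val hdet
  have hA : A ≠ 0 := fun e => v.U_ne_zero hU (by simp [e])
  have hg := inR_mkSL hdet'
  refine ⟨_, conj (Ab.cb C A), hg, fun r => ?_⟩
  have e1 : rm r (mkSL _ _ _ _ hdet')⁻¹ = (r.1 * D - r.2 * C, -(r.1 * B) + r.2 * A) := rm_inv _ _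
  have e2 : -(r.1 * B) + r.2 * A = r.1 / C + -(A / C * (r.1 * D - r.2 * C)) := by
    field_simp
    linear_combination r.1 * hdet'
  have e3 : LK v k (r.1 * D - r.2 * C) ∧ UK v k (-(r.1 * B) + r.2 * A) ↔ Bx v k r (C, D) := by
    rw [e2]
    exact ⟨fun h => ⟨by simpa using h.2.add_LK (h.1.L_mul (v.U_mem_L hU)), h.1⟩,
      fun h => ⟨h.2, h.1.add_LK (h.2.L_mul (v.U_mem_L hU)).neg⟩⟩
  rw [bw_eq, e1, if_congr e3 rfl rfl]
  split_ifs with h
  · by_cases hR : r.1 ∈ v.R ∧ r.2 ∈ v.R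
    · have hd := ((e3.2 h).2.U hk)
      obtain ⟨c, d⟩ := r
      lift c to v.R using hR.1
      lift d to v.R using hR.2
      have hd' : v.U (c * -B + d * A : v.R) := by simpa using hd
      have h1 := tri (c := c) (d := d) (A := -B) (B := -D) (C := A) (D := C) (d' := -(c * D - d * C))
        (by linear_combination hdet) rfl (by ring) (ne_of_coe (h.1.ne_left hk)) hA (v.clsd_U_ne hd')
      rw [Ab.cb_neg_left, hil_U_right _ hd', hil_U hd', hil_congr_left hU, hil_UK_right hk _ h.1, hil_self,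
        mul_neg, ← cbF_eq] at h1
      push_cast at h1
      rw [h1, cbF_eq]
      linear_combination Ab.cb d c * cb_mul_conj' (x := C) hA ⟨-B, D, by linear_combination hdet⟩
    · rw [cbF_eq_zero fun e => hR ((hg.inv.mem_iff r).1 (e1 ▸ e)), cbF_eq_zero fun e => hR e.symm, mul_zero]
  · rw [mul_zero]

variable {K j : ℕ} {ξ : F} {h : F → ℂ}

theorem bch_ne {r : F × F} (hr : bch v K ξ h r ≠ 0) :
    UK v K (r.1 / ξ) ∧ cbF v r.2 r.1 ≠ 0 ∧ h (r.2 / r.1) ≠ 0 := by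
  unfold bch at hr
  split_ifs at hr with e
  · exact ⟨e, mul_ne_zero_iff.1 hr⟩
  · exact absurd rfl hr

theorem UK.dk {k e : ℕ} {x y : F} (hk : 1 ≤ k) (h : UK v k (x / y)) (hy : DK v e y) : DK v e x := by
  simpa [mul_div_cancel₀ _ (h.ne_right hk)] using hy.mul_L h.mem_L

theorem UK.dk_inv {k e : ℕ} {x y : F} (hk : 1 ≤ k) (h : UK v k (x / y)) (hy : DK v e y⁻¹) : DK v e x⁻¹ :=
  UK.dk hk (by rw [inv_div_inv]; exact h.symm hk) hy

theorem fc_bch (hK : 1 ≤ K) (hξ : ξ ≠ 0) (hh : Sch v j h) : Fc (VK v K) (v.M ^ j) (bch v K ξ h) where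
  adm := by
    obtain ⟨B, hB⟩ := hh.bdd
    obtain ⟨e, he⟩ := exists_DK v ξ
    refine ⟨⟨B, fun r => ?_⟩, v.M ^ (e + j), pow_pos v.pos _, fun r hr => ?_⟩
    · have := (norm_nonneg _).trans (hB 0)
      unfold bch
      split_ifs
      · rw [norm_mul]
        exact (mul_le_of_le_one_left (norm_nonneg _) (norm_cbF_le _ _)).trans (hB _)
      · simpa
    · obtain ⟨h1, h2, h3⟩ := bch_ne hr
      have h4 := (h1.dk hK he).mul (hh.supp _ h3)
      rw [mul_div_cancel₀ _ (h1.ne_left hK)] at h4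
      exact ⟨((h1.dk hK he).mono (by omega)).inL (cbF_mem h2).2, h4.inL (cbF_mem h2).1⟩
  inv u hu c d := by
    have h1 := mem_VK.1 hu
    have h0 := h1.ne_zero hK
    simp only [bch]
    rw [cbF_smul hK hu, mul_div_mul_left _ _ h0, mul_div_assoc]
    exact if_congr ⟨fun e => by simpa [h0] using (h1.inv hK).mul e, h1.mul⟩ rfl rfl
  per c d a := by
    refine if_ctx_congr Iff.rfl (fun e => ?_) fun _ => rfl
    have hc : c ≠ 0 := e.ne_left hK
    obtain ⟨h1, h2⟩ := mem_Lat_iff (v := v) (k := j) |>.1 ⟨a, rfl⟩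
    rw [cbF_add_mul _ _ h1, hh.per (d / c) _ (by convert h2 using 1; field_simp; ring)]
  zero := ⟨0, fun d hd => absurd rfl ((bch_ne hd).1.ne_left hK)⟩

theorem bch_comb (hK : 1 ≤ K) (hh : Sch v j h) : ∃ (k : ℕ) (T : Finset (F × F)) (g : F × F → SL(2, F))
    (a : F × F → ℂ), K ≤ k ∧ (∀ y ∈ T, InR v (g y)) ∧
      ∀ r, bch v K ξ h r = ∑ y ∈ T, a y * bw v k (rm r (g y)⁻¹) := by
  obtain ⟨e, he⟩ := exists_DK v ξ
  obtain ⟨e', he'⟩ := exists_DK v ξ⁻¹
  obtain ⟨k, hk1, hk2⟩ : ∃ k, K ≤ k ∧ e' + e' + j ≤ k := ⟨K + (e' + e' + j), by omega, by omega⟩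
  have hk := hK.trans hk1
  obtain ⟨ι, _, f, hf⟩ := exists_res v (j + (e + e) + k)
  obtain ⟨T, hT, hT'⟩ := exists_reps_fin (Ω := {r | bch v K ξ h r ≠ 0}) (E := Bx v k)
    (fun r hr => ⟨UK_refl ((bch_ne hr).1.ne_left hK), by rw [mul_comm, sub_self]; exact LK.zero⟩)
    (fun _ _ => Bx.symm hk) (fun _ _ _ => Bx.trans hk)
    (fun r => (f (r.1 / ξ), f ((v.M : F) ^ j * (r.2 / r.1)))) fun r hr y hy e => by
      obtain ⟨h1, -, h2⟩ := bch_ne hr
      obtain ⟨h3, -, h4⟩ := bch_ne hy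
      have := h1.ne_left hK
      have := h3.ne_left hK
      have := h1.ne_right hK
      have := v.M_ne
      constructor
      · unfold UK
        convert ((hf _ h1.mem_L _ h3.mem_L (congrArg Prod.fst e)).mono (j := k) (by omega)).mul_L
          (h3.symm hK).mem_L using 1
        field_simp
      · have h5 : DK v j ((v.M : F) ^ j)⁻¹ := by unfold DK; rw [mul_inv_cancel₀ (by positivity)]; exact one_mem _
        convert ((hf _ (hh.supp _ h2) _ (hh.supp _ h4) (congrArg Prod.snd e)).mul_DK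
          (h5.mul ((h1.dk hK he).mul (h3.dk hK he)))).neg using 1
        field_simp
        ring
  have : ∀ y : F × F, ∃ (g : SL(2, F)) (a : ℂ), y ∈ T → InR v g ∧
      ∀ r, a * bw v k (rm r g⁻¹) = if Bx v k r y then bch v K ξ h r else 0 := fun y => by
    by_cases hy : y ∈ T
    · obtain ⟨h1, h2, -⟩ := bch_ne (hT y hy)
      obtain ⟨g, a, hg, ha⟩ := exists_tr hk h2
      refine ⟨g, h (y.2 / y.1) * a, fun _ => ⟨hg, fun r => ?_⟩⟩
      rw [mul_assoc, ha]
      split_ifs with e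
      · have h3 := (e.1.mono hk1).trans hK h1
        have := h1.ne_left hK
        have := h3.ne_left hK
        rw [bch, if_pos h3, mul_comm, hh.per (r.2 / r.1) (y.2 / y.1)]
        convert (e.2.mono hk2).mul_DK ((h1.dk_inv hK he').mul (h3.dk_inv hK he')) using 1
        field_simp
      · rw [mul_zero]
    · exact ⟨1, 0, fun h => absurd h hy⟩
  choose g a hg using this
  refine ⟨k, T, g, a, hk1, fun y hy => (hg y hy).1, fun r => ?_⟩
  rw [Finset.sum_congr rfl fun y hy => (hg y hy).2 r]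
  by_cases hr : bch v K ξ h r = 0
  · simp [hr]
  · obtain ⟨y, ⟨hy, e⟩, hu⟩ := hT' r hr
    rw [Finset.sum_eq_single_of_mem y hy fun z hz hne => if_neg fun e => hne (hu z ⟨hz, e⟩), if_pos e]

theorem good_bch {V : Subgroup (𝓞 F)ˣ} [V.FiniteIndex] {η : (Pl F → ℝ) → ℝ} (hK : 1 ≤ K) (hV : V ≤ VK v K)
    (hη : Pou V η) (hξ : ξ ≠ 0) (hh : Sch v j h) : Good v η (bch v K ξ h) := by
  obtain ⟨k, T, g, a, hk, hg, e⟩ := bch_comb (ξ := ξ) hK hh
  obtain ⟨η', hη'⟩ := exists_pou (V ⊓ VK v k)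
  rw [Good.level v hη hη' inf_le_left fun u hu => (fc_bch hK hξ hh).inv u (hV hu), funext e]
  exact Good.sum v hη' T fun y hy => ((good_bw (hK.trans hk) hη' inf_le_right).act v (hg y hy)).smul v _

end Crest.Agent.R27.TH
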