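import Crest.Agent.R27.Model
import Crest.Agent.R27.G.Cls
import Crest.Agent.R27.G.Jac
import Crest.Agent.R17.D.Space

/-!
# Row 27, block THETA (owner helper14): definitions.  DO NOT EDIT without telling helper14.

Blueprint: `notes27/TH.md`.  `Pl F` = the `r` complex embeddings over `sgK`, `X F = (H³)^r` with coordinates
`(z, ℓ)`, `v = e^ℓ`.  A weight `ω : F × F → ℂ` on rows gives the normalised pseudo-Eisenstein series `EN η ω Y`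
(`η` = partition of unity for a group of units).  `Good`: it is Cauchy in `L²_loc` as `Y → ∞` and equidistributed in
`ℙ¹(R/π)`.  Its limit is a Fourier-Bessel series `Th τ₀ τ` (`IsTh`), `τ` is given by the residues `rho K ν ξ`.
-/

set_option autoImplicit false

namespace Crest.Agent.R27.TH

open Crest.Agent.R17 (sgK sg EntBdd gth)
open Crest.Agent.R17.D (Qf KB pw)
open Crest.NumberTheoryR.EisensteinField Crest.Agent.R27.G MeasureTheory Filter Set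
open scoped NumberField ComplexConjugate Classical Real Topology MatrixGroups

noncomputable section

/-! ## Embeddings and the space -/

/-- the complex embeddings over `sgK`: one for each infinite place -/
def Pl (F : Type) [Field F] [NumberField F] [Algebra K3 F] : Type :=
  {σ : F →+* ℂ // ∀ x : K3, σ (algebraMap K3 F x) = sgK x}

/-- the space `(H³)^r`, coordinates `(z, log v)` -/
abbrev X (F : Type) [Field F] [NumberField F] [Algebra K3 F] : Type := (Pl F → ℂ) × (Pl F → ℝ)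

variable {F : Type} [Field F] [NumberField F] [Algebra K3 F]

instance : Fintype (Pl F) := Subtype.fintype _

/-- the embedding -/
def em (x : F) (i : Pl F) : ℂ := i.1 x

/-- the absolute norm `|N x|` -/
def an (x : F) : ℝ := ∏ i : Pl F, ‖em x i‖ ^ 2

/-- the angle at infinity -/
def ang (x : F) : ℂ := ∏ i : Pl F, em x i / (‖em x i‖ : ℂ)

/-- the logarithmic embedding -/
def lg (x : F) (i : Pl F) : ℝ := Real.log ‖em x i‖

/-- `exp (2πi Tr (ν z))` -/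
def eZ (ν : F) (z : Pl F → ℂ) : ℂ :=
  ∏ i : Pl F, Complex.exp (2 * π * Complex.I * ((2 * (em ν i * z i).re : ℝ) : ℂ))

/-- the invariant measure `∏ dz dv / v³` -/
def mu : Measure (X F) := volume.withDensity fun w => ENNReal.ofReal (Real.exp (-(2 * ∑ i, w.2 i)))

/-- the Hermitian form of `w` at the place `i`, evaluated at the row `r` -/
def Qi (w : X F) (r : F × F) (i : Pl F) : ℝ := Qf (w.1 i) (Real.exp (w.2 i)) (em r.1 i) (em r.2 i)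

/-- its norm -/
def NQ (w : X F) (r : F × F) : ℝ := ∏ i, Qi w r i

/-- its logarithm; `lQ w (u r) = lQ w r + lg u` -/
def lQ (w : X F) (r : F × F) (i : Pl F) : ℝ := Real.log (Qi w r i) / 2

/-- row times matrix -/
def rm (r : F × F) (g : SL(2, F)) : F × F := (r.1 * g 0 0 + r.2 * g 1 0, r.1 * g 0 1 + r.2 * g 1 1)

/-- the action; `Qi (act g w) r = Qi w (rm r g)` -/
def act (g : SL(2, F)) (w : X F) : X F :=
  (fun i => ((em (g 0 0) i * w.1 i + em (g 0 1) i) * conj (em (g 1 0) i * w.1 i + em (g 1 1) i) +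
      em (g 0 0) i * conj (em (g 1 0) i) * (Real.exp (w.2 i) : ℂ) ^ 2) /
        ((Real.exp (w.2 i) * Qi w (g 1 0, g 1 1) i : ℝ) : ℂ),
    fun i => -Real.log (Qi w (g 1 0, g 1 1) i))

/-- `x ∈ m⁻¹ 𝓞` -/
def InL (m : ℕ) (x : F) : Prop := ∃ a : 𝓞 F, (m : F) * x = a

/-- the lattice `q 𝓞` -/
def Lat (F : Type) [Field F] (q : ℕ) : AddSubgroup F where
  carrier := {x | ∃ a : 𝓞 F, x = q * a}
  zero_mem' := ⟨0, by simp⟩
  add_mem' := by
    rintro _ _ ⟨a, rfl⟩ ⟨b, rfl⟩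
    exact ⟨a + b, by simp [mul_add]⟩
  neg_mem' := by
    rintro _ ⟨a, rfl⟩
    exact ⟨-a, by simp⟩

/-- `ν` is in the dual of `q 𝓞` -/
def Dl (q : ℕ) (ν : F) : Prop := ∀ a : 𝓞 F, eT (ν * (q * a)) = 1

/-- a bounded fundamental domain of `q 𝓞` -/
structure IsFD (q : ℕ) (D : Set (Pl F → ℂ)) : Prop where
  meas : MeasurableSet D
  bdd : Bornology.IsBounded D
  uniq : ∀ z : Pl F → ℂ, ∃! x : Lat F q, z + em (x : F) ∈ D

/-- a partition of unity for the group `V` of units -/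
structure Pou (V : Subgroup (𝓞 F)ˣ) (η : (Pl F → ℝ) → ℝ) : Prop where
  meas : Measurable η
  nonneg : ∀ l, 0 ≤ η l
  le_one : ∀ l, η l ≤ 1
  diag : ∀ l (t : ℝ), η (l + fun _ => t) = η l
  bal : ∃ B : ℝ, ∀ l, η l ≠ 0 → ∀ i j, |l i - l j| ≤ B
  sum : ∀ l, HasSum (fun u : V => η (l + lg (((u : (𝓞 F)ˣ) : 𝓞 F) : F))) 1

/-! ## Pseudo-Eisenstein series -/

/-- the test function -/
def ff (t : ℝ) : ℝ := if 1 < t ∧ t ≤ 2 then t⁻¹ else 0

/-- the normalised pseudo-Eisenstein series -/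
def EN (η : (Pl F → ℝ) → ℝ) (ω : F × F → ℂ) (Y : ℝ) (w : X F) : ℂ :=
  (Y ^ (-(4 / 3) : ℝ) : ℝ) * ∑' r : F × F, ω r * ((η (lQ w r) * ff (NQ w r / Y) : ℝ) : ℂ)

/-- bounded and supported in a lattice -/
structure Adm (ω : F × F → ℂ) : Prop where
  bdd : ∃ B : ℝ, ∀ r, ‖ω r‖ ≤ B
  supp : ∃ m : ℕ, 0 < m ∧ ∀ r, ω r ≠ 0 → InL m r.1 ∧ InL m r.2

/-- the hypotheses of the Fourier expansion -/
structure Fc (V : Subgroup (𝓞 F)ˣ) (q : ℕ) (ω : F × F → ℂ) : Prop where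
  adm : Adm ω
  inv : ∀ u ∈ V, ∀ c d : F, ω (((u : (𝓞 F)ˣ) : 𝓞 F) * c, ((u : (𝓞 F)ˣ) : 𝓞 F) * d) = ω (c, d)
  per : ∀ (c d : F) (a : 𝓞 F), ω (c, d + c * (q * a)) = ω (c, d)
  zero : ∃ B : ℝ, ∀ d : F, ω (0, d) ≠ 0 → an d ≤ B

/-- tends to zero in `L²_loc` -/
def L2z {α : Type} (l : Filter α) (u : α → X F → ℂ) : Prop :=
  (∀ a, Measurable (u a)) ∧
    ∀ C : Set (X F), IsCompact C → Tendsto (fun a => ∫⁻ w in C, ‖u a w‖ₑ ^ 2 ∂mu) l (𝓝 0)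

/-- Cauchy in `L²_loc` -/
def Cau (η : (Pl F → ℝ) → ℝ) (ω : F × F → ℂ) : Prop :=
  L2z (atTop ×ˢ atTop) fun (p : ℝ × ℝ) w => EN η ω p.1 w - EN η ω p.2 w

/-- `S(c, ν) = ∑_{d mod c q 𝓞} ω(c, d) e(Tr ν d / c)` -/
def SS (q : ℕ) (ω : F × F → ℂ) (ν c : F) : ℂ :=
  if c = 0 then 0 else ∑ᶠ t : F ⧸ Lat F q, ω (c, c * Quotient.out t) * eT (ν * Quotient.out t)

/-- the coefficients of the `ν`-th Fourier coefficient -/
def co (η : (Pl F → ℝ) → ℝ) (q : ℕ) (ω : F × F → ℂ) (ν c : F) : ℂ := η (lg c) * SS q ω ν c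

/-! ## Kernels and residues -/

/-- `∏ (‖z‖² + v²) / v` -/
def PP (w : X F) : ℝ := NQ w (1, 0)

/-- bounded, measurable, of bounded support -/
structure Tst (h : (Pl F → ℝ) → ℂ) : Prop where
  meas : Measurable h
  bdd : ∃ B : ℝ, ∀ l, ‖h l‖ ≤ B ∧ (h l ≠ 0 → ‖l‖ ≤ B)

/-- the kernel of frequency `ν` -/
def kn (ν : F) (h : (Pl F → ℝ) → ℂ) (w : X F) : ℂ := conj (eZ ν w.1) * h w.2

/-- multiplicative convolution of `g` with the kernel `k` -/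
def cv (g : ℝ → ℂ) (k : X F → ℂ) (t : ℝ) : ℂ := ∫ w : X F, g (t * PP w) * k w

/-- the Mellin transform of the kernel at `4/3` -/
def mt (k : X F → ℂ) : ℂ := ∫ w : X F, ((PP w ^ (-(4 / 3) : ℝ) : ℝ) : ℂ) * k w

/-- `ff` with complex values -/
def fc (t : ℝ) : ℂ := ff t

/-- the reference test function -/
def h0 (F : Type) [Field F] [NumberField F] [Algebra K3 F] : (Pl F → ℝ) → ℂ := (Icc 0 1).indicator 1

/-- the reference profile -/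
def gst (F : Type) [Field F] [NumberField F] [Algebra K3 F] : ℝ → ℂ := cv fc (kn (1 : F) (h0 F))

/-- normalised smooth sums -/
def Lm {α : Type} (g : ℝ → ℂ) (a : α → ℂ) (sz : α → ℝ) (Y : ℝ) : ℂ :=
  (Y ^ (-(4 / 3) : ℝ) : ℝ) * ∑' i, a i * g (sz i / Y)

/-- locally finite coefficients -/
def LF {α : Type} (a : α → ℂ) (sz : α → ℝ) : Prop :=
  (∀ i, a i ≠ 0 → 0 < sz i) ∧ ∀ B : ℝ, {i | a i ≠ 0 ∧ sz i ≤ B}.Finite

/-- a profile: measurable, zero near `∞`, bounded away from `0` -/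
structure Prf (g : ℝ → ℂ) : Prop where
  meas : Measurable g
  top : ∃ B : ℝ, ∀ t, B < t → g t = 0
  bdd : ∀ δ : ℝ, 0 < δ → ∃ C : ℝ, ∀ t, δ ≤ t → ‖g t‖ ≤ C

/-- `τ` is the residue at `4/3` of `∑ a i · sz i ^ (-s)` -/
def HasT (F : Type) [Field F] [NumberField F] [Algebra K3 F] {α : Type} (a : α → ℂ) (sz : α → ℝ) (τ : ℂ) :
    Prop := Tendsto (Lm (gst F) a sz) atTop (𝓝 τ)

/-! ## Fourier-Bessel series -/

/-- the Whittaker function -/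
def WW (ν : F) (l : Pl F → ℝ) : ℂ :=
  ∏ i, ((‖em ν i‖ ^ (1 / 3 : ℝ) * Real.exp (l i) : ℝ) : ℂ) * KB (1 / 3) (2 * π * ‖em ν i‖ * Real.exp (l i))

/-- admissible coefficients -/
structure Cf (τ : F → ℂ) : Prop where
  zero : τ 0 = 0
  bdd : ∃ B : ℝ, ∀ ν, ‖τ ν‖ ≤ B
  supp : ∃ m : ℕ, 0 < m ∧ ∀ ν, τ ν ≠ 0 → InL m ν

/-- the Fourier-Bessel series -/
def Th (τ₀ : ℂ) (τ : F → ℂ) (w : X F) : ℂ :=
  τ₀ * (Real.exp (2 / 3 * ∑ i, w.2 i) : ℝ) + ∑' ν : F, τ ν * WW ν w.2 * eZ ν w.1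

/-- `Th τ₀ τ` is the limit of `EN η ω Y` -/
def IsTh (η : (Pl F → ℝ) → ℝ) (ω : F × F → ℂ) (τ₀ : ℂ) (τ : F → ℂ) : Prop :=
  Cf τ ∧ L2z atTop fun (Y : ℝ) w => EN η ω Y w - Th τ₀ τ w

/-- the differentiated series on the torus (`e = true`: `∂_z`, `e = false`: `∂_{z̄}`) -/
def fb (e : Bool) (b : F → ℂ) (l : Pl F → ℝ) : ℂ := ∑' ν : F, b ν * WW ν l * ∏ i, pw e (em ν i)

/-- `ν` parametrises the `V`-orbits in the support of `b` -/
structure Par {α : Type} (V : Subgroup (𝓞 F)ˣ) (b : F → ℂ) (ν : α → F) : Prop where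
  ne : ∀ a, ν a ≠ 0
  inj : ∀ a a', ∀ u ∈ V, ν a' = ((u : (𝓞 F)ˣ) : 𝓞 F) * ν a → a' = a
  surj : ∀ x, b x ≠ 0 → ∃ a, ∃ u ∈ V, x = ((u : (𝓞 F)ˣ) : 𝓞 F) * ν a

/-! ## Levels, symbols, weights -/

variable (v : Lv F)

/-- `x ∈ M^k L` -/
def LK (k : ℕ) (x : F) : Prop := ∃ l ∈ v.L, x = (v.M : F) ^ k * l

/-- `x ∈ 1 + M^k L` -/
def UK (k : ℕ) (x : F) : Prop := LK v k (x - 1)

/-- `x ∈ M^(-k) L` -/
def DK (k : ℕ) (x : F) : Prop := (v.M : F) ^ k * x ∈ v.L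

/-- the units `≡ 1 (mod M^k)` -/
def VK (k : ℕ) : Subgroup (𝓞 F)ˣ :=
  (Units.map (Ideal.Quotient.mk (Ideal.span {(v.M : 𝓞 F) ^ k})).toMonoidHom).ker

/-- the cubic symbol `(x / y)₃`, zero outside `R` -/
def cbF (x y : F) : ℂ := if h : x ∈ v.R ∧ y ∈ v.R then v.sx ⟨x, h.1⟩ ⟨y, h.2⟩ ^ 2 else 0

/-- the cubic Hilbert symbol at the primes over `M` -/
def hil (x y : F) : ℂ := v.exists_hil.choose (v.cl x) (v.cl y) ^ 2

/-- the size at the primes over `M`: `ns c = an c / N c` for `c ∈ R`, `ns = 1` on `Lˣ` -/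
def ns (x : F) : ℝ := if h : ∃ c : v.R, v.U (c / x) then an (h.choose : F) / v.N h.choose else 0

/-- a coprime row in `R` -/
def Row (r : F × F) : Prop := ∃ c d : v.R, IsCoprime c d ∧ r = ((c : F), (d : F))

/-- `g ∈ SL₂(R)` -/
def InR (g : SL(2, F)) : Prop := ∀ i j, g i j ∈ v.R

/-- restriction to the rows that have the same image as `r₀` in `ℙ¹(R/π)` -/
def cut (π' : v.R) (r₀ : F × F) (ω : F × F → ℂ) (r : F × F) : ℂ :=
  if (r.1 * r₀.2 - r.2 * r₀.1) / (π' : F) ∈ v.R then ω r else 0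

/-- Cauchy and equidistributed -/
structure Good (η : (Pl F → ℝ) → ℝ) (ω : F × F → ℂ) : Prop where
  adm : Adm ω
  cau : Cau η ω
  van : ∀ p : v.R, Prime p → ∀ r₀, Row v r₀ →
    L2z atTop fun (Y : ℝ) w => EN η (cut v p r₀ ω) Y w - ((v.N p : ℂ) + 1)⁻¹ * EN η ω Y w

/-- the base weight: the Kubota symbol on the rows `≡ (0, 1) (mod M^k)` -/
def bw (k : ℕ) (r : F × F) : ℂ :=
  if ∃ c d : 𝓞 F, r = ((c : F), (d : F)) ∧ (v.M : 𝓞 F) ^ k ∣ c ∧ (v.M : 𝓞 F) ^ k ∣ d - 1 then cbF v r.1 r.2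
  else 0

/-- a Schwartz function at the primes over `M` -/
structure Sch (j : ℕ) (h : F → ℂ) : Prop where
  bdd : ∃ B : ℝ, ∀ t, ‖h t‖ ≤ B
  supp : ∀ t, h t ≠ 0 → DK v j t
  per : ∀ t t', LK v j (t' - t) → h t' = h t

/-- its Fourier transform -/
def hat (q : ℕ) (h : F → ℂ) (ν : F) : ℂ :=
  ∑ᶠ t : F ⧸ Lat F q, if Quotient.out t ∈ v.R then h (Quotient.out t) * eT (ν * Quotient.out t) else 0

/-- the big cell weight -/
def bch (K : ℕ) (ξ : F) (h : F → ℂ) (r : F × F) : ℂ :=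
  if UK v K (r.1 / ξ) then cbF v r.2 r.1 * h (r.2 / r.1) else 0

/-- the reflected weight -/
def dw (K : ℕ) (ξ : F) (h : F → ℂ) (c₀ : F) (r : F × F) : ℂ :=
  if UK v K (-(c₀ * r.2) / ξ) then cbF v r.1 r.2 * hil v r.2 c₀ * h (-r.1 / (c₀ ^ 2 * r.2)) else 0

/-- standard weights of level `k` -/
structure Std (k : ℕ) (ω : F × F → ℂ) : Prop where
  bdd : ∃ B : ℝ, ∀ r, ‖ω r‖ ≤ B
  supp : ∀ r, ω r ≠ 0 → r.1 ∈ v.R ∧ r.2 ∈ v.R ∧ DK v k r.1 ∧ DK v k r.2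
  zero : ∃ B : ℝ, ∀ d : F, ω (0, d) ≠ 0 → an d ≤ B
  inv0 : ∀ u ∈ VK v (2 * k), ∀ d : F, ω (0, ((u : (𝓞 F)ˣ) : 𝓞 F) * d) = ω (0, d)
  form : ∃ φ : F → F → ℂ, (∃ B : ℝ, ∀ x y, ‖φ x y‖ ≤ B) ∧ (∀ x y, φ x y ≠ 0 → DK v k x ∧ DK v k y) ∧
    (∀ x x' y y', UK v k (x' / x) → LK v k (y' - y) → φ x' y' = φ x y) ∧
    ∀ c d : F, c ≠ 0 → ω (c, d) = cbF v d c * φ c d

/-- the model of the abstract structure -/
class Md (v : Lv F) extends Ab.Ar v.R where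
  eQ_eq : ∀ y c : v.R, Ab.eQ y c = v.psi ((y : F) / (c : F))
  sx_eq : ∀ u n : v.R, Ab.sx u n = v.sx u n
  al_eq : ∀ n : v.R, Ab.al n = v.al n
  sec : ∀ n n' u : v.R, Ab.Prim n → Ab.Prim n' → IsUnit u → v.U ((u : F) * n / n') →
    Ab.cls n = Ab.cls n' ∧ Ab.U1 u

variable [Md v]

/-- the cubic Gauss sum `G(ν, c)`, zero for `c ∉ R` -/
def GF (ν : v.R) (c : F) : ℂ := if h : c ∈ v.R then Ab.gs 2 ν ⟨c, h⟩ else 0

/-- `G(ν, c)` for the generator `c ∈ ξ (1 + M^K L)` of the ideal `(n)`, if there is one -/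
def Gs (K : ℕ) (ν : v.R) (ξ : F) (n : v.R) : ℂ :=
  if h : ∃ c : v.R, Associated n c ∧ UK v K (c / ξ) then Ab.gs 2 ν h.choose else 0

/-- Patterson's residue -/
def rho (K : ℕ) (ν : v.R) (ξ : F) : ℂ :=
  limUnder atTop (Lm (gst F) (fun n : Ab.Pr v.R => Gs v K ν ξ n) fun n => Ab.nm (n : v.R))

/-- the residues exist and are equidistributed -/
structure HH (K : ℕ) : Prop where
  ex : ∀ (ν : v.R) (ξ : F), ν ≠ 0 → ξ ≠ 0 →
    HasT F (fun n : Ab.Pr v.R => Gs v K ν ξ n) (fun n => Ab.nm (n : v.R)) (rho v K ν ξ)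
  van : ∀ (ν : v.R) (ξ : F) (p : v.R), ν ≠ 0 → ξ ≠ 0 → Prime p →
    HasT F (fun n : Ab.Pr v.R => if p ∣ (n : v.R) then Gs v K ν ξ n else 0) (fun n => Ab.nm (n : v.R))
      (((Ab.nm p : ℂ) + 1)⁻¹ * rho v K ν ξ)

end

end Crest.Agent.R27.TH
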