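import Crest.Agent.R27.TH.Coc

/-! Row 27, THETA, block ARI (helper6, helper79): the reflected weight. -/

set_option autoImplicit false
set_option linter.unusedSectionVars false

namespace Crest.Agent.R27.TH

open Crest.NumberTheoryR.EisensteinField Crest.Agent.R27.G Filter Set
open scoped NumberField ComplexConjugate Classical MatrixGroups

variable {F : Type} [Field F] [NumberField F] [Algebra K3 F] {v : Lv F} [Md v]

variable {K j : ℕ} {ξ : F} {h : F → ℂ}

theorem dwa_unit (hK : 1 ≤ K) (hh : Sch v j h) {u : F} (hu : UK v (K + 2 * j) u) (t : F) : h (t * u) = h t := by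
  by_cases ht : DK v j t
  · refine hh.per _ _ ?_
    have h1 : LK v (j + (K + j)) (u - 1) := by
      rw [show j + (K + j) = K + 2 * j by ring]; exact hu
    rw [show t * u - t = t * (u - 1) by ring]
    exact (h1.DK_mul ht).mono (by omega)
  · have h0 : h t = 0 := by_contra fun e => ht (hh.supp t e)
    rw [h0]
    by_contra e
    have h1 := (hh.supp _ e).mul_L (hu.inv_mem_L (by omega))
    rw [mul_assoc, mul_inv_cancel₀ (hu.ne_zero (by omega)), mul_one] at h1
    exact ht h1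

theorem dwa_iff (hK : 1 ≤ K) {x y : F} (hxy : UK v K (x / y)) : UK v K (x / ξ) ↔ UK v K (y / ξ) :=
  ⟨fun e => (hxy.symm hK).trans hK e, fun e => hxy.trans hK e⟩

theorem dwa_unit_right (x y : F) {u : v.R} (hu : IsUnit u) : cbF v x (u * y) = cbF v x y := by
  by_cases hR : x ∈ v.R ∧ y ∈ v.R
  · lift x to v.R using hR.1
    lift y to v.R using hR.2
    rw [show (u : F) * y = ((u * y : v.R) : F) from rfl, cbF_coe, cbF_coe, v.sx_mul_right, v.sx_unit_right _ hu,
      one_mul]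
  · rw [cbF_eq_zero hR, cbF_eq_zero]
    rintro ⟨h1, h2⟩
    obtain ⟨w, hw⟩ := hu.exists_left_inv
    have hw' : (w : F) * u = 1 := by exact_mod_cast congrArg (fun x : v.R => (x : F)) hw
    have := mul_mem w.2 h2
    rw [← mul_assoc, hw', one_mul] at this
    exact hR ⟨h1, this⟩

theorem dwa_neg_right (x y : F) : cbF v x (-y) = cbF v x y := by
  have := dwa_unit_right (v := v) x y (u := -1) isUnit_one.neg
  simpa using this

theorem dwa_zero {y : F} (hy : cbF v 0 y ≠ 0) : ∃ u : v.R, IsUnit u ∧ y = u := by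
  obtain ⟨-, c, d, hc, e⟩ := cbF_ne_zero.1 hy
  obtain ⟨e1, e2⟩ := Prod.ext_iff.1 e
  have : c = 0 := Subtype.ext e1.symm
  exact ⟨d, isCoprime_zero_left.1 (this ▸ hc), e2⟩

/-- the symbol of the translated row -/
theorem dwa_sym {g : SL(2, F)} (hg : InR v g) (hc : g 1 0 ≠ 0) {x y : F} (hy : y ≠ 0)
    (hU : v.U ((rm (x, y) g⁻¹).1 / (-(g 1 0 * y)))) :
    cbF v (rm (x, y) g⁻¹).2 (rm (x, y) g⁻¹).1 = cbF v (g 0 0) (g 1 0) * (cbF v x y * hil v y (g 1 0)) := by
  have hc' : (rm (x, y) g⁻¹).1 ≠ 0 := (UK_one_iff.2 hU).ne_left le_rfl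
  by_cases hR : x ∈ v.R ∧ y ∈ v.R
  swap
  · rw [cbF_eq_zero hR, zero_mul, mul_zero, cbF_eq_zero]
    rintro ⟨h2, h1⟩
    have e : (x, y) = rm (rm (x, y) g⁻¹) g := by rw [← rm_mul, inv_mul_cancel, rm_one]
    obtain ⟨e1, e2⟩ := Prod.ext_iff.1 e
    refine hR ⟨?_, ?_⟩
    · rw [show x = _ from e1]; exact add_mem (mul_mem h1 (hg 0 0)) (mul_mem h2 (hg 1 0))
    · rw [show y = _ from e2]; exact add_mem (mul_mem h1 (hg 0 1)) (mul_mem h2 (hg 1 1))
  lift x to v.R using hR.1
  lift y to v.R using hR.2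
  by_cases hx : x = 0
  · subst hx
    obtain ⟨a, ha⟩ : ∃ a : v.R, g 0 0 = a := ⟨⟨_, hg 0 0⟩, rfl⟩
    obtain ⟨C, hC⟩ : ∃ a : v.R, g 1 0 = a := ⟨⟨_, hg 1 0⟩, rfl⟩
    have e : rm (((0 : v.R) : F), (y : F)) g⁻¹ = (-((y * C : v.R) : F), ((y * a : v.R) : F)) := by
      rw [rm_inv, ha, hC]; simp
    rw [e, ha, hC]
    simp only [dwa_neg_right]
    by_cases hu : IsUnit y
    · have hC0 : C ≠ 0 := fun e => hc (by rw [hC, e]; rfl)
      rw [← cbF_unit hu hC0]
      simp only [cbF_coe, v.sx_mul_right, v.sx_mul_left, v.sx_unit_right _ hu]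
      ring
    · have h1 : cbF v ((0 : v.R) : F) y = 0 := by_contra fun e => by
        obtain ⟨u, hu', e'⟩ := dwa_zero (v := v) e
        exact hu (Subtype.ext e' ▸ hu')
      have h2 : cbF v ((y * a : v.R) : F) ((y * C : v.R) : F) = 0 := by_contra fun e => by
        obtain ⟨-, c, d, hcd, e'⟩ := cbF_ne_zero.1 e
        obtain ⟨e1, e2⟩ := Prod.ext_iff.1 e'
        have e1' : y * a = c := Subtype.ext e1
        have e2' : y * C = d := Subtype.ext e2
        exact hu (hcd.isUnit_of_dvd' ⟨a, e1'.symm⟩ ⟨C, e2'.symm⟩)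
      rw [h1, h2]; simp
  have hx' : (x : F) ≠ 0 := v.clsd_ne hx
  have e10 : g⁻¹ 1 0 = -g 1 0 := by rw [Matrix.SpecialLinearGroup.SL2_inv_expl]; rfl
  have e11 : g⁻¹ 1 1 = g 0 0 := by rw [Matrix.SpecialLinearGroup.SL2_inv_expl]; rfl
  rw [cbF_rm (InR.inv v hg) hx (by rw [e10]; exact neg_ne_zero.2 hc) hc', e10, e11, dwa_neg_right,
    hil_congr_right _ hU, hil_congr_left hU, cbF_recip hy hx']
  simp only [hil_neg_left, hil_neg_right]
  rw [hil_mul_left hc hy, hil_mul_right _ hc hy, hil_self]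
  have h1 := hil_mul_swap (v := v) (x : F) y
  have h2 := hil_mul_swap (v := v) (x : F) (g 1 0)
  linear_combination (cbF v x y * cbF v (g 0 0) (g 1 0) * hil v y (g 1 0)) *
    ((hil v x (g 1 0) * hil v (g 1 0) x) * h1 + h2)

theorem dw_eq (hK : 1 ≤ K) (hh : Sch v j h) {g : SL(2, F)} (hg : InR v g) (hc : g 1 0 ≠ 0)
    (ha : LK v j (g 0 0 / g 1 0)) (hd : LK v (K + 3 * j) (g 1 0 * g 1 1)) (r : F × F) :
    bch v K ξ h (rm r g⁻¹) = cbF v (g 0 0) (g 1 0) * dw v K ξ h (g 1 0) r := by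
  obtain ⟨x, y⟩ := r
  have hdet : g 0 0 * g 1 1 - g 0 1 * g 1 0 = 1 := by
    have := g.det_coe; rwa [Matrix.det_fin_two] at this
  have hd' : LK v (j + (K + 2 * j)) (g 1 0 * g 1 1) := by
    rw [show j + (K + 2 * j) = K + 3 * j by ring]; exact hd
  have e1 : (rm (x, y) g⁻¹).1 = x * g 1 1 - y * g 1 0 := by rw [rm_inv]
  have e2 : (rm (x, y) g⁻¹).2 = -(x * g 0 1) + y * g 0 0 := by rw [rm_inv]
  -- the main case
  have main : y ≠ 0 → DK v j (-x / (g 1 0 ^ 2 * y)) →
      bch v K ξ h (rm (x, y) g⁻¹) = cbF v (g 0 0) (g 1 0) * dw v K ξ h (g 1 0) (x, y) := by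
    intro hy ht
    have hu : UK v (K + 2 * j) ((rm (x, y) g⁻¹).1 / (-(g 1 0 * y))) := by
      have := hd'.DK_mul ht
      rw [UK, e1]
      convert this using 1
      field_simp
      ring
    have hc' : (rm (x, y) g⁻¹).1 ≠ 0 := hu.ne_left (by omega)
    have hs : h ((rm (x, y) g⁻¹).2 / (rm (x, y) g⁻¹).1) = h (-x / (g 1 0 ^ 2 * y)) := by
      rw [← dwa_unit hK hh (hu.symm (by omega)) (-x / (g 1 0 ^ 2 * y))]
      refine hh.per _ _ ?_
      convert ha.neg using 1
      rw [e1] at hc'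
      rw [e1, e2]
      field_simp
      linear_combination x * hdet
    rw [bch, dw, dwa_iff hK (hu.mono (by omega)), hs, dwa_sym hg hc hy (hu.U (by omega))]
    split_ifs
    · ring
    · simp
  by_cases h1 : bch v K ξ h (rm (x, y) g⁻¹) = 0
  · by_cases h2 : dw v K ξ h (g 1 0) (x, y) = 0
    · rw [h1, h2, mul_zero]
    · rw [dw] at h2
      split_ifs at h2 with h3
      · refine main (fun e => h3.ne_left hK (by simp [e])) (hh.supp _ (right_ne_zero_of_mul h2))
      · exact absurd rfl h2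
  · have h2 := h1
    rw [bch] at h2
    split_ifs at h2 with h3
    swap
    · exact absurd rfl h2
    have hc' := h3.ne_left hK
    have hs := (hh.supp _ (right_ne_zero_of_mul h2)).add (DK_of_L (k := j) ha.mem_L)
    have hu : UK v (K + 2 * j) ((-(g 1 0 * y)) / (rm (x, y) g⁻¹).1) := by
      have := (hd'.DK_mul hs).neg
      rw [UK]
      convert this using 1
      generalize (rm (x, y) g⁻¹).1 = c' at e1 hc' ⊢
      generalize (rm (x, y) g⁻¹).2 = d' at e2 ⊢
      field_simp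
      linear_combination (g 1 0 * g 1 1) * e2 + (g 0 0 * g 1 1 - 1) * e1 + (x * g 1 1) * hdet
    have hy : y ≠ 0 := fun e => hu.ne_left (by omega) (by simp [e])
    refine main hy ?_
    convert hs.mul_L (hu.inv_mem_L (by omega)) using 1
    generalize (rm (x, y) g⁻¹).1 = c' at e1 hc' ⊢
    generalize (rm (x, y) g⁻¹).2 = d' at e2 ⊢
    field_simp
    linear_combination g 1 0 * e2 + g 0 0 * e1 + x * hdet

theorem dw_congr (hK : 1 ≤ K) (hh : Sch v j h) {c c₀ : F} (hc : UK v (K + 2 * j) (c / c₀)) :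
    dw v K ξ h c = dw v K ξ h c₀ := by
  funext r
  have hk : 1 ≤ K + 2 * j := by omega
  have h0 := hc.ne_left hk
  have h0' := hc.ne_right hk
  by_cases hy : r.2 = 0
  · simp [dw, hy, show ¬ UK v K 0 from fun e => e.ne_zero hK rfl]
  have h1 : UK v K (-(c * r.2) / -(c₀ * r.2)) := by
    convert hc.mono (Nat.le_add_right _ _) using 1
    field_simp
  have h2 : h (-r.1 / (c ^ 2 * r.2)) = h (-r.1 / (c₀ ^ 2 * r.2)) := by
    rw [← dwa_unit hK hh (hc.pow 2) (-r.1 / (c ^ 2 * r.2))]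
    congr 1
    field_simp
  rw [dw, dw, dwa_iff hK h1, h2, hil_UK_right hk _ hc]

theorem std_dw (hK : 1 ≤ K) (hξ : ξ ≠ 0) {c₀ : F} (hc : c₀ ≠ 0) (hh : Sch v j h) :
    ∃ k₀, ∀ k ≥ k₀, Std v k (dw v K ξ h c₀) := by
  obtain ⟨m, hm⟩ := exists_DK_finset v {ξ / c₀, c₀ / ξ, c₀ ^ 2}
  have hm1 : DK v m (ξ / c₀) := hm _ (by simp)
  have hm2 : DK v m (c₀ / ξ) := hm _ (by simp)
  have hm3 : DK v m (c₀ ^ 2) := hm _ (by simp)
  obtain ⟨B, hB⟩ := hh.bdd
  have hB0 : 0 ≤ B := (norm_nonneg _).trans (hB 0)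
  refine ⟨K + 2 * j + 2 * m, fun k hk => ?_⟩
  have hD : ∀ x y : F, UK v K (-(c₀ * y) / ξ) → h (-x / (c₀ ^ 2 * y)) ≠ 0 → DK v k x ∧ DK v k y := by
    intro x y h1 h2
    have hy : y ≠ 0 := fun e => h1.ne_left hK (by simp [e])
    have h3 : DK v m y := by
      convert (hm1.mul_L h1.mem_L).neg using 1
      field_simp
    refine ⟨?_, h3.mono (by omega)⟩
    convert (((hh.supp _ h2).mul hm3).mul h3).neg.mono (show j + m + m ≤ k by omega) using 1
    field_simp
  refine ⟨⟨B, fun r => ?_⟩, fun r hr => ?_, ⟨ns v ξ / ns v c₀, fun d hd => ?_⟩, fun u hu d => ?_,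
    fun x y => if UK v K (-(c₀ * y) / ξ) then hil v x y * hil v y c₀ * h (-x / (c₀ ^ 2 * y)) else 0,
    ⟨B, fun x y => ?_⟩, fun x y hxy => ?_, fun x x' y y' hx hy => ?_, fun c d hc' => ?_⟩
  · rw [dw]
    split_ifs
    · rw [norm_mul, norm_mul, norm_hil, mul_one]
      exact (mul_le_of_le_one_left (norm_nonneg _) (norm_cbF_le _ _)).trans (hB _)
    · simpa using hB0
  · rw [dw] at hr
    split_ifs at hr with h1
    · have h2 : r.1 ∈ v.R ∧ r.2 ∈ v.R := by_contra fun e => hr (by rw [cbF_eq_zero e]; simp)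
      exact ⟨h2.1, h2.2, hD _ _ h1 (right_ne_zero_of_mul hr)⟩
    · exact absurd rfl hr
  · rw [dw] at hd
    split_ifs at hd with h1
    · obtain ⟨u, hu, rfl⟩ := dwa_zero (left_ne_zero_of_mul (left_ne_zero_of_mul hd))
      have h2 := ns_UK hK h1
      rw [ns_neg, ns_mul, ns_unit hu] at h2
      rw [← h2, mul_div_cancel_left₀ _ (ns_pos hc).ne']
    · exact absurd rfl hd
  · have hu' : UK v K ((u : 𝓞 F) : F) := (mem_VK.1 hu).mono (by omega)
    by_cases hd : d = 0
    · simp [hd]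
    have h1 : UK v K (-(c₀ * (((u : 𝓞 F) : F) * d)) / -(c₀ * d)) := by
      convert hu' using 1
      field_simp
    have h2 : UK v K (((u : 𝓞 F) : F) * d / d) := by rwa [mul_div_cancel_right₀ _ hd]
    have h3 := dwa_unit_right (v := v) 0 d (u := v.up u) (u.isUnit.map _)
    rw [v.coe_up] at h3
    simp only [dw, dwa_iff hK h1, hil_UK_left hK h2, h3, neg_zero, zero_div]
  · dsimp only
    split_ifs
    · rw [norm_mul, norm_mul, norm_hil, norm_hil, mul_one, one_mul]; exact hB _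
    · simpa using hB0
  · dsimp only at hxy
    split_ifs at hxy with h1
    · exact hD _ _ h1 (right_ne_zero_of_mul hxy)
    · exact absurd rfl hxy
  · have key : ∀ y y' : F, LK v k (y' - y) → UK v K (-(c₀ * y) / ξ) → UK v (K + 2 * j) (y' / y) := by
      intro y y' hy h1
      have hy0 : y ≠ 0 := fun e => h1.ne_left hK (by simp [e])
      have h3 : DK v m y⁻¹ := by
        convert (hm2.mul_L (h1.inv_mem_L hK)).neg using 1
        field_simp
      have h4 := (hy.mono (show m + (K + 2 * j) ≤ k by omega)).mul_DK h3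
      rw [UK]
      convert h4 using 1
      field_simp
    have hk1 : 1 ≤ K + 2 * j := by omega
    have neg : ∀ y y' : F, UK v (K + 2 * j) (y' / y) → UK v K (-(c₀ * y') / -(c₀ * y)) := by
      intro y y' h1
      have := h1.ne_right hk1
      convert h1.mono (Nat.le_add_right _ _) using 1
      field_simp
    by_cases h1 : UK v K (-(c₀ * y) / ξ)
    · have h2 := key y y' hy h1
      have hx' : UK v (K + 2 * j) (x' / x) := hx.mono (by omega)
      have h3 : h (-x' / (c₀ ^ 2 * y')) = h (-x / (c₀ ^ 2 * y)) := by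
        rw [← dwa_unit hK hh (hx'.mul (h2.symm hk1)) (-x / (c₀ ^ 2 * y))]
        have := hx'.ne_right hk1
        have := h2.ne_right hk1
        have := h2.ne_left hk1
        congr 1
        field_simp
      simp only [dwa_iff hK (neg _ _ h2), h3, hil_UK_left hk1 hx', hil_UK_left hk1 h2, hil_UK_right hk1 _ h2]
    · have h2 : ¬ UK v K (-(c₀ * y') / ξ) := fun e =>
        h1 ((dwa_iff hK (neg _ _ (key y' y (by simpa using hy.neg) e))).2 e)
      simp only [if_neg h1, if_neg h2]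
  · simp only [dw]
    split_ifs with h1
    · have hd : d ≠ 0 := fun e => h1.ne_left hK (by simp [e])
      rw [cbF_recip hc' hd]; ring
    · simp

end Crest.Agent.R27.TH
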