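import Crest.Agent.R27.TH.Defs

/-! Row 27, block THETA / EMB (owner helper94): the embeddings `Pl F`. -/

set_option autoImplicit false

namespace Crest.Agent.R27.TH

open Crest.Agent.R17 (sgK sg)
open Crest.NumberTheoryR.EisensteinField Crest.Agent.R27.G NumberField Finset
open scoped ComplexConjugate Classical Real

variable {F : Type} [Field F] [NumberField F] [Algebra K3 F]

theorem sgK_zeta : sgK (IsCyclotomicExtension.zeta 3 ℚ K3) = Complex.exp (2 * π * Complex.I / (3 : ℕ)) := by
  have h := (IsCyclotomicExtension.zeta_spec 3 ℚ K3).embeddingsEquivPrimitiveRoots_apply_coe ℂ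
    (Polynomial.cyclotomic.irreducible_rat (by norm_num)) sgK
  rw [← h, sgK, Equiv.apply_symm_apply]

theorem emb_K3 (ψ : K3 →+* ℂ) : (∀ x, ψ x = sgK x) ∨ ∀ x, ψ x = conj (sgK x) := by
  have hz := IsCyclotomicExtension.zeta_spec 3 ℚ K3
  set ζ := IsCyclotomicExtension.zeta 3 ℚ K3
  have ext : ∀ ψ' : K3 →+* ℂ, ψ ζ = ψ' ζ → ∀ x, ψ x = ψ' x := fun ψ' h x => by
    have : ψ.toRatAlgHom = ψ'.toRatAlgHom := (hz.powerBasis ℚ).algHom_ext (by simpa using h)
    exact DFunLike.congr_fun this x
  have h1 : ∀ ψ' : K3 →+* ℂ, ψ' ζ ^ 2 + ψ' ζ + 1 = 0 := fun ψ' => by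
    have := (hz.map_of_injective ψ'.injective).geom_sum_eq_zero (by norm_num)
    simp only [sum_range_succ, range_zero, sum_empty] at this
    linear_combination this
  have h2 := h1 ψ
  have h3 := h1 sgK.toRingHom
  have h4 : conj (sgK ζ) = -1 - sgK ζ := by
    have hn : ‖sgK ζ‖ = 1 := (hz.map_of_injective sgK.injective).norm'_eq_one (by norm_num)
    have e : sgK ζ * conj (sgK ζ) = 1 := by rw [Complex.mul_conj, Complex.normSq_eq_norm_sq, hn]; simp
    have e' : sgK ζ ^ 2 + sgK ζ + 1 = 0 := h3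
    have h0 : sgK ζ ≠ 0 := by
      rintro h
      simp [h] at hn
    apply mul_left_cancel₀ h0
    linear_combination e + e'
  have h5 : (ψ ζ - sgK ζ) * (ψ ζ - conj (sgK ζ)) = 0 := by
    have e' : sgK ζ ^ 2 + sgK ζ + 1 = 0 := h3
    rw [h4]
    linear_combination h2 - e'
  rcases mul_eq_zero.1 h5 with h | h
  · exact Or.inl (ext sgK.toRingHom (sub_eq_zero.1 h))
  · exact Or.inr (ext ((starRingEnd ℂ).comp sgK.toRingHom) (sub_eq_zero.1 h))

theorem sgK_not_real : ¬ ∀ x, conj (sgK x) = sgK x := fun h => by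
  have hz := (IsCyclotomicExtension.zeta_spec 3 ℚ K3).map_of_injective sgK.injective
  set z := sgK (IsCyclotomicExtension.zeta 3 ℚ K3)
  have h1 := hz.geom_sum_eq_zero (by norm_num)
  simp only [sum_range_succ, range_zero, sum_empty] at h1
  obtain ⟨r, hr⟩ := Complex.conj_eq_iff_real.1 (h (IsCyclotomicExtension.zeta 3 ℚ K3))
  have h2 : r ^ 2 + r + 1 = 0 := by
    have : ((r ^ 2 + r + 1 : ℝ) : ℂ) = 0 := by
      push_cast
      rw [← hr]
      linear_combination h1
    exact_mod_cast this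
  nlinarith [sq_nonneg (2 * r + 1)]

theorem conj_ne (i j : Pl F) : ComplexEmbedding.conjugate i.1 ≠ j.1 := fun h =>
  sgK_not_real fun x => by rw [← i.2 x, ← ComplexEmbedding.conjugate_coe_eq, h, i.2 x, j.2 x]

/-- every embedding is in `Pl F` or is the conjugate of an element of `Pl F` -/
noncomputable def plEquiv (F : Type) [Field F] [NumberField F] [Algebra K3 F] : Pl F ⊕ Pl F ≃ (F →+* ℂ) :=
  Equiv.ofBijective (Sum.elim (fun i => i.1) fun i => ComplexEmbedding.conjugate i.1) <| by
    constructor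
    · rintro (i | i) (j | j) h
      · exact congrArg _ (Subtype.ext h)
      · exact absurd h.symm (conj_ne j i)
      · exact absurd h (conj_ne i j)
      · exact congrArg _ (Subtype.ext ((ComplexEmbedding.involutive_conjugate F).injective h))
    · intro φ
      rcases emb_K3 (φ.comp (algebraMap K3 F)) with h | h
      · exact ⟨Sum.inl ⟨φ, h⟩, rfl⟩
      · refine ⟨Sum.inr ⟨ComplexEmbedding.conjugate φ, fun x => ?_⟩, ComplexEmbedding.involutive_conjugate F φ⟩
        rw [ComplexEmbedding.conjugate_coe_eq, show φ (algebraMap K3 F x) = _ from h x, Complex.conj_conj]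

theorem sum_emb {M : Type} [AddCommMonoid M] (f : (F →+* ℂ) → M) :
    ∑ φ, f φ = ∑ i : Pl F, (f i.1 + f (ComplexEmbedding.conjugate i.1)) := by
  rw [← (plEquiv F).sum_comp, Fintype.sum_sum_type, sum_add_distrib]
  rfl

theorem prod_emb {M : Type} [CommMonoid M] (f : (F →+* ℂ) → M) :
    ∏ φ, f φ = ∏ i : Pl F, (f i.1 * f (ComplexEmbedding.conjugate i.1)) := by
  rw [← (plEquiv F).prod_comp, Fintype.prod_sum_type, prod_mul_distrib]
  rfl

theorem two_mul_card_Pl : 2 * Fintype.card (Pl F) = Module.finrank ℚ F := by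
  rw [← Embeddings.card F ℂ, ← Fintype.card_congr (plEquiv F), Fintype.card_sum, two_mul]

theorem card_Pl_pos : 0 < Fintype.card (Pl F) := by
  have := two_mul_card_Pl (F := F)
  have := Module.finrank_pos (R := ℚ) (M := F)
  omega

instance : Nonempty (Pl F) := Fintype.card_pos_iff.1 card_Pl_pos

/-- `Pl F` parametrises the infinite places -/
noncomputable def placeEquiv (F : Type) [Field F] [NumberField F] [Algebra K3 F] : Pl F ≃ InfinitePlace F :=
  Equiv.ofBijective (fun i => InfinitePlace.mk i.1) <| by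
    constructor
    · intro i j h
      rcases InfinitePlace.mk_eq_iff.1 h with h | h
      · exact Subtype.ext h
      · exact absurd h (conj_ne i j)
    · intro w
      obtain ⟨i | i, h⟩ := (plEquiv F).surjective w.embedding
      · exact ⟨i, by rw [← w.mk_embedding, ← h]; rfl⟩
      · exact ⟨i, by rw [← w.mk_embedding, ← h]; exact (InfinitePlace.mk_conjugate_eq i.1).symm⟩

theorem placeEquiv_apply (i : Pl F) (x : F) : placeEquiv F i x = ‖em x i‖ := rfl

@[simp] theorem em_zero : em (0 : F) = 0 := funext fun i => map_zero i.1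
@[simp] theorem em_one : em (1 : F) = 1 := funext fun i => map_one i.1
theorem em_add (x y : F) : em (x + y) = em x + em y := funext fun i => map_add i.1 x y
theorem em_neg (x : F) : em (-x) = -em x := funext fun i => map_neg i.1 x
theorem em_sub (x y : F) : em (x - y) = em x - em y := funext fun i => map_sub i.1 x y
theorem em_mul (x y : F) : em (x * y) = em x * em y := funext fun i => map_mul i.1 x y
theorem em_inv (x : F) : em x⁻¹ = (em x)⁻¹ := funext fun i => map_inv₀ i.1 x
theorem em_div (x y : F) : em (x / y) = em x / em y := funext fun i => map_div₀ i.1 x y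
theorem em_pow (x : F) (n : ℕ) : em (x ^ n) = em x ^ n := funext fun i => map_pow i.1 x n
theorem em_natCast (n : ℕ) (i : Pl F) : em (n : F) i = n := map_natCast i.1 n
theorem em_intCast (n : ℤ) (i : Pl F) : em (n : F) i = n := map_intCast i.1 n
theorem em_ne_zero {x : F} (hx : x ≠ 0) (i : Pl F) : em x i ≠ 0 := (map_ne_zero i.1).2 hx
theorem norm_em_pos {x : F} (hx : x ≠ 0) (i : Pl F) : 0 < ‖em x i‖ := norm_pos_iff.2 (em_ne_zero hx i)
theorem em_injective : Function.Injective (em : F → Pl F → ℂ) := fun _ _ h =>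
  (Classical.arbitrary (Pl F)).1.injective (congrFun h _)

/-- `em` as an additive map -/
def emA : F →+ (Pl F → ℂ) where
  toFun := em
  map_zero' := em_zero
  map_add' := em_add

theorem an_eq (x : F) : an x = |((Algebra.norm ℚ x : ℚ) : ℝ)| := by
  have h := congrArg (fun z : ℂ => ‖z‖) (Algebra.norm_eq_prod_embeddings ℚ ℂ x)
  simp only [eq_ratCast, norm_prod, Complex.norm_ratCast] at h
  rw [h, ← (RingHom.equivRatAlgHom F ℂ).prod_comp, prod_emb]
  refine prod_congr rfl fun i _ => ?_
  show _ = ‖i.1 x‖ * ‖conj (i.1 x)‖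
  rw [Complex.norm_conj, sq]
  rfl

theorem trace_eq (x : F) : ((Algebra.trace ℚ F x : ℚ) : ℝ) = ∑ i : Pl F, 2 * (em x i).re := by
  have h := trace_eq_sum_embeddings ℂ (K := ℚ) (L := F) (x := x)
  rw [← (RingHom.equivRatAlgHom F ℂ).sum_comp, sum_emb, eq_ratCast] at h
  apply Complex.ofReal_injective
  rw [Complex.ofReal_ratCast, h, Complex.ofReal_sum]
  exact sum_congr rfl fun i _ => Complex.add_conj _

theorem an_nonneg (x : F) : 0 ≤ an x := prod_nonneg fun _ _ => sq_nonneg _
theorem an_pos {x : F} (hx : x ≠ 0) : 0 < an x := prod_pos fun i _ => pow_pos (norm_em_pos hx i) 2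
@[simp] theorem an_zero : an (0 : F) = 0 := by simp [an_eq]
@[simp] theorem an_one : an (1 : F) = 1 := by simp [an]
theorem an_mul (x y : F) : an (x * y) = an x * an y := by simp [an, em_mul, mul_pow, prod_mul_distrib]
theorem an_neg (x : F) : an (-x) = an x := by simp [an, em_neg]
theorem an_inv (x : F) : an x⁻¹ = (an x)⁻¹ := by simp [an, em_inv]
theorem an_div (x y : F) : an (x / y) = an x / an y := by simp [an, em_div, div_pow]
theorem an_pow (x : F) (n : ℕ) : an (x ^ n) = an x ^ n := by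
  simp only [an, em_pow, Pi.pow_apply, norm_pow, ← prod_pow, ← pow_mul, mul_comm]
theorem an_natCast (n : ℕ) : an (n : F) = (n : ℝ) ^ (2 * Fintype.card (Pl F)) := by
  simp [an, em_natCast, ← pow_mul]

theorem an_int (a : 𝓞 F) : an (a : F) = Ideal.absNorm (Ideal.span {a}) := by
  rw [an_eq, Ideal.absNorm_span_singleton, ← Algebra.coe_norm_int]
  simp

theorem one_le_an {a : 𝓞 F} (ha : a ≠ 0) : 1 ≤ an (a : F) := by
  rw [an_int]
  exact_mod_cast Nat.one_le_iff_ne_zero.2 (by simpa using ha)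

theorem an_unit (u : (𝓞 F)ˣ) : an ((u : 𝓞 F) : F) = 1 := by
  rw [an_int, Ideal.span_singleton_eq_top.2 u.isUnit]
  simp

theorem lg_mul {x y : F} (hx : x ≠ 0) (hy : y ≠ 0) : lg (x * y) = lg x + lg y := funext fun i => by
  simp only [lg, em_mul, Pi.mul_apply, norm_mul, Pi.add_apply]
  exact Real.log_mul (norm_em_pos hx i).ne' (norm_em_pos hy i).ne'

theorem lg_neg (x : F) : lg (-x) = lg x := funext fun i => by simp [lg, em_neg]
theorem lg_inv (x : F) : lg x⁻¹ = -lg x := funext fun i => by simp [lg, em_inv]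
@[simp] theorem lg_one : lg (1 : F) = 0 := funext fun i => by simp [lg]

theorem exp_lg {x : F} (hx : x ≠ 0) (i : Pl F) : Real.exp (lg x i) = ‖em x i‖ := Real.exp_log (norm_em_pos hx i)

theorem sum_lg {x : F} (hx : x ≠ 0) : 2 * ∑ i, lg x i = Real.log (an x) := by
  rw [an, Real.log_prod fun i _ => (pow_pos (norm_em_pos hx i) 2).ne', mul_sum]
  simp [lg]

theorem sum_lg_unit (u : (𝓞 F)ˣ) : ∑ i, lg ((u : 𝓞 F) : F) i = 0 := by
  have := sum_lg (x := ((u : 𝓞 F) : F)) (by exact_mod_cast u.ne_zero)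
  rw [an_unit, Real.log_one] at this
  linarith

theorem norm_ang {x : F} (hx : x ≠ 0) : ‖ang x‖ = 1 := by
  rw [ang, norm_prod]
  exact prod_eq_one fun i _ => by simp [(norm_em_pos hx i).ne']

theorem ang_mul (x y : F) : ang (x * y) = ang x * ang y := by
  simp only [ang, em_mul, Pi.mul_apply, norm_mul, ← prod_mul_distrib]
  exact prod_congr rfl fun i _ => by push_cast; ring

theorem prod_em' (x : F) : ∏ i, em x i = ang x * (Real.sqrt (an x) : ℝ) := by
  rcases eq_or_ne x 0 with rfl | hx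
  · simp
  have : Real.sqrt (an x) = ∏ i, ‖em x i‖ := by
    rw [an, prod_pow, Real.sqrt_sq (prod_nonneg fun _ _ => norm_nonneg _)]
  rw [this, ang, Complex.ofReal_prod, ← prod_mul_distrib]
  exact prod_congr rfl fun i _ => by
    rw [div_mul_cancel₀ _ (by exact_mod_cast (norm_em_pos hx i).ne')]

theorem eZ_eq (ν : F) (z : Pl F → ℂ) :
    eZ ν z = Complex.exp (2 * π * Complex.I * ((∑ i, 2 * (em ν i * z i).re : ℝ) : ℂ)) := by
  rw [eZ, ← Complex.exp_sum, Complex.ofReal_sum, mul_sum]

@[simp] theorem norm_eZ (ν : F) (z : Pl F → ℂ) : ‖eZ ν z‖ = 1 := by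
  rw [eZ_eq, show ∀ t : ℝ, 2 * π * Complex.I * (t : ℂ) = ((2 * π * t : ℝ) : ℂ) * Complex.I from
    fun t => by push_cast; ring, Complex.norm_exp_ofReal_mul_I]

theorem eZ_em (ν x : F) : eZ ν (em x) = eT (ν * x) := by
  rw [eZ_eq, eT, ← Complex.ofReal_ratCast, trace_eq, em_mul]
  rfl

theorem eZ_add_right (ν : F) (z z' : Pl F → ℂ) : eZ ν (z + z') = eZ ν z * eZ ν z' := by
  simp only [eZ, ← prod_mul_distrib, ← Complex.exp_add, Pi.add_apply, mul_add, Complex.add_re, Complex.ofReal_add]

theorem eZ_add_left (ν ν' : F) (z : Pl F → ℂ) : eZ (ν + ν') z = eZ ν z * eZ ν' z := by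
  simp only [eZ, ← prod_mul_distrib, ← Complex.exp_add, em_add, Pi.add_apply, add_mul, mul_add, Complex.add_re,
    Complex.ofReal_add]

@[simp] theorem eZ_zero_left (z : Pl F → ℂ) : eZ (0 : F) z = 1 := by simp [eZ]
@[simp] theorem eZ_zero_right (ν : F) : eZ ν 0 = 1 := by simp [eZ]

theorem eZ_mul (ν x : F) (z : Pl F → ℂ) : eZ (ν * x) z = eZ ν (em x * z) := by
  simp only [eZ, em_mul, Pi.mul_apply, mul_assoc]

theorem eZ_neg_left (ν : F) (z : Pl F → ℂ) : eZ (-ν) z = conj (eZ ν z) := by
  have h := eZ_add_left (-ν) ν z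
  rw [neg_add_cancel, eZ_zero_left] at h
  have h' : conj (eZ ν z) * eZ ν z = 1 := by
    rw [mul_comm, Complex.mul_conj, Complex.normSq_eq_norm_sq, norm_eZ]
    simp
  exact mul_right_cancel₀ (right_ne_zero_of_mul_eq_one h') (h.symm.trans h'.symm)

theorem continuous_eZ (ν : F) : Continuous (eZ ν) := by
  unfold eZ
  fun_prop

end Crest.Agent.R27.TH
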