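import Crest.Agent.R27.TH.EmbA

/-! Row 27, block THETA / EMB (owner helper94): lattices, fundamental domains, Fourier coefficients. -/

set_option autoImplicit false

namespace Crest.Agent.R27.TH

open Crest.NumberTheoryR.EisensteinField Crest.Agent.R27.G NumberField Finset MeasureTheory
open scoped ComplexConjugate Classical Real ENNReal

variable {F : Type} [Field F] [NumberField F] [Algebra K3 F]

instance : Countable F := Countable.of_equiv _ (Module.finBasis ℚ F).equivFun.toEquiv.symm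

theorem finite_InL {m : ℕ} (hm : 0 < m) (B : ℝ) : {x : F | InL m x ∧ ∀ i, ‖em x i‖ ≤ B}.Finite := by
  have hm' : (m : F) ≠ 0 := by exact_mod_cast hm.ne'
  refine Set.Finite.of_finite_image (f := fun x => (m : F) * x)
    ((Embeddings.finite_of_norm_le F ℂ (m * B)).subset ?_) (mul_right_injective₀ hm').injOn
  rintro _ ⟨x, ⟨⟨a, ha⟩, hB⟩, rfl⟩
  refine ⟨by simpa only [ha] using a.isIntegral_coe, fun φ => ?_⟩
  rw [map_mul, norm_mul, map_natCast, Complex.norm_natCast]
  refine mul_le_mul_of_nonneg_left ?_ (Nat.cast_nonneg m)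
  obtain ⟨i | i, rfl⟩ := (plEquiv F).surjective φ
  · exact hB i
  · exact (Complex.norm_conj _).trans_le (hB i)

omit [Algebra K3 F] [NumberField F] in
theorem InL.sub {m : ℕ} {x y : F} (hx : InL m x) (hy : InL m y) : InL m (x - y) := by
  obtain ⟨a, ha⟩ := hx
  obtain ⟨b, hb⟩ := hy
  exact ⟨a - b, by simp [mul_sub, ha, hb]⟩

omit [Algebra K3 F] [NumberField F] in
theorem InL.mul_int {m : ℕ} {x : F} (hx : InL m x) (b : 𝓞 F) : InL m (b * x) := by
  obtain ⟨a, ha⟩ := hx
  exact ⟨b * a, by rw [mul_left_comm, ha]; simp⟩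

theorem InL.an_ge' {m : ℕ} (hm : 0 < m) {x : F} (hx : InL m x) (h0 : x ≠ 0) :
    ((m : ℝ) ^ (2 * Fintype.card (Pl F)))⁻¹ ≤ an x := by
  obtain ⟨a, ha⟩ := hx
  have hm' : (m : F) ≠ 0 := by exact_mod_cast hm.ne'
  have h1 : 1 ≤ an (a : F) := one_le_an fun h => by simp [h, hm', h0] at ha
  rw [← ha, an_mul, an_natCast] at h1
  rwa [inv_le_iff_one_le_mul₀' (by positivity)]

omit [Algebra K3 F] in
theorem eT_int (a : 𝓞 F) : eT (a : F) = 1 := by
  rw [eT, ← Algebra.coe_trace_int]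
  simpa [mul_comm] using Complex.exp_int_mul_two_pi_mul_I (Algebra.trace ℤ (𝓞 F) a)

omit [Algebra K3 F] in
theorem InL.dl {m : ℕ} {ν : F} (h : InL m ν) : Dl m ν := fun a => by
  obtain ⟨b, hb⟩ := h
  rw [← mul_assoc, mul_comm ν, hb, ← map_mul]
  exact eT_int _

/-- the real basis of `Pl F → ℂ` given by an integral basis -/
theorem exists_emBasis (F : Type) [Field F] [NumberField F] [Algebra K3 F] :
    ∃ b : Module.Basis (Module.Free.ChooseBasisIndex ℤ (𝓞 F)) ℝ (Pl F → ℂ),
      ∀ i, b i = em (integralBasis F i) := by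
  have hli : LinearIndependent ℝ fun i => em (integralBasis F i) := by
    rw [Fintype.linearIndependent_iff]
    intro g hg
    have h := Fintype.linearIndependent_iff.1 (canonicalEmbedding.latticeBasis F).linearIndependent
      (fun i => (g i : ℂ)) (funext fun φ => ?_)
    · exact fun i => by exact_mod_cast h i
    simp only [canonicalEmbedding.latticeBasis_apply, Finset.sum_apply, Pi.smul_apply, canonicalEmbedding.apply_at,
      smul_eq_mul, Pi.zero_apply]
    obtain ⟨j | j, rfl⟩ := (plEquiv F).surjective φ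
    · simpa [Finset.sum_apply, em, plEquiv] using congrFun hg j
    · simpa [Finset.sum_apply, em, plEquiv] using congrArg conj (congrFun hg j)
  refine ⟨basisOfLinearIndependentOfCardEqFinrank' _ hli ?_, fun i => by
    rw [coe_basisOfLinearIndependentOfCardEqFinrank']⟩
  rw [Module.finrank_pi_fintype, ← Module.finrank_eq_card_chooseBasisIndex, RingOfIntegers.rank,
    ← two_mul_card_Pl]
  simp [mul_comm]

theorem exists_FD {q : ℕ} (hq : 0 < q) : ∃ D : Set (Pl F → ℂ), IsFD q D := by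
  obtain ⟨b, hb⟩ := exists_emBasis F
  have hq' : (q : ℝ) ≠ 0 := by exact_mod_cast hq.ne'
  let b' := b.unitsSMul fun _ => Units.mk0 (q : ℝ) hq'
  have hb' : ∀ i, b' i = em ((q : F) * integralBasis F i) := fun i => by
    rw [Module.Basis.unitsSMul_apply, hb, em_mul]
    funext j
    simp [em_natCast]
  have key : ∀ z, z ∈ Submodule.span ℤ (Set.range b') ↔ ∃ x ∈ Lat F q, em x = z := fun z => by
    have e : Set.range b' = ((emA (F := F)).toIntLinearMap ∘ₗ LinearMap.mulLeft ℤ (q : F)) ''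
        Set.range (integralBasis F) := by
      rw [← Set.range_comp]
      exact congrArg _ (funext hb')
    rw [e, ← Submodule.map_span, Submodule.mem_map]
    simp only [mem_span_integralBasis]
    constructor
    · rintro ⟨_, ⟨a, rfl⟩, rfl⟩
      exact ⟨_, ⟨a, rfl⟩, rfl⟩
    · rintro ⟨_, ⟨a, rfl⟩, rfl⟩
      exact ⟨_, ⟨a, rfl⟩, rfl⟩
  refine ⟨ZSpan.fundamentalDomain b', ZSpan.fundamentalDomain_measurableSet b',
    ZSpan.fundamentalDomain_isBounded b', fun z => ?_⟩
  obtain ⟨y, hy, hu⟩ := ZSpan.exist_unique_vadd_mem_fundamentalDomain b' z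
  obtain ⟨x, hx, hxy⟩ := (key y).1 y.2
  refine ⟨⟨x, hx⟩, by beta_reduce; rw [hxy, add_comm]; exact hy, fun x' hx' => Subtype.ext (em_injective ?_)⟩
  rw [hxy]
  exact congrArg Subtype.val (hu ⟨em (x' : F), (key _).2 ⟨_, x'.2, rfl⟩⟩ (by beta_reduce at hx'; rw [add_comm] at hx'; exact hx'))

/-- the lattice in `Pl F → ℂ` -/
def LatC (F : Type) [Field F] [NumberField F] [Algebra K3 F] (q : ℕ) : AddSubgroup (Pl F → ℂ) :=
  (Lat F q).map emA

/-- `Lat F q` and its image -/
noncomputable def latEquiv (F : Type) [Field F] [NumberField F] [Algebra K3 F] (q : ℕ) : Lat F q ≃+ LatC F q :=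
  (Lat F q).equivMapOfInjective emA em_injective

theorem latEquiv_apply {q : ℕ} (x : Lat F q) : (latEquiv F q x : Pl F → ℂ) = em (x : F) := rfl

instance (q : ℕ) : Countable (LatC F q) := Countable.of_equiv _ (latEquiv F q).toEquiv

variable {q : ℕ} {D : Set (Pl F → ℂ)}

theorem IsFD.fund (h : IsFD q D) : IsAddFundamentalDomain (LatC F q) D volume :=
  IsAddFundamentalDomain.mk' h.meas.nullMeasurableSet fun z => by
    obtain ⟨x, hx, hu⟩ := h.uniq z
    refine ⟨latEquiv F q x, by rw [add_comm] at hx; exact hx, fun y hy => ?_⟩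
    obtain ⟨y, rfl⟩ := (latEquiv F q).surjective y
    rw [hu y (by beta_reduce; rw [add_comm]; exact hy)]

theorem IsFD.volume_ne_top (h : IsFD q D) : volume D ≠ ⊤ := h.bdd.measure_lt_top.ne

theorem IsFD.volume_ne_zero (h : IsFD q D) : volume D ≠ 0 := h.fund.measure_ne_zero (NeZero.ne _)

theorem IsFD.real_pos (h : IsFD q D) : 0 < volume.real D := ENNReal.toReal_pos h.volume_ne_zero h.volume_ne_top

theorem IsFD.finite (h : IsFD q D) : IsFiniteMeasure (volume.restrict D) :=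
  isFiniteMeasure_restrict.2 h.volume_ne_top

theorem IsFD.lintegral_eq (h : IsFD q D) (f : (Pl F → ℂ) → ℝ≥0∞) :
    ∫⁻ z, f z = ∑' x : Lat F q, ∫⁻ z in D, f (z + em (x : F)) := by
  rw [h.fund.lintegral_eq_tsum'', ← (latEquiv F q).toEquiv.tsum_eq]
  simp only [add_comm _ (em _)]
  rfl

theorem IsFD.integral_tsum (h : IsFD q D) {f : (Pl F → ℂ) → ℂ} (hf : Integrable f) :
    ∫ z, f z = ∑' x : Lat F q, ∫ z in D, f (z + em (x : F)) := by
  rw [h.fund.integral_eq_tsum'' f hf, ← (latEquiv F q).toEquiv.tsum_eq]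
  simp only [add_comm _ (em _)]
  rfl

/-- the integral of a periodic function over a fundamental domain is translation invariant -/
theorem IsFD.shift (h : IsFD q D) {f : (Pl F → ℂ) → ℂ} (hf : ∀ z, ∀ x ∈ Lat F q, f (z + em x) = f z)
    (a : Pl F → ℂ) : ∫ z in D, f (z + a) = ∫ z in D, f z := by
  have h1 := h.fund.setIntegral_eq (h.fund.vadd_of_comm a) (f := f) fun g z => by
    obtain ⟨x, rfl⟩ := (latEquiv F q).surjective g
    exact (congrArg f (add_comm _ _)).trans (hf z x x.2)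
  rw [h1, ← Set.image_vadd,
    (measurePreserving_vadd a volume).setIntegral_image_emb (measurableEmbedding_const_vadd a)]
  simp only [vadd_eq_add, add_comm]

/-- two fundamental domains give the same integral -/
theorem IsFD.indep (h : IsFD q D) {D' : Set (Pl F → ℂ)} (h' : IsFD q D') {f : (Pl F → ℂ) → ℂ}
    (hf : ∀ z, ∀ x ∈ Lat F q, f (z + em x) = f z) : ∫ z in D, f z = ∫ z in D', f z :=
  h.fund.setIntegral_eq h'.fund fun g z => by
    obtain ⟨x, rfl⟩ := (latEquiv F q).surjective g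
    exact (congrArg f (add_comm _ _)).trans (hf z x x.2)

theorem Dl.per {ν : F} (hν : Dl q ν) (z : Pl F → ℂ) {x : F} (hx : x ∈ Lat F q) : eZ ν (z + em x) = eZ ν z := by
  obtain ⟨a, rfl⟩ := hx
  rw [eZ_add_right, eZ_em, hν a, mul_one]

theorem Dl.sub {ν μ : F} (hν : Dl q ν) (hμ : Dl q μ) : Dl q (ν - μ) := fun a => by
  rw [← eZ_em, sub_eq_add_neg, eZ_add_left, eZ_neg_left, eZ_em, eZ_em, hν a, hμ a]
  simp

theorem exists_eZ_ne {ν : F} (h0 : ν ≠ 0) : ∃ z, eZ ν z ≠ 1 := by
  refine ⟨em (ν⁻¹ * ((4 * Fintype.card (Pl F) : ℕ) : F)⁻¹), ?_⟩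
  have hr : (Fintype.card (Pl F) : ℝ) ≠ 0 := by exact_mod_cast card_Pl_pos.ne'
  have : ∑ i : Pl F, 2 * (em ν i * em (ν⁻¹ * ((4 * Fintype.card (Pl F) : ℕ) : F)⁻¹) i).re = 1 / 2 := by
    simp only [← Pi.mul_apply (em ν), ← em_mul, mul_inv_cancel_left₀ h0, em_inv, Pi.inv_apply, em_natCast]
    rw [sum_const, ← Complex.ofReal_natCast, ← Complex.ofReal_inv, Complex.ofReal_re, card_univ, nsmul_eq_mul]
    push_cast
    field_simp
    norm_num
  rw [eZ_eq, this, show 2 * π * Complex.I * ((1 / 2 : ℝ) : ℂ) = π * Complex.I by push_cast; ring,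
    Complex.exp_pi_mul_I]
  norm_num

theorem IsFD.orth' (h : IsFD q D) {ν : F} (hν : Dl q ν) (h0 : ν ≠ 0) : ∫ z in D, eZ ν z = 0 := by
  obtain ⟨a, ha⟩ := exists_eZ_ne h0
  have h1 := h.shift (f := eZ ν) (fun z x hx => hν.per z hx) a
  simp only [eZ_add_right, integral_mul_const] at h1
  exact eq_zero_of_mul_eq_self_right ha h1

/-- the Fourier coefficients of an absolutely convergent series -/
theorem IsFD.coeff (h : IsFD q D) {a : F → ℂ} (ha : Summable fun ν => ‖a ν‖) (hs : ∀ ν, a ν ≠ 0 → Dl q ν)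
    {μ : F} (hμ : Dl q μ) :
    ∫ z in D, (∑' ν, a ν * eZ ν z) * conj (eZ μ z) = (volume.real D : ℝ) * a μ := by
  have := h.finite
  have e : ∀ z, (∑' ν, a ν * eZ ν z) * conj (eZ μ z) = ∑' ν, a ν * eZ (ν - μ) z := fun z => by
    simp only [← tsum_mul_right, sub_eq_add_neg, eZ_add_left, eZ_neg_left, mul_assoc]
  simp only [e]
  rw [← (hasSum_integral_of_summable_integral_norm (F := fun ν z => a ν * eZ (ν - μ) z) (fun ν => ?_) ?_).tsum_eq,
    tsum_eq_single μ fun ν hν => ?_]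
  · simp [mul_comm]
  · by_cases h0 : a ν = 0
    · simp [h0]
    · rw [integral_const_mul, h.orth' ((hs ν h0).sub hμ) (sub_ne_zero.2 hν), mul_zero]
  · simpa [norm_eZ] using ha.mul_left (volume.real D)
  · exact (Integrable.of_bound (continuous_eZ (ν - μ)).aestronglyMeasurable 1
      (Filter.Eventually.of_forall fun z => (norm_eZ (ν - μ) z).le)).const_mul _

/-- Fourier uniqueness -/
theorem four_unique {m : ℕ} (hm : 0 < m) {a : F → ℂ} (ha : Summable fun ν => ‖a ν‖)
    (hs : ∀ ν, a ν ≠ 0 → InL m ν) (h0 : ∀ᵐ z : Pl F → ℂ, ∑' ν, a ν * eZ ν z = 0) (μ : F) : a μ = 0 := by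
  by_contra hμ
  obtain ⟨D, hD⟩ := exists_FD (F := F) hm
  have h1 := hD.coeff ha (fun ν h => (hs ν h).dl) (hs μ hμ).dl
  rw [integral_eq_zero_of_ae (ae_restrict_of_ae (h0.mono fun z hz => by simp [hz]))] at h1
  exact mul_ne_zero (by exact_mod_cast hD.real_pos.ne') hμ h1.symm

end Crest.Agent.R27.TH
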