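import Crest.Agent.R27.TH.Conv

/-! Row 27, THETA, block FC (owner helper14): the Fourier coefficients of `EN`. -/

set_option autoImplicit false

namespace Crest.Agent.R27.TH

open Crest.Agent.R17 (sgK sg EntBdd gth)
open Crest.Agent.R17.D (Qf KB pw)
open Crest.NumberTheoryR.EisensteinField Crest.Agent.R27.G MeasureTheory Filter Set
open scoped NumberField ComplexConjugate Classical Real Topology MatrixGroups

variable {F : Type} [Field F] [NumberField F] [Algebra K3 F]

variable {V : Subgroup (𝓞 F)ˣ} {η : (Pl F → ℝ) → ℝ} {ω : F × F → ℂ} {q : ℕ} {D : Set (Pl F → ℂ)}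

omit [Algebra K3 F] in
theorem fca_den {m : ℕ} (hm : 0 < m) {c : F} (hc : c ≠ 0) :
    ∃ N : ℕ, 0 < N ∧ ∀ t : F, InL m c → InL m (c * t) → InL N t := by
  by_cases h : InL m c
  · obtain ⟨a, ha⟩ := h
    have ha0 : a ≠ 0 := by
      rintro rfl
      have h1 : (m : F) * c = 0 := by simpa using ha
      exact mul_ne_zero (Nat.cast_ne_zero.2 hm.ne') hc h1
    obtain ⟨e, he⟩ := Ideal.mem_span_singleton'.1 (Ideal.absNorm_mem (Ideal.span {a}))
    refine ⟨Ideal.absNorm (Ideal.span {a}), Nat.pos_of_ne_zero ?_, fun t _ ⟨b, hb⟩ => ⟨e * b, ?_⟩⟩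
    · rw [Ne, Ideal.absNorm_eq_zero_iff, Ideal.span_singleton_eq_bot]
      exact ha0
    · have h1 : ((Ideal.absNorm (Ideal.span {a}) : ℕ) : F) = (e : F) * a := by
        have := congrArg (fun x : 𝓞 F => (x : F)) he
        simpa using this.symm
      have h2 : ((e * b : 𝓞 F) : F) = (e : F) * b := by simp
      rw [h1, h2, ← ha, ← hb]
      ring
  · exact ⟨1, one_pos, fun _ h' => absurd h' h⟩

omit [NumberField F] [Algebra K3 F] in
theorem fca_int (N : ℕ) (a : 𝓞 F) : InL N (a : F) := ⟨N * a, by push_cast; rfl⟩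

/-- FC-a.  the support lies in the image of `(m c)⁻¹ 𝓞`; `𝓞 / (m' q)` is finite -/
theorem SS_finite (hω : Adm ω) (hq : 0 < q) {c : F} (hc : c ≠ 0) :
    {t : F ⧸ Lat F q | ω (c, c * Quotient.out t) ≠ 0}.Finite := by
  obtain ⟨m, hm, hs⟩ := hω.supp
  obtain ⟨N, hN, hd⟩ := fca_den hm hc
  obtain ⟨D, hD⟩ := exists_FD (F := F) hq
  obtain ⟨R, hR⟩ := hD.bdd.exists_norm_le
  refine ((finite_box (F := F) hN R).image (QuotientAddGroup.mk (s := Lat F q))).subset ?_
  intro t ht
  obtain ⟨x, hx, -⟩ := hD.uniq (em (Quotient.out t))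
  obtain ⟨a, ha⟩ := x.2
  refine ⟨Quotient.out t + x, ⟨?_, fun i => ?_⟩, ?_⟩
  · have h1 := (hd _ (hs _ ht).1 (hs _ ht).2).sub (fca_int N (-((q : 𝓞 F) * a)))
    have h2 : ((-((q : 𝓞 F) * a) : 𝓞 F) : F) = -((q : F) * a) := by simp
    rwa [h2, ← ha, sub_neg_eq_add] at h1
  · rw [em_add]
    exact (norm_le_pi_norm _ i).trans (hR _ hx)
  · rw [QuotientAddGroup.mk_add_of_mem _ x.2, QuotientAddGroup.out_eq']

/-- FC-a.  `Pou.finite` -/
theorem lf_co (hη : Pou V η) (hω : Adm ω) (q : ℕ) (ν : F) : LF (co η q ω ν) an := by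
  obtain ⟨m, hm, hs⟩ := hω.supp
  have h0 : ∀ c, co η q ω ν c ≠ 0 → c ≠ 0 := by
    rintro c hc rfl
    simp [co, SS] at hc
  refine ⟨fun c hc => an_pos (h0 c hc), fun B => (hη.finite hm B).subset ?_⟩
  rintro c ⟨hc, hB⟩
  refine ⟨?_, Complex.ofReal_ne_zero.1 (left_ne_zero_of_mul hc), hB⟩
  by_contra h1
  have h2 : ∀ d, ω (c, d) = 0 := fun d => by
    by_contra h3
    exact h1 (hs _ h3).1
  simp [co, SS, h2] at hc

/-- FC-a.  `S(u c, ν) = S(c, ν)` -/
theorem SS_unit (hω : Fc V q ω) (ν c : F) {u : (𝓞 F)ˣ} (hu : u ∈ V) :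
    SS q ω ν (((u : (𝓞 F)ˣ) : 𝓞 F) * c) = SS q ω ν c := by
  unfold SS
  by_cases hc : c = 0
  · simp [hc]
  rw [if_neg hc, if_neg (mul_ne_zero (unit_ne u) hc)]
  refine finsum_congr fun t => ?_
  rw [mul_assoc, hω.inv u hu]

/-- FC-a.  `ω (c, d) ≠ 0` and `PP (z + d / c, ℓ) ≤ B` bound `d` -/
theorem row_finite (hω : Adm ω) {c : F} (hc : c ≠ 0) {C : Set (X F)} (hC : IsCompact C) (B : ℝ) :
    {t : F | ω (c, c * t) ≠ 0 ∧ ∃ w ∈ C, PP (w.1 + em t, w.2) ≤ B}.Finite := by
  obtain ⟨m, hm, hs⟩ := hω.supp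
  obtain ⟨N, hN, hd⟩ := fca_den hm hc
  obtain ⟨R, hR⟩ := hC.isBounded.exists_norm_le
  have hf := finite_rows (F := F) hN R (B / Real.exp (-R) ^ (Fintype.card (Pl F) - 1))
  refine (hf.preimage (f := fun t : F => ((1 : F), t))
    (fun _ _ _ _ h => (Prod.ext_iff.1 h).2)).subset ?_
  rintro t ⟨ht, w, hw, hB⟩
  refine ⟨by simpa using fca_int N (1 : 𝓞 F), hd t (hs _ ht).1 (hs _ ht).2, w, hR w hw, fun i => ?_⟩
  have e1 : ∀ j, Qi w (1, t) j = Qi (w.1 + em t, w.2) (1, 0) j := fun j => by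
    rw [Qi_add, zero_add, one_mul]
  have e2 : ∀ j, Real.exp (-R) ≤ Qi (w.1 + em t, w.2) (1, 0) j := fun j => by
    have h1 : -R ≤ w.2 j := by
      have h2 : ‖w.2 j‖ ≤ R := (norm_le_pi_norm w.2 j).trans ((norm_snd_le w).trans (hR w hw))
      rw [Real.norm_eq_abs] at h2
      exact (abs_le.1 h2).1
    refine (Real.exp_le_exp.2 h1).trans ?_
    unfold Qi Qf
    rw [le_div_iff₀ (Real.exp_pos _), em_one]
    simp only [Pi.one_apply, norm_one, one_pow, one_mul]
    nlinarith [sq_nonneg ‖(w.1 + em t) j + em (0 : F) j‖]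
  have e3 : Real.exp (-R) ^ (Fintype.card (Pl F) - 1) ≤
      ∏ j ∈ Finset.univ.erase i, Qi (w.1 + em t, w.2) (1, 0) j := by
    have := Finset.prod_le_prod (s := Finset.univ.erase i) (f := fun _ => Real.exp (-R))
      (fun _ _ => (Real.exp_pos _).le) (fun j _ => e2 j)
    rwa [Finset.prod_const, Finset.card_erase_of_mem (Finset.mem_univ i), Finset.card_univ] at this
  rw [le_div_iff₀ (pow_pos (Real.exp_pos _) _), e1]
  refine (mul_le_mul_of_nonneg_left e3 (Qi_nonneg _ _ _)).trans ?_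
  rw [Finset.mul_prod_erase _ (fun j => Qi (w.1 + em t, w.2) (1, 0) j) (Finset.mem_univ i)]
  exact hB

/-- FC-b.  `pou_tsum` with `p r = η (lQ w r)`, `q r = η (lg r.1)`; `Summable.tsum_prod`, `d = c t`, `NQ_row` -/
theorem EN_rows (hη : Pou V η) (hω : Fc V q ω) (Y : ℝ) (w : X F) :
    EN η (fun r => if r.1 = 0 then 0 else ω r) Y w = (Y ^ (-(4 / 3) : ℝ) : ℝ) * ∑' c : F,
      if c = 0 then 0 else (η (lg c) : ℂ) * ∑' t : F, ω (c, c * t) * fc (an c / Y * PP (w.1 + em t, w.2)) := by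
  have h2 : Adm fun r : F × F => if r.1 = 0 then 0 else ω r := by
    convert hω.adm.ite fun r => ¬ r.1 = 0 using 2 with r
    by_cases h0 : r.1 = 0 <;> simp [h0]
  have h0 : ∀ r : F × F, (if r.1 = 0 then 0 else ω r) * fc (NQ w r / Y) ≠ 0 → r.1 ≠ 0 := by
    intro r hr h
    simp [h] at hr
  have key := pou_tsum (G := V) (Z := F × F)
    (fun u r => ((((u : (𝓞 F)ˣ) : 𝓞 F) : F) * r.1, (((u : (𝓞 F)ˣ) : 𝓞 F) : F) * r.2))
    (fun r => by simp) (fun u u' r => by simp [mul_assoc])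
    (a := fun r => (if r.1 = 0 then 0 else ω r) * fc (NQ w r / Y))
    (p := fun r => η (lQ w r)) (q := fun r => η (lg r.1)) (m := 1) (n := 1) one_pos
    (fun u r => by
      simp only [NQ_smul, an_unit, one_mul, mul_eq_zero, unit_ne, false_or, hω.inv u u.2])
    (fun _ => hη.nonneg _) (fun _ => hη.nonneg _)
    (fun r hr => by
      have h1 : (r.1, r.2) ≠ 0 := fun h => h0 r hr (Prod.ext_iff.1 h).1
      simp only [lQ_smul w (unit_ne _) h1]
      exact hη.sum _)
    (fun r hr => by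
      simp only [lg_mul (unit_ne _) (h0 r hr), add_comm (lg _) (lg r.1)]
      exact hη.sum _)
    (by
      refine (h2.summable hη Y w).norm.congr fun r => ?_
      simp only [pf, fc, norm_mul, Complex.norm_real, Real.norm_eq_abs, abs_of_nonneg (hη.nonneg _)]
      ring)
  have hsum : Summable fun r : F × F =>
      (if r.1 = 0 then 0 else ω r) * fc (NQ w r / Y) * (η (lg r.1) : ℂ) := by
    refine Summable.of_norm (key.1.congr fun r => ?_)
    rw [norm_mul _ (η (lg r.1) : ℂ), Complex.norm_real, Real.norm_eq_abs, abs_of_nonneg (hη.nonneg _)]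
  have k2 := key.2
  simp only [Complex.ofReal_one, one_mul] at k2
  unfold EN
  congr 1
  have e1 : ∀ r : F × F, (if r.1 = 0 then 0 else ω r) * ((η (lQ w r) * ff (NQ w r / Y) : ℝ) : ℂ) =
      (if r.1 = 0 then 0 else ω r) * fc (NQ w r / Y) * (η (lQ w r) : ℂ) := fun r => by
    unfold fc
    push_cast
    ring
  rw [tsum_congr e1, k2, hsum.tsum_prod]
  refine tsum_congr fun c => ?_
  by_cases hc : c = 0
  · simp [hc]
  simp only [if_neg hc]
  rw [← (Equiv.mulLeft₀ c hc).tsum_eq, ← tsum_mul_left]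
  refine tsum_congr fun t => ?_
  have e2 : NQ w (c, c * t) / Y = an c / Y * PP (w.1 + em t, w.2) := by
    have e3 : NQ w (c, c * t) = an c * PP (w.1 + em t, w.2) := NQ_row w.1 w.2 c t
    rw [e3]
    ring
  simp only [Equiv.mulLeft₀_apply, e2]
  ring

theorem fcc_bdd (l : Pl F → ℝ) (B : ℝ) : ∃ R : ℝ, ∀ z : Pl F → ℂ, PP (z, l) ≤ B → ‖z‖ ≤ R := by
  refine ⟨∑ i, (1 + |B| * Real.exp (l i) / ∏ j ∈ Finset.univ.erase i, Real.exp (l j)), fun z hz => ?_⟩
  refine (pi_norm_le_iff_of_nonneg (Finset.sum_nonneg fun _ _ => by positivity)).2 fun i => ?_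
  refine le_trans ?_ (Finset.single_le_sum (f := fun i =>
    1 + |B| * Real.exp (l i) / ∏ j ∈ Finset.univ.erase i, Real.exp (l j)) (fun _ _ => by positivity)
    (Finset.mem_univ i))
  rw [PP_eq, ← Finset.mul_prod_erase _ _ (Finset.mem_univ i)] at hz
  have h1 : ∏ j ∈ Finset.univ.erase i, Real.exp (l j) ≤
      ∏ j ∈ Finset.univ.erase i, (‖z j‖ ^ 2 + Real.exp (l j) ^ 2) / Real.exp (l j) :=
    Finset.prod_le_prod (fun _ _ => (Real.exp_pos _).le) fun j _ => by
      rw [le_div_iff₀ (Real.exp_pos _)]; nlinarith [sq_nonneg ‖z j‖]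
  have h2 : 0 < ∏ j ∈ Finset.univ.erase i, Real.exp (l j) := by positivity
  have h3 := (mul_le_mul_of_nonneg_left h1 (show 0 ≤ (‖z i‖ ^ 2 + Real.exp (l i) ^ 2) / Real.exp (l i) by
    positivity)).trans (hz.trans (le_abs_self B))
  have h4 : ‖z i‖ ^ 2 ≤ |B| * Real.exp (l i) / ∏ j ∈ Finset.univ.erase i, Real.exp (l j) := by
    rw [div_mul_eq_mul_div, div_le_iff₀ (Real.exp_pos _)] at h3
    rw [le_div_iff₀ h2]
    nlinarith [sq_nonneg (Real.exp (l i))]
  nlinarith [sq_nonneg (‖z i‖ - 1)]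

theorem fcc_int (ν : F) {x : ℝ} (hx : 0 < x) (l : Pl F → ℝ) (a : Pl F → ℂ) :
    Integrable fun z : Pl F → ℂ => fc (x * PP (z + a, l)) * conj (eZ ν z) := by
  obtain ⟨R, hR⟩ := fcc_bdd l (2 / x)
  have hC : IsCompact (Metric.closedBall (-a) R) := isCompact_closedBall _ _
  have hm : Measurable fun z : Pl F → ℂ => fc (x * PP (z + a, l)) * conj (eZ ν z) :=
    (prf_fc.meas.comp (continuous_const.mul (continuous_PP.comp
      ((continuous_id.add continuous_const).prodMk continuous_const))).measurable).mul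
      (Complex.continuous_conj.comp (continuous_eZ ν)).measurable
  refine Integrable.mono' ((integrable_indicator_iff hC.measurableSet).2
    (integrableOn_const (C := (1 : ℝ)) hC.measure_ne_top)) hm.aestronglyMeasurable (ae_of_all _ fun z => ?_)
  simp only [fc, norm_mul, Complex.norm_conj, norm_eZ, Complex.norm_real, Real.norm_eq_abs,
    abs_of_nonneg (ff_nonneg _), mul_one]
  by_cases hz : ff (x * PP (z + a, l)) = 0
  · rw [hz]
    exact Set.indicator_nonneg (fun _ _ => zero_le_one) _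
  · rw [Set.indicator_of_mem]
    · exact ff_le_one _
    · rw [mem_closedBall_iff_norm, sub_neg_eq_add]
      refine hR _ ?_
      rw [le_div_iff₀ hx]; linarith [(ff_ne_zero hz).2]

theorem fcc_bij {G : Type} [AddGroup G] (L : AddSubgroup G) :
    Function.Bijective fun p : (G ⧸ L) × L => Quotient.out p.1 + (p.2 : G) := by
  have h : ∀ p : (G ⧸ L) × L, ((Quotient.out p.1 + (p.2 : G) : G) : G ⧸ L) = p.1 := fun p => by
    rw [QuotientAddGroup.mk_add_of_mem _ p.2.2, QuotientAddGroup.out_eq']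
  refine ⟨fun p p' e => ?_, fun g => ?_⟩
  · have e1 : p.1 = p'.1 := by rw [← h p, ← h p']; exact congrArg _ e
    refine Prod.ext e1 (Subtype.ext ?_)
    simp only [e1] at e
    exact add_left_cancel e
  · exact ⟨(g, ⟨-Quotient.out (g : G ⧸ L) + g, QuotientAddGroup.eq.1 (QuotientAddGroup.out_eq' _)⟩),
      add_neg_cancel_left _ _⟩

/-- FC-c.  one row: split `t = out τ + x`, `τ : F ⧸ Lat` (finitely many), `x ∈ Lat`; unfold (`IsFD.hasSum`);
`conj (eZ ν (z - em t)) = conj (eZ ν z) eT (ν t)` -/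
theorem row_unfold (hω : Fc V q ω) (hq : 0 < q) (hD : IsFD q D) {ν : F} (hν : Dl q ν) {c : F} (hc : c ≠ 0)
    {x : ℝ} (hx : 0 < x) (l : Pl F → ℝ) :
    ∫ z in D, (∑' t : F, ω (c, c * t) * fc (x * PP (z + em t, l))) * conj (eZ ν z) =
      SS q ω ν c * ∫ z, fc (x * PP (z, l)) * conj (eZ ν z) := by
  obtain ⟨R, hR⟩ := hD.bdd.exists_norm_le
  have hT := row_finite hω.adm hc ((isCompact_closedBall (0 : Pl F → ℂ) R).prod
    (isCompact_singleton (x := l))) (2 / x)
  have h0 : ∀ t ∉ hT.toFinset, ∀ z ∈ D, ω (c, c * t) * fc (x * PP (z + em t, l)) = 0 := by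
    intro t ht z hz
    by_contra h0
    refine ht (hT.mem_toFinset.2 ⟨left_ne_zero_of_mul h0, (z, l),
      ⟨mem_closedBall_zero_iff.2 (hR z hz), rfl⟩, ?_⟩)
    have := (ff_ne_zero (Complex.ofReal_ne_zero.1 (right_ne_zero_of_mul h0))).2
    rw [le_div_iff₀ hx]; linarith
  have h1 : HasSum (fun t : F => ∫ z in D, ω (c, c * t) * (fc (x * PP (z + em t, l)) * conj (eZ ν z)))
      (∫ z in D, (∑' t : F, ω (c, c * t) * fc (x * PP (z + em t, l))) * conj (eZ ν z)) := by
    rw [setIntegral_congr_fun hD.meas (g := fun z => ∑ t ∈ hT.toFinset,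
      ω (c, c * t) * (fc (x * PP (z + em t, l)) * conj (eZ ν z))), integral_finsetSum _ fun t _ =>
        ((fcc_int ν hx l (em t)).const_mul _).integrableOn]
    · refine hasSum_sum_of_ne_finset_zero fun t ht => ?_
      refine setIntegral_eq_zero_of_forall_eq_zero fun z hz => ?_
      rw [← mul_assoc, h0 t ht z hz, zero_mul]
    · intro z hz
      simp only
      rw [tsum_eq_sum (s := hT.toFinset) fun t ht => h0 t ht z hz, Finset.sum_mul]
      exact Finset.sum_congr rfl fun _ _ => mul_assoc _ _ _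
  have h2 := ((Equiv.ofBijective _ (fcc_bij (Lat F q))).hasSum_iff.2
    h1).prod_fiberwise (g := fun τ : F ⧸ Lat F q => ω (c, c * Quotient.out τ) * eT (ν * Quotient.out τ) *
      ∫ z, fc (x * PP (z, l)) * conj (eZ ν z)) fun τ => by
    have h3 := (hD.hasSum hq (fcc_int ν hx l (em (Quotient.out τ : F)))).mul_left (ω (c, c * Quotient.out τ))
    have e1 : ∫ z, fc (x * PP (z + em (Quotient.out τ : F), l)) * conj (eZ ν z) =
        eT (ν * Quotient.out τ) * ∫ z, fc (x * PP (z, l)) * conj (eZ ν z) := by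
      rw [← integral_const_mul, ← integral_add_right_eq_self (fun z => eT (ν * Quotient.out τ) *
        (fc (x * PP (z, l)) * conj (eZ ν z))) (em (Quotient.out τ : F))]
      congr 1
      funext z
      have h4 := Complex.mul_conj (eZ ν (em (Quotient.out τ : F)))
      rw [Complex.normSq_eq_norm_sq, norm_eZ] at h4
      rw [eZ_add_right, map_mul, ← eZ_em]
      push_cast at h4
      linear_combination (-fc (x * PP (z + em (Quotient.out τ : F), l)) * conj (eZ ν z)) * h4
    rw [e1, ← mul_assoc] at h3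
    refine Eq.mpr (congrArg (fun f => HasSum f _) (funext fun y => ?_)) h3
    change ∫ z in D, ω (c, c * (Quotient.out τ + (y : F))) *
      (fc (x * PP (z + em (Quotient.out τ + (y : F)), l)) * conj (eZ ν z)) = _
    obtain ⟨a, ha⟩ := y.2
    rw [integral_const_mul, mul_add, ha, hω.per, ← ha]
    congr 2
    funext z
    rw [hν.per z y.2, em_add, add_assoc, add_comm (em (y : F))]
  have hS := SS_finite hω.adm hq hc
  refine h2.unique ?_
  rw [SS, if_neg hc, finsum_eq_sum_of_support_subset (s := hS.toFinset), Finset.sum_mul]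
  · refine hasSum_sum_of_ne_finset_zero fun τ hτ => ?_
    rw [of_not_not fun h => hτ (hS.mem_toFinset.2 h), zero_mul, zero_mul]
  · intro τ hτ
    exact hS.mem_toFinset.2 (left_ne_zero_of_mul hτ)

theorem fcd_fc {l : Pl F → ℝ} {B x : ℝ} (hl : ‖l‖ ≤ B)
    (hx : 2 < x * Real.exp (-(Fintype.card (Pl F) * B))) (z : Pl F → ℂ) : fc (x * PP (z, l)) = 0 := by
  have h1 : -(Fintype.card (Pl F) * B) ≤ ∑ i, l i := by
    have : ∑ _i : Pl F, -B ≤ ∑ i, l i := Finset.sum_le_sum fun i _ => by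
      linarith [neg_abs_le (l i), (Real.norm_eq_abs (l i)) ▸ norm_le_pi_norm l i]
    simpa using this
  have h2 := (Real.exp_le_exp.2 h1).trans (PP_ge (z, l))
  have h3 : 0 < x := (mul_pos_iff_of_pos_right (Real.exp_pos _)).1 (two_pos.trans hx)
  have h4 : 2 < x * PP (z, l) := hx.trans_le (mul_le_mul_of_nonneg_left h2 h3.le)
  simp [fc, ff, not_le.2 h4]

theorem fcd_int (hω : Adm ω) (hD : IsFD q D) (ν : F) {h : (Pl F → ℝ) → ℂ} (hh : Tst h) {c : F} (hc : c ≠ 0)
    {x : ℝ} (hx : 0 < x) : Integrable fun w : X F =>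
      (∑' t : F, ω (c, c * t) * fc (x * PP (w.1 + em t, w.2))) * (D.indicator 1 w.1 * kn ν h w) := by
  obtain ⟨B, hB⟩ := hh.bdd
  obtain ⟨R, hR⟩ := hD.bdd.exists_norm_le
  have hC : IsCompact (Metric.closedBall (0 : X F) (max R B)) := isCompact_closedBall _ _
  have hK : ∀ w : X F, D.indicator 1 w.1 * kn ν h w ≠ 0 → w ∈ Metric.closedBall (0 : X F) (max R B) := by
    intro w hw
    rw [mem_closedBall_zero_iff, Prod.norm_def]
    exact max_le_max (hR _ (Set.mem_of_indicator_ne_zero (left_ne_zero_of_mul hw)))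
      ((hB _).2 (right_ne_zero_of_mul (right_ne_zero_of_mul hw)))
  have hT := row_finite hω hc hC (2 / x)
  have e : (fun w : X F =>
      (∑' t : F, ω (c, c * t) * fc (x * PP (w.1 + em t, w.2))) * (D.indicator 1 w.1 * kn ν h w)) =
      fun w => ∑ t ∈ hT.toFinset,
        ω (c, c * t) * (fc (x * PP (w.1 + em t, w.2)) * (D.indicator 1 w.1 * kn ν h w)) := by
    funext w
    by_cases hw : D.indicator 1 w.1 * kn ν h w = 0
    · simp [hw]
    · rw [tsum_eq_sum (s := hT.toFinset), Finset.sum_mul]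
      · exact Finset.sum_congr rfl fun _ _ => mul_assoc _ _ _
      · intro t ht
        by_contra h0
        refine ht (hT.mem_toFinset.2 ⟨left_ne_zero_of_mul h0, w, hK w hw, ?_⟩)
        have := (ff_ne_zero (Complex.ofReal_ne_zero.1 (right_ne_zero_of_mul h0))).2
        rw [le_div_iff₀ hx]; linarith
  rw [e]
  refine integrable_finsetSum _ fun t _ => Integrable.const_mul ?_ _
  have hm : Measurable fun w : X F =>
      fc (x * PP (w.1 + em t, w.2)) * (D.indicator 1 w.1 * kn ν h w) :=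
    (prf_fc.meas.comp (continuous_const.mul (continuous_PP.comp
      ((continuous_fst.add continuous_const).prodMk continuous_snd))).measurable).mul
      (((measurable_one.indicator hD.meas).comp measurable_fst).mul (ker_kn ν hh).meas)
  refine Integrable.mono' ((integrable_indicator_iff hC.measurableSet).2
    (integrableOn_const (C := B) hC.measure_ne_top)) hm.aestronglyMeasurable (ae_of_all _ fun w => ?_)
  by_cases hw : D.indicator 1 w.1 * kn ν h w = 0
  · rw [hw, mul_zero, norm_zero]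
    exact Set.indicator_nonneg (fun _ _ => (norm_nonneg _).trans (hB 0).1) _
  · rw [Set.indicator_of_mem (hK w hw), Set.indicator_of_mem
      (Set.mem_of_indicator_ne_zero (left_ne_zero_of_mul hw))]
    simp only [fc, kn, Pi.one_apply, one_mul, norm_mul, Complex.norm_conj, norm_eZ, Complex.norm_real,
      Real.norm_eq_abs, abs_of_nonneg (ff_nonneg _)]
    exact (mul_le_of_le_one_left (norm_nonneg _) (ff_le_one _)).trans (hB _).1

theorem fcd_row (hω : Fc V q ω) (hq : 0 < q) (hD : IsFD q D) {ν : F} (hν : Dl q ν)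
    {h : (Pl F → ℝ) → ℂ} (hh : Tst h) {c : F} (hc : c ≠ 0) {x : ℝ} (hx : 0 < x) :
    ∫ w : X F, (∑' t : F, ω (c, c * t) * fc (x * PP (w.1 + em t, w.2))) * (D.indicator 1 w.1 * kn ν h w) =
      SS q ω ν c * cv fc (kn ν h) x := by
  have h1 := integral_prod_symm (μ := volume) (ν := volume) _ (fcd_int hω.adm hD ν hh hc hx)
  have h2 := integral_prod_symm (μ := volume) (ν := volume) _ ((ker_kn ν hh).integrable prf_fc hx)
  rw [cv, Measure.volume_eq_prod, h1, h2, ← integral_const_mul]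
  refine integral_congr_ae (ae_of_all _ fun l => ?_)
  have h3 := row_unfold hω hq hD hν hc hx l
  rw [← integral_indicator hD.meas] at h3
  simp only [kn, ← mul_assoc]
  rw [integral_mul_const, integral_mul_const, ← mul_assoc, ← h3]
  congr 2
  funext z
  by_cases hz : z ∈ D <;> simp [hz]

/-- FC-d.  THE FOURIER COEFFICIENT.  Only finitely many `c` contribute for `‖ℓ‖ ≤ B` (`PP_ge`, `Pou.finite`);
Fubini, `row_unfold`. -/
theorem fc_pair (hη : Pou V η) (hω : Fc V q ω) (hq : 0 < q) (hD : IsFD q D) {ν : F} (hν : Dl q ν)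
    {h : (Pl F → ℝ) → ℂ} (hh : Tst h) {Y : ℝ} (hY : 0 < Y) :
    ∫ w : X F, EN η (fun r => if r.1 = 0 then 0 else ω r) Y w * (D.indicator 1 w.1 * kn ν h w) =
      Lm (cv fc (kn ν h)) (co η q ω ν) an Y := by
  obtain ⟨B, hB⟩ := hh.bdd
  obtain ⟨m, hm, hs⟩ := hω.adm.supp
  set P₀ := Real.exp (-(Fintype.card (Pl F) * B))
  have hP : 0 < P₀ := Real.exp_pos _
  have hS := hη.finite hm (2 * Y / P₀)
  have hn : ∀ c ∉ hS.toFinset.erase 0, c ≠ 0 → η (lg c) ≠ 0 →
      (∀ d, ω (c, d) = 0) ∨ 2 < an c / Y * P₀ := by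
    intro c hc h0 h1
    by_contra h2
    push Not at h2
    obtain ⟨⟨d, hd⟩, h3⟩ := h2
    refine hc (Finset.mem_erase.2 ⟨h0, hS.mem_toFinset.2 ⟨(hs _ hd).1, h1, ?_⟩⟩)
    rw [le_div_iff₀ hP]
    rwa [div_mul_eq_mul_div, div_le_iff₀ hY] at h3
  have e : (fun w : X F => EN η (fun r => if r.1 = 0 then 0 else ω r) Y w *
      (D.indicator 1 w.1 * kn ν h w)) = fun w => (Y ^ (-(4 / 3) : ℝ) : ℝ) * ∑ c ∈ hS.toFinset.erase 0,
        (η (lg c) : ℂ) * ((∑' t : F, ω (c, c * t) * fc (an c / Y * PP (w.1 + em t, w.2))) *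
          (D.indicator 1 w.1 * kn ν h w)) := by
    funext w
    by_cases hw : h w.2 = 0
    · simp [kn, hw]
    rw [EN_rows hη hω, tsum_eq_sum (s := hS.toFinset.erase 0), mul_assoc, Finset.sum_mul]
    · congr 1
      refine Finset.sum_congr rfl fun c hc => ?_
      rw [if_neg (Finset.ne_of_mem_erase hc), mul_assoc]
    · intro c hc
      split_ifs with h0
      · rfl
      by_cases h1 : η (lg c) = 0
      · simp [h1]
      rcases hn c hc h0 h1 with h2 | h2
      · simp [h2]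
      · simp [fcd_fc ((hB _).2 hw) h2]
  rw [e, integral_const_mul, integral_finsetSum _ fun c hc => (fcd_int hω.adm hD ν hh
    (Finset.ne_of_mem_erase hc) (div_pos (an_pos (Finset.ne_of_mem_erase hc)) hY)).const_mul _, Lm,
    tsum_eq_sum (s := hS.toFinset.erase 0)]
  · congr 1
    refine Finset.sum_congr rfl fun c hc => ?_
    rw [integral_const_mul, fcd_row hω hq hD hν hh (Finset.ne_of_mem_erase hc)
      (div_pos (an_pos (Finset.ne_of_mem_erase hc)) hY), co, mul_assoc]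
  · intro c hc
    by_cases h0 : c = 0
    · simp [co, SS, h0]
    by_cases h1 : η (lg c) = 0
    · simp [co, h1]
    rcases hn c hc h0 h1 with h2 | h2
    · simp [co, SS, h2]
    · have : cv fc (kn ν h) (an c / Y) = 0 := by
        refine integral_eq_zero_of_ae (ae_of_all _ fun w => ?_)
        by_cases hw : h w.2 = 0
        · simp [kn, hw]
        · exact mul_eq_zero_of_left (fcd_fc ((hB _).2 hw) h2 w.1) _
      rw [this, mul_zero]

/-- FC-d.  `EN_add`, `EN_zero_row` -/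
theorem fc_pair' (hη : Pou V η) (hω : Fc V q ω) (hq : 0 < q) (hD : IsFD q D) {ν : F} (hν : Dl q ν)
    {h : (Pl F → ℝ) → ℂ} (hh : Tst h) : ∀ᶠ Y : ℝ in atTop,
    ∫ w : X F, EN η ω Y w * (D.indicator 1 w.1 * kn ν h w) = Lm (cv fc (kn ν h)) (co η q ω ν) an Y := by
  obtain ⟨B, hB⟩ := hh.bdd
  filter_upwards [EN_zero_row hω η B, eventually_gt_atTop 0] with Y h1 hY
  rw [← fc_pair hη hω hq hD hν hh hY]
  refine integral_congr_ae (ae_of_all _ fun w => ?_)
  by_cases hw : h w.2 = 0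
  · simp [kn, hw]
  have h2 : Adm fun r : F × F => if r.1 = 0 then 0 else ω r := by
    convert hω.adm.ite fun r => ¬ r.1 = 0 using 2 with r
    by_cases h0 : r.1 = 0 <;> simp [h0]
  have h3 := EN_add hη (hω.adm.ite fun r => r.1 = 0) h2 Y w
  rw [h1 w ((hB _).2 hw), zero_add] at h3
  simp only
  rw [← h3]
  congr 2
  funext r
  split_ifs <;> simp

end Crest.Agent.R27.TH
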