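import Crest.Agent.R27.TH.Loc
import Crest.Agent.R27.TH.Unf

/-! Row 27, block TH/SPACE (owner helper53): the group `Γ(q)` and its partition of unity. -/

set_option autoImplicit false
set_option linter.unusedSectionVars false

namespace Crest.Agent.R27.TH

open Crest.NumberTheoryR.EisensteinField Crest.Agent.R27.G MeasureTheory Filter Set
open scoped NumberField ComplexConjugate Classical Real Topology MatrixGroups ENNReal

noncomputable section

/-- a partition of unity exists if the orbits meet the level sets of `n` boundedly often -/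
theorem exists_gp' {Γ X : Type} [Group Γ] [Countable Γ] [MeasurableSpace X] {μ : Measure X} {act : Γ → X → X}
    (h1 : ∀ w, act 1 w = w) (hmul : ∀ γ δ w, act (γ * δ) w = act γ (act δ w))
    (hmp : ∀ γ, MeasurePreserving (act γ) μ μ) {n : X → ℕ} (hn : Measurable n) {C : ℕ → ℕ}
    (hC : ∀ w k (s : Finset Γ), (∀ γ ∈ s, n (act γ w) = k) → s.card ≤ C k) : ∃ β, GP μ act β := by
  refine exists_gp h1 hmul hmp (h₀ := fun w => (1 / 2 : ℝ) ^ n w / (C (n w) + 1))
    ((measurable_from_top (f := fun k : ℕ => (1 / 2 : ℝ) ^ k / (C k + 1))).comp hn) (fun w => by positivity)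
    fun w => summable_of_sum_le (c := ∑' k : ℕ, (1 / 2 : ℝ) ^ k) (fun γ => by positivity) fun s => ?_
  rw [← Finset.sum_fiberwise_of_maps_to (g := fun γ => n (act γ w)) (t := s.image fun γ => n (act γ w))
    fun γ hγ => Finset.mem_image_of_mem _ hγ]
  refine (Finset.sum_le_sum fun k _ => ?_).trans (summable_geometric_two.sum_le_tsum _ fun k _ => by positivity)
  rw [Finset.sum_congr rfl (g := fun _ => (1 / 2 : ℝ) ^ k / (C k + 1)) fun γ hγ => by
    rw [(Finset.mem_filter.1 hγ).2], Finset.sum_const, nsmul_eq_mul, mul_div_assoc', div_le_iff₀ (by positivity),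
    mul_comm]
  have : ((s.filter fun γ => n (act γ w) = k).card : ℝ) ≤ C k :=
    Nat.cast_le.2 (hC w k _ fun γ hγ => (Finset.mem_filter.1 hγ).2)
  exact mul_le_mul_of_nonneg_left (by linarith) (by positivity)

variable {F : Type} [Field F] [NumberField F] [Algebra K3 F]

theorem Lat.mul {q : ℕ} {x y : F} (hx : x ∈ Lat F q) (hy : y ∈ Lat F q) : x * y ∈ Lat F q := by
  obtain ⟨a, rfl⟩ := hx
  obtain ⟨b, rfl⟩ := hy
  exact ⟨q * (a * b), by push_cast; ring⟩

theorem Lat.inL {q : ℕ} {x : F} (hx : x ∈ Lat F q) : InL 1 x ∧ InL 1 (1 + x) := by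
  obtain ⟨a, rfl⟩ := hx
  exact ⟨⟨q * a, by simp⟩, 1 + q * a, by simp⟩

/-- the principal congruence subgroup -/
def Gam (F : Type) [Field F] (q : ℕ) : Subgroup SL(2, F) where
  carrier := {g | g 0 0 - 1 ∈ Lat F q ∧ g 0 1 ∈ Lat F q ∧ g 1 0 ∈ Lat F q ∧ g 1 1 - 1 ∈ Lat F q}
  one_mem' := by simp
  mul_mem' := by
    rintro g g' ⟨h1, h2, h3, h4⟩ ⟨k1, k2, k3, k4⟩
    have m : ∀ {x y : F}, x ∈ Lat F q → y ∈ Lat F q → x * y ∈ Lat F q := by
      rintro _ _ ⟨a, rfl⟩ ⟨b, rfl⟩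
      exact ⟨q * (a * b), by push_cast; ring⟩
    simp only [mem_ofPred_eq, Matrix.SpecialLinearGroup.coe_mul, Matrix.mul_apply, Fin.sum_univ_two]
    refine ⟨?_, ?_, ?_, ?_⟩
    · convert add_mem (add_mem (add_mem (m h1 k1) h1) k1) (m h2 k3) using 1; ring
    · convert add_mem (add_mem (add_mem (m h1 k2) k2) h2) (m h2 k4) using 1; ring
    · convert add_mem (add_mem (add_mem (m h3 k1) h3) k3) (m h4 k3) using 1; ring
    · convert add_mem (add_mem (add_mem (m h3 k2) h4) k4) (m h4 k4) using 1; ring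
  inv_mem' := by
    rintro g ⟨h1, h2, h3, h4⟩
    rw [Matrix.SpecialLinearGroup.SL2_inv_expl]
    exact ⟨h4, neg_mem h2, neg_mem h3, h1⟩

theorem SL_inj : Function.Injective fun g : SL(2, F) => ((g 0 0, g 0 1), (g 1 0, g 1 1)) := fun g g' h => by
  simp only [Prod.mk.injEq] at h
  ext i j
  fin_cases i <;> fin_cases j
  exacts [h.1.1, h.1.2, h.2.1, h.2.2]

instance : Countable SL(2, F) := SL_inj.countable

theorem rm_e (g : SL(2, F)) : rm (0, 1) g = (g 1 0, g 1 1) := by simp [rm]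

theorem rm_e' (g : SL(2, F)) : rm (1, 0) g = (g 0 0, g 0 1) := by simp [rm]

theorem Qi_bdd (R : ℝ) (r : F × F) : ∃ B : ℝ, ∀ w : X F, ‖w‖ ≤ R → ∀ i, Qi w r i ≤ B := by
  have h : Continuous fun (w : X F) i => Qi w r i := continuous_pi fun i => continuous_Qi r i
  obtain ⟨B, hB⟩ := (isCompact_closedBall (0 : X F) R).exists_bound_of_continuousOn h.continuousOn
  exact ⟨B, fun w hw i => (le_abs_self _).trans
    ((norm_le_pi_norm (fun i => Qi w r i) i).trans (hB w (mem_closedBall_zero_iff.2 hw)))⟩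

/-- proper discontinuity -/
theorem finite_gam (q : ℕ) (R : ℝ) : {γ : Gam F q | ∃ w : X F, ‖w‖ ≤ R ∧ ‖act γ w‖ ≤ R}.Finite := by
  obtain ⟨B, hB⟩ := Qi_bdd R ((1, 0) : F × F)
  obtain ⟨B', hB'⟩ := Qi_bdd R ((0, 1) : F × F)
  refine Set.Finite.of_finite_image (f := fun γ : Gam F q => ((γ.1 0 0, γ.1 0 1), (γ.1 1 0, γ.1 1 1)))
    (((finite_rows one_pos R B).prod (finite_rows one_pos R B')).subset ?_)
    (SL_inj.comp Subtype.val_injective).injOn
  rintro _ ⟨⟨g, h1, h2, h3, h4⟩, ⟨w, hw, hw'⟩, rfl⟩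
  refine ⟨⟨by simpa using (Lat.inL h1).2, (Lat.inL h2).1, w, hw, fun i => ?_⟩,
    (Lat.inL h3).1, by simpa using (Lat.inL h4).2, w, hw, fun i => ?_⟩
  · have := hB _ hw' i
    rwa [Qi_act, rm_e'] at this
  · have := hB' _ hw' i
    rwa [Qi_act, rm_e] at this

theorem card_gam (q : ℕ) (R : ℝ) : ∃ C : ℕ, ∀ (w : X F) (s : Finset (Gam F q)),
    (∀ γ ∈ s, ‖act γ w‖ ≤ R) → s.card ≤ C := by
  refine ⟨(finite_gam (F := F) q R).toFinset.card, fun w s hs => ?_⟩
  rcases s.eq_empty_or_nonempty with rfl | ⟨γ₀, h₀⟩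
  · simp
  refine Finset.card_le_card_of_injOn (fun γ => γ * γ₀⁻¹) (fun γ hγ => ?_) (mul_left_injective _).injOn
  refine Finset.mem_coe.2 ((Set.Finite.mem_toFinset _).2 ⟨act γ₀ w, hs _ h₀, ?_⟩)
  rw [← act_mul, ← Subgroup.coe_mul, inv_mul_cancel_right]
  exact hs _ hγ

/-- the action of `Γ(q)` -/
def actG (q : ℕ) (γ : Gam F q) : X F → X F := act γ

theorem exists_beta (F : Type) [Field F] [NumberField F] [Algebra K3 F] (q : ℕ) :
    ∃ β : X F → ℝ, GP mu (actG q) β := by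
  choose C hC using fun k : ℕ => card_gam (F := F) q k
  refine exists_gp' act_one (fun γ δ => act_mul _ _) (fun γ => act_mp _) (n := fun w => ⌈‖w‖⌉₊)
    (Nat.measurable_ceil.comp measurable_norm) (C := C) fun w k s hs => hC k w s fun γ hγ => ?_
  exact (Nat.le_ceil _).trans (Nat.cast_le.2 (hs γ hγ).le)

/-- an invariant function is controlled on compact sets by its norm on the quotient -/
theorem local_le {q : ℕ} {β : X F → ℝ} (hβ : GP mu (actG q) β) {K : Set (X F)} (hK : IsCompact K) :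
    ∃ C : ℝ≥0∞, C ≠ ⊤ ∧ ∀ N : X F → ℝ≥0∞, Measurable N → (∀ γ ∈ Gam F q, ∀ w, N (act γ w) = N w) →
      ∫⁻ w in K, N w ∂mu ≤ C * ∫⁻ w, ENNReal.ofReal (β w) * N w ∂mu := by
  obtain ⟨R, hR⟩ := hK.isBounded.exists_norm_le
  obtain ⟨C, hC⟩ := card_gam (F := F) q R
  refine ⟨C, ENNReal.natCast_ne_top C, fun N hN hi => hβ.local hK.measurableSet (fun w => ?_) hN.aemeasurable
    fun γ w => hi γ γ.2 w⟩
  rw [ENNReal.tsum_eq_iSup_sum]
  refine iSup_le fun s => ?_
  simp only [indicator_apply]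
  rw [Finset.sum_boole]
  exact Nat.cast_le.2 (hC w _ fun γ hγ => hR _ (Finset.mem_filter.1 hγ).2)

/-- the unipotent matrix -/
def nn (b : F) : SL(2, F) := ⟨!![1, b; 0, 1], by simp [Matrix.det_fin_two]⟩

theorem nn_zero : nn (0 : F) = 1 := by
  apply SL_inj
  simp [nn]

theorem nn_mem {q : ℕ} {b : F} (hb : b ∈ Lat F q) : nn b ∈ Gam F q := by
  refine ⟨?_, ?_, ?_, ?_⟩ <;> simp [nn, hb]

theorem rm_nn (r : F × F) (b : F) : rm r (nn b) = (r.1, r.2 + r.1 * b) := by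
  simp [rm, nn, add_comm]

theorem act_nn (b : F) (w : X F) : act (nn b) w = (w.1 + em b, w.2) := X_ext fun i x y => by
  rw [Qf_act]
  simp [nn, Crest.Agent.R17.D.Qf_add]

/-- two elements with the same bottom row differ by a unipotent -/
theorem eq_nn_mul {q : ℕ} {g g' : SL(2, F)} (hg : g ∈ Gam F q) (hg' : g' ∈ Gam F q) (h : rm (0, 1) g' = rm (0, 1) g) :
    ∃ b ∈ Lat F q, g' = nn b * g := by
  have h1 : rm (0, 1) (g' * g⁻¹) = (0, 1) := by rw [rm_mul, h, ← rm_mul, mul_inv_cancel, rm_one]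
  have h2 := mul_mem hg' (inv_mem hg)
  refine ⟨_, h2.2.1, ?_⟩
  rw [← mul_inv_eq_iff_eq_mul]
  generalize g' * g⁻¹ = t at h1
  rw [rm_e, Prod.mk.injEq] at h1
  have hd := t.det_coe
  rw [Matrix.det_fin_two, h1.1, h1.2, mul_one, mul_zero, sub_zero] at hd
  apply SL_inj
  simp [nn, h1.1, h1.2, hd]

/-- sums over rows as sums over the group -/
theorem tsum_gam {q : ℕ} {D : Set (Pl F → ℂ)} (hD : IsFD q D) (w : X F) {G : F × F → ℂ}
    (hG : ∀ r, G r ≠ 0 → ∃ g ∈ Gam F q, rm (0, 1) g = r) :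
    ∑' γ : Gam F q, (if (act γ w).1 ∈ D then G (rm (0, 1) γ) else 0) = ∑' r, G r := by
  symm
  refine tsum_eq_tsum_of_ne_zero_bij (fun γ => rm (0, 1) γ.1.1) (fun γ γ' h => ?_) (fun r hr => ?_) fun γ => ?_
  · obtain ⟨b, hb, e⟩ := eq_nn_mul γ.1.2 γ'.1.2 h.symm
    have h1 : (act γ.1.1 w).1 ∈ D := by
      by_contra h'
      exact γ.2 (if_neg h')
    have h2 : (act γ'.1.1 w).1 ∈ D := by
      by_contra h'
      exact γ'.2 (if_neg h')
    rw [e, act_mul, act_nn] at h2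
    have h3 := (hD.uniq (act γ.1.1 w).1).unique (y₁ := ⟨b, hb⟩) (y₂ := 0) h2 (by simpa using h1)
    obtain rfl : b = 0 := congrArg Subtype.val h3
    refine Subtype.ext (Subtype.ext ?_)
    rw [e, nn_zero, one_mul]
  · obtain ⟨g, hg, rfl⟩ := hG r hr
    obtain ⟨b, hb, -⟩ := hD.uniq (act g w).1
    have e : rm (0, 1) (nn (b : F) * g) = rm (0, 1) g := by rw [rm_mul, rm_nn]; simp
    refine ⟨⟨⟨nn (b : F) * g, mul_mem (nn_mem b.2) hg⟩, ?_⟩, e⟩
    rw [Function.mem_support, if_pos (by rw [act_mul, act_nn]; exact hb), e]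
    exact hr
  · exact (if_pos (by
      by_contra h'
      exact γ.2 (if_neg h'))).symm

end

end Crest.Agent.R27.TH
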