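import Crest.Agent.R27.TH.GramD
import Crest.Agent.R27.TH.Coc

/-! Row 27, block TH/GRAM (owner helper53): the deliverables `good_bw`, `nz_bw`. -/

set_option autoImplicit false

namespace Crest.Agent.R27.TH

open Crest.NumberTheoryR.EisensteinField Crest.Agent.R27.G Filter
open scoped NumberField

variable {F : Type} [Field F] [NumberField F] [Algebra K3 F] {v : Lv F}
  [Md v] {V : Subgroup (𝓞 F)ˣ} [V.FiniteIndex] {η : (Pl F → ℝ) → ℝ} {k : ℕ}

theorem good_bw (hk : 1 ≤ k) (hη : Pou V η) (hV : V ≤ VK v k) : Good v η (bw v k) :=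
  good_bw_of hk (kub_bw hk) (fc_bw hk) hη hV

theorem nz_bw (hk : 1 ≤ k) (hη : Pou V η) (hV : V ≤ VK v k) : ¬ L2z atTop (EN η (bw v k)) :=
  nz_bw_of hk (kub_bw hk) (fc_bw hk) hη hV

end Crest.Agent.R27.TH
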