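import Crest.Agent.R27.TH.GramA
import Crest.Agent.R27.TH.FC

/-! Row 27, block TH/GRAM (owner helper53): the limit of the Gram integrals. -/

set_option autoImplicit false
set_option linter.unusedSectionVars false

namespace Crest.Agent.R27.TH

open Crest.NumberTheoryR.EisensteinField Crest.Agent.R27.G MeasureTheory Filter Set
open scoped NumberField ComplexConjugate Classical Real Topology MatrixGroups ENNReal

noncomputable section

variable {F : Type} [Field F] [NumberField F] [Algebra K3 F]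

variable {V : Subgroup (𝓞 F)ˣ} {η : (Pl F → ℝ) → ℝ} {χ ω : F × F → ℂ} {Ω : F × F → F × F → ℂ} {q : ℕ}
  {D : Set (Pl F → ℂ)} {β : X F → ℝ}

theorem sum_shift (l : Pl F → ℝ) (t : ℝ) :
    ∑ i, (l + fun _ => t / Fintype.card (Pl F) : Pl F → ℝ) i = ∑ i, l i + t := by
  have hr : (Fintype.card (Pl F) : ℝ) ≠ 0 := by exact_mod_cast card_Pl_pos.ne'
  simp only [Pi.add_apply, Finset.sum_add_distrib, Finset.sum_const, Finset.card_univ, nsmul_eq_mul]
  rw [mul_div_cancel₀ _ hr]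

theorem gY_shift (hη : Pou V η) {Y : ℝ} (hY : 0 < Y) (l : Pl F → ℝ) :
    gY η Y (l + fun _ => -Real.log Y / Fintype.card (Pl F)) = gY η 1 l := by
  rw [gY, gY, sum_shift, ← hη.diag (fun i => -l i / 2) (Real.log Y / Fintype.card (Pl F) / 2), neg_add, neg_neg,
    Real.exp_add, Real.exp_log hY, mul_div_cancel_right₀ _ hY.ne', div_one]
  congr 2
  funext i
  simp only [Pi.add_apply]
  ring

theorem cv_hY (hη : Pou V η) {Y : ℝ} (hY' : 0 < Y) (t : ℝ) :
    cv fc (kn 0 (hY η Y)) t = cv fc (kn 0 (hY η 1)) (t / Y) := by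
  have hr : (Fintype.card (Pl F) : ℝ) ≠ 0 := by exact_mod_cast card_Pl_pos.ne'
  obtain ⟨a, ha⟩ : ∃ a, a = -Real.log Y / Fintype.card (Pl F) := ⟨_, rfl⟩
  have hs : ∀ _ : Pl F, (Real.exp a : ℂ) ≠ 0 := fun _ => Complex.ofReal_ne_zero.2 (Real.exp_pos a).ne'
  have h1 : ‖(Real.exp a : ℂ)‖ = Real.exp a := by
    rw [Complex.norm_real, Real.norm_of_nonneg (Real.exp_pos a).le]
  have h2 : ∏ _ : Pl F, Real.exp a = Y⁻¹ := by
    rw [Finset.prod_const, Finset.card_univ, ← Real.exp_nat_mul, ha, mul_div_cancel₀ _ hr, Real.exp_neg,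
      Real.exp_log hY']
  rw [cv, cv, integral_scale hs, ← integral_const_mul]
  refine integral_congr_ae (Eventually.of_forall fun w => ?_)
  simp only [PP_scale hs, kn, eZ_zero_left, map_one, one_mul, hY]
  simp only [h1, Real.log_exp, Finset.prod_pow, h2]
  rw [ha, gY_shift hη hY', sum_shift, mul_add, neg_add, Real.exp_add, mul_neg, neg_neg,
    show (2 : ℝ) * Real.log Y = Real.log (Y ^ 2) by simp, Real.exp_log (pow_pos hY' 2), ← mul_assoc t, ← div_eq_mul_inv]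
  have : (Y : ℂ) ≠ 0 := Complex.ofReal_ne_zero.2 hY'.ne'
  push_cast
  field_simp

theorem integrable_gY (hη : Pou V η) (Y : ℝ) : Integrable (gY η Y) := by
  obtain ⟨B, -, hB⟩ := gY_supp hη Y
  have h1 : IntegrableOn (gY η Y) (Metric.closedBall 0 B) :=
    Measure.integrableOn_of_bounded (M := 1) measure_closedBall_lt_top.ne (measurable_gY hη Y).aestronglyMeasurable
      (Eventually.of_forall fun l => by
        rw [Real.norm_of_nonneg (gY_nonneg hη _ _)]
        exact gY_le_one hη _ _)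
  exact (integrableOn_iff_integrable_of_support_subset fun w hw => mem_closedBall_zero_iff.2 (hB w hw)).1 h1

theorem integral_gY (hη : Pou V η) {Y : ℝ} (hY : 0 < Y) : ∫ l, gY η Y l = ∫ l, gY η 1 l := by
  rw [← integral_add_right_eq_self _ fun _ => -Real.log Y / Fintype.card (Pl F)]
  simp only [gY_shift hη hY]

/-- the rows `(0, u)` -/
theorem EN_diag [V.FiniteIndex] (hη : Pou V η) {B : ℝ} (hB : ∀ r, ‖ω r‖ ≤ B)
    (hd : ∀ d, ω (0, d) ≠ 0 → ∃ u : (𝓞 F)ˣ, d = (u : 𝓞 F)) {Y : ℝ} (hY : 0 < Y) (w : X F) :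
    ‖EN η (fun r => if r.1 = 0 then ω r else 0) Y w‖ ≤
      Y ^ (-(4 / 3) : ℝ) * (B * (V.relIndex ⊤ * ff (Real.exp (-∑ i, w.2 i) / Y))) := by
  have he : Function.Injective fun u : (⊤ : Subgroup (𝓞 F)ˣ) => ((0 : F), ((u.1 : 𝓞 F) : F)) := fun u u' h =>
    Subtype.ext (Units.ext (NumberField.RingOfIntegers.coe_injective (congrArg Prod.snd h)))
  rw [EN_eq, norm_mul, Complex.norm_real, Real.norm_of_nonneg (Real.rpow_nonneg hY.le _), ← he.tsum_eq]
  · refine mul_le_mul_of_nonneg_left (tsum_of_norm_bounded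
      (((hη.index le_top (lQ w (0, 1))).mul_right _).mul_left B) fun u => ?_) (Real.rpow_nonneg hY.le _)
    have h1 := lQ_smul w (c := 0) (d := 1) (unit_ne u.1) (by simp)
    rw [mul_zero, mul_one] at h1
    rw [if_pos rfl, norm_mul, Complex.norm_real, Real.norm_of_nonneg (pf_nonneg hη _ _ _), pf, h1, NQ_zero_left,
      an_unit, one_mul]
    exact mul_le_mul_of_nonneg_right (hB _) (mul_nonneg (hη.nonneg _) (ff_nonneg _))
  · rintro ⟨c, d⟩ h
    have h1 := left_ne_zero_of_mul h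
    obtain rfl : c = 0 := by
      by_contra h'
      exact h1 (if_neg h')
    rw [if_pos rfl] at h1
    obtain ⟨u, rfl⟩ := hd d h1
    exact ⟨⟨u, trivial⟩, rfl⟩

theorem diag_le [V.FiniteIndex] (hη : Pou V η) (hω : Adm ω) (hD : IsFD q D)
    (hd : ∀ d, ω (0, d) ≠ 0 → ∃ u : (𝓞 F)ˣ, d = (u : 𝓞 F)) : ∃ C : ℝ, ∀ Y Y' : ℝ, 0 < Y → 0 < Y' →
      ‖((Y' ^ (-(4 / 3) : ℝ) : ℝ) : ℂ) * ∫ w, uG η D (fun r => if r.1 = 0 then ω r else 0) Y Y' w ∂mu‖ ≤
        C * (Y ^ (-(1 / 3) : ℝ) * Y' ^ (-(1 / 3) : ℝ)) := by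
  obtain ⟨B, hB⟩ := hω.bdd
  have hB0 : 0 ≤ B := (norm_nonneg _).trans (hB 0)
  refine ⟨4 * B * V.relIndex ⊤ * (volume.real D * ∫ l, gY η 1 l), fun Y Y' hY hY' => ?_⟩
  have hi : Integrable fun w : X F => D.indicator (fun _ => (1 : ℝ)) w.1 * gY η Y' w.2 :=
    ((integrable_indicator_iff hD.meas).2 (integrableOn_const hD.volume_ne_top)).mul_prod (integrable_gY hη Y')
  have e : ∀ y : ℝ, 0 < y → y ^ (-(1 / 3) : ℝ) = y ^ (-(4 / 3) : ℝ) * y := fun y hy => by
    rw [← Real.rpow_add_one hy.ne']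
    norm_num
  have p1 := Real.rpow_pos_of_pos hY (-(4 / 3))
  have p2 := Real.rpow_pos_of_pos hY' (-(4 / 3))
  rw [norm_mul, Complex.norm_real, Real.norm_of_nonneg p2.le, integral_mu, e Y hY, e Y' hY']
  refine (mul_le_mul_of_nonneg_left (norm_integral_le_of_norm_le
    (hi.const_mul (Y ^ (-(4 / 3) : ℝ) * (B * V.relIndex ⊤) * (4 * Y * Y'))) (Eventually.of_forall fun w => ?_))
    p2.le).trans_eq ?_
  · by_cases hw : w.1 ∈ D
    swap
    · simp [uG, hw]
    have g0 := gY_nonneg hη Y' w.2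
    rw [uG, if_pos hw, indicator_of_mem hw, norm_mul, norm_mul, Complex.norm_real, Complex.norm_real,
      Real.norm_of_nonneg (Real.exp_pos _).le, Real.norm_of_nonneg g0, one_mul, mul_left_comm, mul_comm]
    rcases g0.eq_or_lt with h | h
    · simp [← h]
    refine mul_le_mul_of_nonneg_right ((mul_le_mul_of_nonneg_left (EN_diag hη hB hd hY w)
      (Real.exp_pos _).le).trans ?_) g0
    have h1 := (div_le_iff₀ hY').1 (ff_ne_zero (right_ne_zero_of_mul h.ne')).2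
    have h2 : Real.exp (-(2 * ∑ i, w.2 i)) = Real.exp (-∑ i, w.2 i) * Real.exp (-∑ i, w.2 i) := by
      rw [← Real.exp_add]
      ring_nf
    have h3 : Real.exp (-(2 * ∑ i, w.2 i)) * ff (Real.exp (-∑ i, w.2 i) / Y) ≤ 4 * Y * Y' := by
      by_cases h4 : ff (Real.exp (-∑ i, w.2 i) / Y) = 0
      · rw [h4, mul_zero]
        positivity
      have h5 := (div_le_iff₀ hY).1 (ff_ne_zero h4).2
      refine (mul_le_of_le_one_right (Real.exp_pos _).le (ff_le_one _)).trans ?_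
      rw [h2]
      exact (mul_le_mul h5 h1 (Real.exp_pos _).le (by positivity)).trans_eq (by ring)
    exact le_of_eq_of_le (by ring) (mul_le_mul_of_nonneg_left h3
      (by positivity : 0 ≤ Y ^ (-(4 / 3) : ℝ) * (B * V.relIndex ⊤)))
  · rw [integral_const_mul, Measure.volume_eq_prod,
      integral_prod_mul (fun z => D.indicator (fun _ => (1 : ℝ)) z) (gY η Y'), integral_indicator hD.meas,
      integral_gY hη hY', setIntegral_const, smul_eq_mul]
    ring

theorem uG_add (hη : Pou V η) {ω' : F × F → ℂ} (hω : Adm ω) (hω' : Adm ω') (D : Set (Pl F → ℂ)) (Y Y' : ℝ) (w : X F) :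
    uG η D (fun r => ω r + ω' r) Y Y' w = uG η D ω Y Y' w + uG η D ω' Y Y' w := by
  unfold uG
  split_ifs
  · rw [EN_add hη hω hω', mul_add]
  · rw [add_zero]

/-- THE LIMIT -/
theorem gram_lim [V.FiniteIndex] (hη : Pou V η) (hω : Fc V q ω) (hq : 0 < q) (hD : IsFD q D)
    (hd : ∀ d, ω (0, d) ≠ 0 → ∃ u : (𝓞 F)ˣ, d = (u : 𝓞 F)) {ρ : ℂ}
    (hρ : Tendsto (Lm fc (co η q ω 0) an) atTop (𝓝 ρ)) :
    Tendsto (fun p : ℝ × ℝ => ((p.2 ^ (-(4 / 3) : ℝ) : ℝ) : ℂ) * ∫ w, uG η D ω p.1 p.2 w ∂mu) (atTop ×ˢ atTop)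
      (𝓝 (ρ * mt (kn 0 (hY η 1)))) := by
  obtain ⟨C, hC⟩ := diag_le hη hω.adm hD hd
  have a1 : Adm fun r => if r.1 = 0 then ω r else 0 := hω.adm.ite _
  have a2 : Adm fun r => if r.1 = 0 then 0 else ω r := by
    convert hω.adm.ite fun r => ¬ r.1 = 0 using 2 with r
    split_ifs <;> rfl
  have hp : ∀ᶠ p : ℝ × ℝ in atTop ×ˢ atTop, 0 < p.1 ∧ 0 < p.2 :=
    (eventually_gt_atTop 0).prod_mk (eventually_gt_atTop 0)
  have t0 := tendsto_rpow_neg_atTop (show (0 : ℝ) < 1 / 3 by norm_num)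
  have t1 : Tendsto (fun p : ℝ × ℝ => ((p.2 ^ (-(4 / 3) : ℝ) : ℝ) : ℂ) *
      ∫ w, uG η D (fun r => if r.1 = 0 then ω r else 0) p.1 p.2 w ∂mu) (atTop ×ˢ atTop) (𝓝 0) :=
    squeeze_zero_norm' (hp.mono fun p h => hC _ _ h.1 h.2)
      (by simpa using ((t0.comp tendsto_fst).mul (t0.comp tendsto_snd)).const_mul C)
  have t2 := (tendsto_cv (lf_co hη hω.adm q 0) prf_fc (ker_kn 0 (tst_hY hη 1)) hρ).comp
    (tendsto_fst.atTop_mul_atTop₀ tendsto_snd)
  have t3 := t1.add t2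
  rw [zero_add] at t3
  refine t3.congr' (hp.mono fun p h => ?_)
  have e : ω = fun r => (if r.1 = 0 then ω r else 0) + if r.1 = 0 then 0 else ω r := funext fun r => by
    split_ifs <;> simp
  have e2 : cv fc (kn 0 (hY η p.2)) = fun t => 1 * cv fc (kn 0 (hY η 1)) (t / p.2) := funext fun t => by
    rw [one_mul, cv_hY hη h.2]
  conv_rhs => rw [e]
  simp only [uG_add hη a1 a2, Function.comp_apply]
  rw [integral_add (integrable_uG hη hD a1 _ _) (integrable_uG hη hD a2 _ _), mul_add,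
    integral_uG η D (fun r => if r.1 = 0 then 0 else ω r), fc_pair hη hω hq hD (Dl.zero q) (tst_hY hη _) h.1, e2,
    Lm_scale _ _ _ _ h.2 h.1, one_mul, ← mul_assoc, ← Complex.ofReal_mul, ← Real.rpow_add h.2, neg_add_cancel,
    Real.rpow_zero, Complex.ofReal_one, one_mul]

theorem gY_ne (hη : Pou V η) : ¬ ∀ᵐ l, gY η 1 l = 0 := fun h => by
  have h1 : ∀ᵐ l : Pl F → ℝ, ∀ u : V, gY η 1 (l + (-2 : ℝ) • lu u) = 0 :=
    ae_all_iff.2 fun u => (measurePreserving_add_right volume _).quasiMeasurePreserving.ae h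
  have h2 : ∀ᵐ l : Pl F → ℝ, l ∉ {l : Pl F → ℝ | Real.exp (-∑ i, l i) ∈ Ioo (1 : ℝ) 2} := h1.mono fun l hl hm => by
    have h3 : ff (Real.exp (-∑ i, l i) / 1) ≠ 0 := by
      rw [div_one, ff, if_pos ⟨hm.1, hm.2.le⟩]
      exact inv_ne_zero (Real.exp_pos _).ne'
    have h4 : ∀ u : V, η ((fun i => -l i / 2) + lu u) = 0 := fun u => by
      have h5 := hl u
      simp only [gY, Pi.add_apply, Pi.smul_apply, smul_eq_mul, Finset.sum_add_distrib, ← Finset.mul_sum,
        sum_lg_unit, mul_zero, add_zero] at h5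
      rw [← (mul_eq_zero.1 h5).resolve_right h3]
      congr 1
      funext i
      simp only [Pi.add_apply]
      ring
    have h6 := hη.sum fun i => -l i / 2
    simp only [h4] at h6
    exact zero_ne_one (hasSum_zero.unique h6)
  have h7 : IsOpen {l : Pl F → ℝ | Real.exp (-∑ i, l i) ∈ Ioo (1 : ℝ) 2} := isOpen_Ioo.preimage (by fun_prop)
  refine h7.measure_ne_zero volume ⟨0 + fun _ => -Real.log (3 / 2) / Fintype.card (Pl F), ?_⟩
    (measure_eq_zero_iff_ae_notMem.2 h2)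
  rw [mem_ofPred_eq, sum_shift]
  simp only [Pi.zero_apply, Finset.sum_const_zero, zero_add, neg_neg]
  rw [Real.exp_log (by norm_num)]
  constructor <;> norm_num

theorem mt_pos (hη : Pou V η) : ∃ m : ℝ, 0 < m ∧ mt (kn 0 (hY η 1)) = m := by
  obtain ⟨f, hf⟩ : ∃ f : X F → ℝ, f = fun w => PP w ^ (-(4 / 3) : ℝ) *
    (gY η 1 w.2 * Real.exp (-(2 * ∑ i, w.2 i))) := ⟨_, rfl⟩
  have e : (fun w => ((PP w ^ (-(4 / 3) : ℝ) : ℝ) : ℂ) * kn 0 (hY η 1) w) = fun w => (f w : ℂ) := funext fun w => by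
    simp only [hf, kn, hY, eZ_zero_left, map_one, one_mul, Complex.ofReal_mul]
  have hi := (ker_kn 0 (tst_hY hη 1)).int
  rw [e] at hi
  have h0 : ∀ w, 0 ≤ f w := fun w => by
    rw [hf]
    exact mul_nonneg (Real.rpow_nonneg (PP_pos w).le _) (mul_nonneg (gY_nonneg hη _ _) (Real.exp_pos _).le)
  refine ⟨∫ w, f w, (integral_nonneg h0).lt_of_ne fun h => gY_ne hη ?_, by rw [mt, e, integral_complex_ofReal]⟩
  have h1 := (integral_eq_zero_iff_of_nonneg h0 (by simpa using hi.re)).1 h.symm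
  rw [Measure.volume_eq_prod] at h1
  obtain ⟨z, hz⟩ := (Measure.ae_ae_of_ae_prod h1).exists
  refine hz.mono fun l hl => ?_
  rw [hf] at hl
  exact (mul_eq_zero.1 ((mul_eq_zero.1 hl).resolve_left (Real.rpow_pos_of_pos (PP_pos _) _).ne')).resolve_right
    (Real.exp_pos _).ne'

end

end Crest.Agent.R27.TH
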