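import Crest.Agent.R27.TH.GramB

/-! Row 27, block TH/GRAM (owner helper53): Cauchy property, non-vanishing, equidistribution (abstract weights). -/

set_option autoImplicit false
set_option linter.unusedSectionVars false

namespace Crest.Agent.R27.TH

open Crest.NumberTheoryR.EisensteinField Crest.Agent.R27.G MeasureTheory Filter Set
open scoped NumberField ComplexConjugate Classical Real Topology MatrixGroups ENNReal

noncomputable section

/-- the variance identity -/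
theorem var_le {P : Type} [Fintype P] (A : P → ℂ) (x₀ : P) :
    ‖A x₀ - (Fintype.card P : ℂ)⁻¹ * ∑ x, A x‖ ^ 2 ≤
      (∑ x, A x * conj (A x) - (Fintype.card P : ℂ)⁻¹ * ((∑ x, A x) * conj (∑ x, A x))).re := by
  have hn : (Fintype.card P : ℂ) ≠ 0 := Nat.cast_ne_zero.2 (Fintype.card_pos_iff.2 ⟨x₀⟩).ne'
  have e : ((∑ x, ‖A x - (Fintype.card P : ℂ)⁻¹ * ∑ x, A x‖ ^ 2 : ℝ) : ℂ) =
      ∑ x, A x * conj (A x) - (Fintype.card P : ℂ)⁻¹ * ((∑ x, A x) * conj (∑ x, A x)) := by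
    push_cast
    simp only [← Complex.mul_conj', map_sub, map_mul, map_inv₀, map_natCast, sub_mul, mul_sub,
      Finset.sum_sub_distrib, ← Finset.sum_mul, ← Finset.mul_sum, Finset.sum_const, Finset.card_univ,
      nsmul_eq_mul, ← map_sum]
    field_simp
    ring
  rw [← e, Complex.ofReal_re]
  exact Finset.single_le_sum (f := fun x => ‖A x - (Fintype.card P : ℂ)⁻¹ * ∑ x, A x‖ ^ 2)
    (fun _ _ => sq_nonneg _) (Finset.mem_univ x₀)

variable {F : Type} [Field F] [NumberField F] [Algebra K3 F]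

variable {V : Subgroup (𝓞 F)ˣ} {η : (Pl F → ℝ) → ℝ} {χ ω : F × F → ℂ} {Ω : F × F → F × F → ℂ} {q : ℕ}
  {D : Set (Pl F → ℂ)} {β : X F → ℝ}

theorem Kub.eqv (hK : Kub q χ) : Eqv q χ fun _ => χ := fun g hg r _ => hK.coc g hg r

/-- the Gram integrals converge -/
theorem gram_tendsto [V.FiniteIndex] (hη : Pou V η) (hK : Kub q χ) (hΩ : Eqv q χ Ω) (hω : Fc V q (Ω (0, 1)))
    (hq : 0 < q) (hd : ∀ d, Ω (0, 1) (0, d) ≠ 0 → ∃ u : (𝓞 F)ˣ, d = (u : 𝓞 F)) (hβ : GP mu (actG q) β) {ρ : ℂ}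
    (hρ : Tendsto (Lm fc (co η q (Ω (0, 1)) 0) an) atTop (𝓝 ρ)) :
    Tendsto (fun p : ℝ × ℝ => ∫ w, (β w : ℂ) * GN η χ Ω p.1 p.2 w ∂mu) (atTop ×ˢ atTop)
      (𝓝 (ρ * mt (kn 0 (hY η 1)))) := by
  obtain ⟨D, hD⟩ := exists_FD (F := F) hq
  simp only [(gram_int hη hK hΩ hω.adm hD hβ _ _).2]
  exact gram_lim hη hω hq hD hd hρ

/-- the density of `‖E_Y - E_Y'‖²` -/
def GD (η : (Pl F → ℝ) → ℝ) (χ : F × F → ℂ) (p : ℝ × ℝ) (w : X F) : ℂ :=
  GN η χ (fun _ => χ) p.1 p.1 w - GN η χ (fun _ => χ) p.1 p.2 w - GN η χ (fun _ => χ) p.2 p.1 w +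
    GN η χ (fun _ => χ) p.2 p.2 w

theorem GD_re (η : (Pl F → ℝ) → ℝ) (χ : F × F → ℂ) (p : ℝ × ℝ) (w : X F) :
    (GD η χ p w).re = ‖EN η χ p.1 w - EN η χ p.2 w‖ ^ 2 := by
  have : GD η χ p w = ((‖EN η χ p.1 w - EN η χ p.2 w‖ ^ 2 : ℝ) : ℂ) := by
    simp only [GD, GN_const, Complex.ofReal_pow, ← Complex.mul_conj', map_sub]
    ring
  rw [this, Complex.ofReal_re]

theorem GD_spec [V.FiniteIndex] (hη : Pou V η) (hK : Kub q χ) (hω : Fc V q χ) (hq : 0 < q)
    (hd : ∀ d, χ (0, d) ≠ 0 → ∃ u : (𝓞 F)ˣ, d = (u : 𝓞 F)) (hβ : GP mu (actG q) β) {ρ : ℂ}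
    (hρ : Tendsto (Lm fc (co η q χ 0) an) atTop (𝓝 ρ)) :
    (∀ p, Integrable (fun w => (β w : ℂ) * GD η χ p w) mu) ∧
      Tendsto (fun p => ∫ w, (β w : ℂ) * GD η χ p w ∂mu) (atTop ×ˢ atTop) (𝓝 0) := by
  obtain ⟨D, hD⟩ := exists_FD (F := F) hq
  have hi := fun Y Y' => (gram_int hη hK hK.eqv hK.adm hD hβ Y Y').1
  have ht := gram_tendsto hη hK hK.eqv hω hq hd hβ hρ
  simp only [GD, mul_add, mul_sub]
  refine ⟨fun p => (((hi _ _).sub (hi _ _)).sub (hi _ _)).add (hi _ _), ?_⟩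
  have t := (((ht.comp (tendsto_fst.prodMk tendsto_fst)).sub ht).sub (ht.comp (tendsto_snd.prodMk tendsto_fst))).add
    (ht.comp (tendsto_snd.prodMk tendsto_snd))
  rw [sub_self, zero_sub, neg_add_cancel] at t
  refine t.congr fun p => ?_
  rw [integral_add (((hi _ _).sub' (hi _ _)).sub' (hi _ _)) (hi _ _),
    integral_sub ((hi _ _).sub' (hi _ _)) (hi _ _), integral_sub (hi _ _) (hi _ _)]
  rfl

theorem Kub.cau [V.FiniteIndex] (hη : Pou V η) (hK : Kub q χ) (hω : Fc V q χ) (hq : 0 < q)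
    (hd : ∀ d, χ (0, d) ≠ 0 → ∃ u : (𝓞 F)ˣ, d = (u : 𝓞 F)) {ρ : ℂ}
    (hρ : Tendsto (Lm fc (co η q χ 0) an) atTop (𝓝 ρ)) : Cau η χ := by
  obtain ⟨β, hβ⟩ := exists_beta F q
  obtain ⟨D, hD⟩ := exists_FD (F := F) hq
  obtain ⟨h1, h2⟩ := GD_spec hη hK hω hq hd hβ hρ
  have hm := measurable_GN hη χ fun _ => χ
  exact l2z_of_gram hβ (N := GD η χ) (fun p => (measurable_EN hη _ _).sub (measurable_EN hη _ _))
    (fun p => (((hm _ _).sub (hm _ _)).sub (hm _ _)).add (hm _ _)) (fun p w => (GD_re η χ p w).ge)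
    (fun p g hg w => by simp only [GD, GN_act hK hK.eqv hD η _ _ hg]) h1 h2

theorem GP.le_one {Γ X : Type} [Group Γ] [MeasurableSpace X] {μ : Measure X} {act : Γ → X → X} {β : X → ℝ}
    (h : GP μ act β) (w : X) : β w ≤ 1 := by
  have := le_hasSum (h.sum w) 1 fun γ _ => h.nonneg _
  rwa [h.one] at this

/-- no escape of mass -/
theorem Kub.nz [V.FiniteIndex] (hη : Pou V η) (hK : Kub q χ) (hω : Fc V q χ) (hq : 0 < q)
    (hd : ∀ d, χ (0, d) ≠ 0 → ∃ u : (𝓞 F)ˣ, d = (u : 𝓞 F)) {ρ : ℝ} (hρ0 : 0 < ρ)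
    (hρ : Tendsto (Lm fc (co η q χ 0) an) atTop (𝓝 ρ)) : ¬ L2z atTop (EN η χ) := fun hz => by
  obtain ⟨β, hβ⟩ := exists_beta F q
  obtain ⟨D, hD⟩ := exists_FD (F := F) hq
  obtain ⟨h1, h2⟩ := GD_spec hη hK hω hq hd hβ hρ
  obtain ⟨m, hm0, hm⟩ := mt_pos hη
  have ht := (gram_tendsto hη hK hK.eqv hω hq hd hβ hρ).comp (tendsto_id.prodMk tendsto_id)
  rw [hm, ← Complex.ofReal_mul] at ht
  have hc : 0 < ρ * m := mul_pos hρ0 hm0
  have e1 := (((Complex.continuous_re.tendsto _).comp h2).eventually (gt_mem_nhds (show (0 : ℂ).re < ρ * m / 8 by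
    simpa using hc)))
  have e2 := ((Complex.continuous_re.tendsto _).comp ht).eventually (lt_mem_nhds
    (show ρ * m / 2 < ((ρ * m : ℝ) : ℂ).re by simpa using hc))
  obtain ⟨pa, ha, pb, hb, hab⟩ := eventually_prod_iff.1 e1
  obtain ⟨Y₀, hY₀, hY₁⟩ := (ha.and e2).exists
  have n0 : ∀ w, (GN η χ (fun _ => χ) Y₀ Y₀ w).re = ‖EN η χ Y₀ w‖ ^ 2 := fun w => by
    rw [GN_const, Complex.mul_conj', ← Complex.ofReal_pow, Complex.ofReal_re]
  have l0 := lintegral_beta hβ.nonneg (fun w => (n0 w).ge.trans' (sq_nonneg _))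
    (gram_int hη hK hK.eqv hK.adm hD hβ Y₀ Y₀).1
  have key : ∀ n : ℕ, ∫⁻ w in Metric.closedBall 0 n, ENNReal.ofReal (β w) *
      ENNReal.ofReal (GN η χ (fun _ => χ) Y₀ Y₀ w).re ∂mu ≤ ENNReal.ofReal (ρ * m / 4) := fun n => by
    have t := (ENNReal.Tendsto.const_mul (a := 2) (hz.2 _ (isCompact_closedBall 0 n)) (Or.inr (by simp))).const_add
      (ENNReal.ofReal (ρ * m / 4))
    rw [mul_zero, add_zero] at t
    refine ge_of_tendsto t (hb.mono fun Y hY => ?_)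
    have l1 := lintegral_beta hβ.nonneg (fun w => (GD_re η χ (Y₀, Y) w).ge.trans' (sq_nonneg _)) (h1 (Y₀, Y))
    have m2 : Measurable fun w => ‖EN η χ Y w‖ₑ ^ 2 := (measurable_EN hη χ Y).enorm.pow_const 2
    calc _ ≤ ∫⁻ w in Metric.closedBall 0 n, 2 * (ENNReal.ofReal (β w) * ENNReal.ofReal (GD η χ (Y₀, Y) w).re) +
          2 * ‖EN η χ Y w‖ₑ ^ 2 ∂mu := by
          refine lintegral_mono fun w => ?_
          have b0 := hβ.nonneg w
          have b1 := hβ.le_one w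
          rw [n0, GD_re, enorm_sq_eq, ← ENNReal.ofReal_mul b0, ← ENNReal.ofReal_mul b0, ← ENNReal.ofReal_ofNat 2,
            ← ENNReal.ofReal_mul zero_le_two, ← ENNReal.ofReal_mul zero_le_two,
            ← ENNReal.ofReal_add (by positivity) (by positivity)]
          refine ENNReal.ofReal_le_ofReal ?_
          have h3 := norm_add_le (EN η χ Y₀ w - EN η χ Y w) (EN η χ Y w)
          rw [sub_add_cancel] at h3
          have h4 : ‖EN η χ Y₀ w‖ ^ 2 ≤ 2 * ‖EN η χ Y₀ w - EN η χ Y w‖ ^ 2 + 2 * ‖EN η χ Y w‖ ^ 2 := by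
            nlinarith [sq_nonneg (‖EN η χ Y₀ w - EN η χ Y w‖ - ‖EN η χ Y w‖), norm_nonneg (EN η χ Y₀ w)]
          nlinarith [sq_nonneg ‖EN η χ Y w‖]
      _ ≤ _ := by
          rw [lintegral_add_right _ (m2.const_mul 2), lintegral_const_mul' _ _ (by simp),
            lintegral_const_mul' _ _ (by simp)]
          gcongr
          refine (mul_le_mul_right ((setLIntegral_le_lintegral _ _).trans_eq l1) 2).trans ?_
          rw [← ENNReal.ofReal_ofNat 2, ← ENNReal.ofReal_mul zero_le_two]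
          refine ENNReal.ofReal_le_ofReal ?_
          have := hab hY₀ hY
          simp only [Function.comp_apply] at this
          linarith
  have u1 : ⋃ n : ℕ, Metric.closedBall (0 : X F) n = univ := Metric.iUnion_closedBall_nat 0
  rw [← setLIntegral_univ, ← u1, setLIntegral_iUnion_of_directed _
    (Monotone.directed_le fun a b h => Metric.closedBall_subset_closedBall (Nat.cast_le.2 h))] at l0
  have := (ENNReal.ofReal_le_ofReal_iff (by positivity)).1 (l0.ge.trans (iSup_le key))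
  simp only [Function.comp_apply, id] at hY₁
  linarith

/-- equidistribution with respect to a map `ℓ` of the rows to a finite set -/
theorem Kub.van [V.FiniteIndex] (hη : Pou V η) (hK : Kub q χ) (hω : Fc V q χ) (hq : 0 < q)
    (hd : ∀ d, χ (0, d) ≠ 0 → ∃ u : (𝓞 F)ˣ, d = (u : 𝓞 F)) {ρ : ℂ}
    (hρ : Tendsto (Lm fc (co η q χ 0) an) atTop (𝓝 ρ)) (hΩ : Eqv q χ Ω) (hω' : Fc V q (Ω (0, 1)))
    {P : Type} [Fintype P] {ℓ : F × F → P}
    (hℓ : ∀ r', χ r' ≠ 0 ∨ r' = (0, 1) → Ω r' = fun r => if ℓ r = ℓ r' then χ r else 0)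
    (hρ' : Tendsto (Lm fc (co η q (Ω (0, 1)) 0) an) atTop (𝓝 (ρ / Fintype.card P))) (x₀ : P) :
    L2z atTop fun (Y : ℝ) w => EN η (fun r => if ℓ r = x₀ then χ r else 0) Y w -
      (Fintype.card P : ℂ)⁻¹ * EN η χ Y w := by
  obtain ⟨β, hβ⟩ := exists_beta F q
  obtain ⟨D, hD⟩ := exists_FD (F := F) hq
  have hi := fun Y => (gram_int hη hK hK.eqv hK.adm hD hβ Y Y).1
  have hi' := fun Y => (gram_int hη hK hΩ hω'.adm hD hβ Y Y).1
  have ht := (gram_tendsto hη hK hK.eqv hω hq hd hβ hρ).comp (tendsto_id.prodMk tendsto_id)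
  have ht' := (gram_tendsto hη hK hΩ hω' hq (fun d h => hd d fun h' => h (by simp [hℓ _ (Or.inr rfl), h'])) hβ
    hρ').comp (tendsto_id.prodMk tendsto_id)
  refine l2z_of_gram hβ (N := fun Y w => GN η χ Ω Y Y w - (Fintype.card P : ℂ)⁻¹ * GN η χ (fun _ => χ) Y Y w)
    (fun Y => (measurable_EN hη _ _).sub ((measurable_EN hη _ _).const_mul _))
    (fun Y => (measurable_GN hη _ _ _ _).sub ((measurable_GN hη _ _ _ _).const_mul _)) (fun Y w => ?_)
    (fun Y g hg w => by simp only [GN_act hK hK.eqv hD η _ _ hg, GN_act hK hΩ hD η _ _ hg]) (fun Y => ?_) ?_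
  · have a1 : ∀ x, Adm fun r => if ℓ r = x then χ r else 0 := fun x => by
      convert hK.adm.ite fun r => ℓ r = x
    have e1 : EN η χ Y w = ∑ x, EN η (fun r => if ℓ r = x then χ r else 0) Y w := by
      rw [← EN_sum hη _ fun x _ => a1 x]
      simp
    have e2 : GN η χ Ω Y Y w = ∑ x, EN η (fun r => if ℓ r = x then χ r else 0) Y w *
        conj (EN η (fun r => if ℓ r = x then χ r else 0) Y w) := by
      simp only [← GN_const, GN, ← Finset.mul_sum]
      congr 1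
      rw [← Summable.tsum_finsetSum]
      · refine tsum_congr fun r => ?_
        by_cases h : χ r = 0
        · simp [h]
        rw [hℓ r (Or.inl h), Finset.sum_eq_single (ℓ r) (fun x _ hx => by simp [hx.symm]) (by simp), if_pos rfl]
      · intro x _
        refine Summable.mul_right _ (((a1 x).summable hη Y w).star.congr fun r => ?_)
        rw [star_mul', Complex.star_def, Complex.conj_ofReal]
    rw [GN_const, e2, e1]
    exact var_le (fun x => EN η (fun r => if ℓ r = x then χ r else 0) Y w) x₀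
  · simp only [mul_sub, mul_left_comm (β _ : ℂ)]
    exact (hi' Y).sub ((hi Y).const_mul _)
  · have t := ht'.sub (ht.const_mul (Fintype.card P : ℂ)⁻¹)
    rw [div_eq_inv_mul, mul_assoc, sub_self] at t
    refine t.congr fun Y => ?_
    simp only [mul_sub, mul_left_comm (β _ : ℂ)]
    rw [integral_sub (hi' Y) ((hi Y).const_mul _), integral_const_mul]
    rfl

end

end Crest.Agent.R27.TH
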