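import Crest.Agent.R27.TH.GramC
import Crest.Agent.R27.TH.CntF
import Crest.Agent.R27.TH.Lvl

/-! Row 27, block TH/GRAM (owner helper53): the base weight is good and its theta function is not zero. -/

set_option autoImplicit false
set_option linter.unusedSectionVars false

namespace Crest.Agent.R27.TH

open Crest.NumberTheoryR.EisensteinField Crest.Agent.R27.G MeasureTheory Filter Set
open scoped NumberField ComplexConjugate Classical Real Topology MatrixGroups ENNReal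

noncomputable section

/-- the point of the projective line -/
def pt {K : Type} [Field K] (x y : K) : Option K := if x = 0 then none else some (y / x)

theorem pt_eq {K : Type} [Field K] {x y x' y' : K} (h : x ≠ 0 ∨ y ≠ 0) (h' : x' ≠ 0 ∨ y' ≠ 0) :
    pt x y = pt x' y' ↔ x * y' - y * x' = 0 := by
  unfold pt
  by_cases hx : x = 0 <;> by_cases hx' : x' = 0
  · simp [hx, hx']
  · simp [hx, hx', h.resolve_left (not_not.2 hx)]
  · simp [hx, hx', h'.resolve_left (not_not.2 hx')]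
  · rw [if_neg hx, if_neg hx', Option.some.injEq, div_eq_div_iff hx hx', sub_eq_zero, mul_comm x, eq_comm]

variable {F : Type} [Field F] [NumberField F] [Algebra K3 F] {v : Lv F}

theorem exists_line {p : v.R} (hp : Prime p) : ∃ (P : Type) (_ : Fintype P) (ℓ : F × F → P),
    Fintype.card P = v.N p + 1 ∧ ∀ r r', Row v r → Row v r' →
      (ℓ r = ℓ r' ↔ (r.1 * r'.2 - r.2 * r'.1) / (p : F) ∈ v.R) := by
  have hm : (Ideal.span {p}).IsMaximal := PrincipalIdealRing.isMaximal_of_irreducible hp.irreducible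
  let := Ideal.Quotient.field (Ideal.span {p})
  have := v.finite_quot hp.ne_zero
  let := Fintype.ofFinite (v.R ⧸ Ideal.span {p})
  have hp' : (p : F) ≠ 0 := fun e => hp.ne_zero (Subtype.ext e)
  let φ := Ideal.Quotient.mk (Ideal.span {p})
  have h1 : ∀ c d : v.R, IsCoprime c d → φ c ≠ 0 ∨ φ d ≠ 0 := fun c d h => (h.map φ).ne_zero_or_ne_zero
  refine ⟨Option (v.R ⧸ Ideal.span {p}), inferInstance,
    fun r => if h : r.1 ∈ v.R ∧ r.2 ∈ v.R then pt (φ ⟨r.1, h.1⟩) (φ ⟨r.2, h.2⟩) else none, ?_, ?_⟩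
  · rw [Fintype.card_option, v.N_eq_card hp.ne_zero, Nat.card_eq_fintype_card]
  · rintro _ _ ⟨c, d, h, rfl⟩ ⟨c', d', h', rfl⟩
    dsimp only
    rw [dif_pos ⟨c.2, d.2⟩, dif_pos ⟨c'.2, d'.2⟩, pt_eq (h1 c d h) (h1 c' d' h'), ← map_mul, ← map_mul, ← map_sub,
      Ideal.Quotient.eq_zero_iff_mem, Ideal.mem_span_singleton]
    constructor
    · rintro ⟨y, hy⟩
      have := congrArg Subtype.val hy
      push_cast at this
      rw [this, mul_div_cancel_left₀ _ hp']
      exact y.2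
    · intro hy
      refine ⟨⟨_, hy⟩, Subtype.ext ?_⟩
      push_cast
      rw [mul_div_cancel₀ _ hp']

theorem det_rm (r r' : F × F) (g : SL(2, F)) :
    (rm r g).1 * (rm r' g).2 - (rm r g).2 * (rm r' g).1 = r.1 * r'.2 - r.2 * r'.1 := by
  have h := g.det_coe
  rw [Matrix.det_fin_two] at h
  simp only [rm]
  linear_combination (r.1 * r'.2 - r.2 * r'.1) * h

theorem Kub.eqv_cut {q : ℕ} {χ : F × F → ℂ} (hK : Kub q χ) (p : v.R) : Eqv q χ fun r' => cut v p r' χ :=
  fun g hg r r' => by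
    simp only [cut, det_rm, ite_mul, zero_mul]
    rw [hK.coc g hg]

theorem bw_row {k : ℕ} {r : F × F} (h : bw v k r ≠ 0) : Row v r := by
  unfold bw at h
  split_ifs at h
  · exact (cbF_ne_zero.1 h).2
  · exact absurd rfl h

theorem bw_diag {k : ℕ} (hk : 1 ≤ k) (d : F) (h : bw v k (0, d) ≠ 0) : ∃ u : (𝓞 F)ˣ, d = (u : 𝓞 F) := by
  obtain ⟨a, b, -, rfl, -, h2⟩ := bw_ne v h
  obtain ⟨c, d, hcd, e⟩ := bw_row h
  obtain ⟨e1, e2⟩ := Prod.mk.inj e
  obtain rfl : c = 0 := Subtype.ext e1.symm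
  obtain ⟨u, -, hu⟩ := exists_VK hk (isCoprime_zero_left.1 hcd) (e2 ▸ UK_coe_iff.2 h2)
  exact ⟨u, e2.trans hu.symm⟩

variable [Md v] {V : Subgroup (𝓞 F)ˣ} [V.FiniteIndex] {η : (Pl F → ℝ) → ℝ} {k : ℕ}

theorem good_bw_of (hk : 1 ≤ k) (hK : Kub (v.M ^ k) (bw v k)) (hF : Fc (VK v k) (v.M ^ k) (bw v k))
    (hη : Pou V η) (hV : V ≤ VK v k) : Good v η (bw v k) := by
  obtain ⟨ρ, -, h1, h2⟩ := cnt_bw hk hη (v := v)
  have hq := pow_pos v.pos k
  refine ⟨hK.adm, hK.cau hη (hF.mono hV) hq (bw_diag hk) h1, fun p hp r₀ hr₀ => ?_⟩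
  obtain ⟨P, _, ℓ, hP, hℓ⟩ := exists_line hp
  have e : ∀ r', Row v r' → cut v p r' (bw v k) = fun r => if ℓ r = ℓ r' then bw v k r else 0 := fun r' h =>
    funext fun r => by
      by_cases hr : bw v k r = 0
      · simp [cut, hr]
      · simp only [cut, hℓ r r' (bw_row hr) h]
  have hc : (Fintype.card P : ℂ) = v.N p + 1 := by rw [hP, Nat.cast_add, Nat.cast_one]
  rw [e r₀ hr₀, ← hc]
  refine hK.van hη (hF.mono hV) hq (bw_diag hk) h1 (hK.eqv_cut p) ((hF.mono hV).cut v p) (fun r' h => e r' ?_) ?_ _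
  · rcases h with h | rfl
    · exact bw_row h
    · exact ⟨0, 1, isCoprime_one_right, rfl⟩
  · rw [hc, div_eq_inv_mul]
    exact h2 p hp

theorem nz_bw_of (hk : 1 ≤ k) (hK : Kub (v.M ^ k) (bw v k)) (hF : Fc (VK v k) (v.M ^ k) (bw v k))
    (hη : Pou V η) (hV : V ≤ VK v k) : ¬ L2z atTop (EN η (bw v k)) := by
  obtain ⟨ρ, h0, h1, -⟩ := cnt_bw hk hη (v := v)
  exact hK.nz hη (hF.mono hV) (pow_pos v.pos k) (bw_diag hk) h0 h1

end

end Crest.Agent.R27.TH
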