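import Crest.Agent.R27.TH.SfA

/-! Row 27, THETA (helper14): a Schwartz function whose Fourier transform is the indicator of `x₀ (1 + M^K L)`. -/

set_option autoImplicit false
set_option linter.unusedSectionVars false

namespace Crest.Agent.R27.TH

open Crest.NumberTheoryR.EisensteinField Crest.Agent.R27.G Finset
open scoped NumberField Classical ComplexConjugate

variable {F : Type} [Field F] [NumberField F] [Algebra K3 F] {v : Lv F}

/-- the part of the additive character at the primes over `M` -/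
noncomputable def eS (v : Lv F) (x : F) : ℂ := eT x * conj (v.psi x)

theorem eS_add (x y : F) : eS v (x + y) = eS v x * eS v y := by
  simp only [eS, eT_add, v.psi_add, map_mul]
  ring

theorem eS_L {x : F} (h : x ∈ v.L) : eS v x = 1 := by
  rw [eS, v.psi_L h, Complex.mul_conj, Complex.normSq_eq_norm_sq, norm_eT]
  simp

theorem eS_R {x : F} (h : x ∈ v.R) : eS v x = eT x := by
  rw [eS, v.psi_R h, map_one, mul_one]

theorem norm_eS (x : F) : ‖eS v x‖ = 1 := by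
  rw [eS, norm_mul, norm_eT, Complex.norm_conj, v.norm_psi, one_mul]

theorem eS_add_L (x : F) {l : F} (h : l ∈ v.L) : eS v (x + l) = eS v x := by
  rw [eS_add, eS_L h, mul_one]

theorem eS_dual {x : F} (h : ∀ y : 𝓞 F, eS v (x * y) = 1) : DK v 1 x := by
  obtain ⟨l, hl, hr⟩ := v.decomp x
  obtain ⟨a, ha⟩ := v.dual (x - l) fun y => eT_eq_one.1 (by
    rw [← eS_R (v := v) (mul_mem hr (v.coe_mem_R y)), ← eS_add_L _ (mul_mem hl (v.coe_mem_L y)), ← h y]
    congr 1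
    ring)
  have : (v.M : F) ^ 1 * x = a + v.M * l := by linear_combination ha
  rw [DK, this]
  exact add_mem (v.coe_mem_L a) (mul_mem (M_mem_L v) hl)

/-- the annihilator of `M^(-j) L` -/
def WS (v : Lv F) (j : ℕ) : AddSubgroup F where
  carrier := {μ | ∀ t ∈ v.R, DK v j t → eS v (μ * t) = 1}
  zero_mem' t _ _ := by rw [zero_mul]; exact eS_L (zero_mem _)
  add_mem' {a b} ha hb t h1 h2 := by rw [add_mul, eS_add, ha t h1 h2, hb t h1 h2, one_mul]
  neg_mem' {a} ha t h1 h2 := by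
    have := ha (-t) (neg_mem h1) h2.neg
    rwa [mul_neg, ← neg_mul] at this

theorem LK.ws {j : ℕ} {μ : F} (h : LK v j μ) : μ ∈ WS v j := fun _ _ ht =>
  eS_L (LK_zero_level.1 (LK.mul_DK (j := j) (k := 0) h ht))

theorem WS_LK {j : ℕ} {μ : F} (h : μ ∈ WS v (j + 1)) : LK v j μ := by
  have hM := pow_ne_zero (j + 1) v.M_ne
  have h1 : DK v 1 (μ / (v.M : F) ^ (j + 1)) := eS_dual fun y => by
    rw [← h ((y : F) / (v.M : F) ^ (j + 1))]
    · congr 1
      ring
    · rw [div_eq_mul_inv, ← inv_pow]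
      exact mul_mem (v.coe_mem_R y) (pow_mem v.inv_M_mem _)
    · rw [DK, mul_div_cancel₀ _ hM]
      exact v.coe_mem_L y
  rw [LK_iff]
  rw [DK] at h1
  convert h1 using 1
  have := v.M_ne
  field_simp
  ring

theorem loc_char {j : ℕ} {A : Finset (F ⧸ Lat F (v.M ^ j))}
    (hA : ∀ t : F ⧸ Lat F (v.M ^ j), t ∈ A ↔ t.out ∈ v.R ∧ DK v j t.out) {μ : F}
    (hμ : ∀ a : 𝓞 F, eS v (μ * (((v.M ^ j : ℕ) : F) * a)) = 1) :
    ∑ t ∈ A, eS v (μ * t.out) = if μ ∈ WS v j then (A.card : ℂ) else 0 := by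
  split_ifs with h
  · rw [sum_congr rfl fun t ht => h _ ((hA t).1 ht).1 ((hA t).1 ht).2]
    simp
  · obtain ⟨t₀, h1, h2, h3⟩ : ∃ t₀ ∈ v.R, DK v j t₀ ∧ eS v (μ * t₀) ≠ 1 := by
      by_contra hn
      push Not at hn
      exact h hn
    have key : ∀ t : F ⧸ Lat F (v.M ^ j), ∃ a : 𝓞 F,
        (t + QuotientAddGroup.mk t₀).out = t.out + t₀ + ((v.M ^ j : ℕ) : F) * a := fun t => by
      have := sf_out (q := v.M ^ j) (t.out + t₀)
      rwa [QuotientAddGroup.mk_add, QuotientAddGroup.out_eq'] at this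
    have h4 : ∑ t ∈ A, eS v (μ * t.out) * eS v (μ * t₀) = ∑ t ∈ A, eS v (μ * t.out) := by
      refine sum_equiv (Equiv.addRight (QuotientAddGroup.mk t₀)) (fun t => ?_) fun t _ => ?_
      · obtain ⟨a, ha⟩ := key t
        have h5 : t₀ + ((v.M ^ j : ℕ) : F) * a ∈ v.R := add_mem h1 (sf_R _ a)
        have h6 : DK v j (t₀ + ((v.M ^ j : ℕ) : F) * a) := h2.add (DK_of_L (sf_LK j a).mem_L)
        rw [hA, hA, Equiv.coe_addRight, ha, add_assoc]
        exact ⟨fun h => ⟨add_mem h.1 h5, h.2.add h6⟩,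
          fun h => ⟨by simpa using sub_mem h.1 h5, by simpa using h.2.sub h6⟩⟩
      · obtain ⟨a, ha⟩ := key t
        rw [Equiv.coe_addRight, ha, mul_add, mul_add, eS_add, eS_add, hμ, mul_one]
    rw [← sum_mul] at h4
    by_contra hn
    exact h3 (mul_left_cancel₀ hn (h4.trans (mul_one _).symm))

theorem exists_loc [Md v] (K : ℕ) {x₀ : F} (hx : x₀ ≠ 0) : ∃ (j : ℕ) (h : F → ℂ) (m : ℂ), m ≠ 0 ∧ Sch v j h ∧
    (∀ ν ∈ v.R, UK v K (ν / x₀) → Dl (v.M ^ j) ν) ∧
    ∀ ν : F, Dl (v.M ^ j) ν → hat v (v.M ^ j) h ν = if UK v K (ν / x₀) then m else 0 := by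
  obtain ⟨N₁, h1⟩ := exists_DK v x₀
  obtain ⟨N, h2⟩ := exists_DK v x₀⁻¹
  set j := N₁ + (N + K) + 1 with hj
  have hD : ∀ ν, UK v K (ν / x₀) → DK v N₁ ν := fun ν h => by
    have := h1.mul_L h.mem_L
    rwa [mul_div_cancel₀ _ hx] at this
  have hD' : ∀ ν, UK v K (ν / x₀) → ∀ y, LK v j y → ν * y ∈ v.L := fun ν h y hy =>
    (LK.DK_mul (j := N₁) (k := N + K + 1) (by rwa [← add_assoc]) (hD ν h)).mem_L
  have hW : ∀ ν μ, UK v K (ν / x₀) → μ ∈ WS v j → UK v K ((ν + μ) / x₀) := fun ν μ h h' => by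
    rw [add_div, div_eq_mul_inv μ]
    exact h.add_LK (LK.mul_DK ((WS_LK h').mono (by omega)) h2)
  obtain ⟨A₀, hA₀⟩ := sf_fin (v := v) j j
  set A := A₀.filter fun t => t.out ∈ v.R ∧ DK v j t.out
  have hA : ∀ t : F ⧸ Lat F (v.M ^ j), t ∈ A ↔ t.out ∈ v.R ∧ DK v j t.out := fun t =>
    ⟨fun h => (mem_filter.1 h).2, fun h => mem_filter.2 ⟨hA₀ t h.1 h.2, h⟩⟩
  set S := (A.image fun t => (QuotientAddGroup.mk t.out : F ⧸ WS v j)).filter fun s => UK v K (s.out / x₀)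
  have hS : ∀ s : F ⧸ WS v j, s ∈ S ↔ UK v K (s.out / x₀) := fun s => by
    refine ⟨fun h => (mem_filter.1 h).2, fun h => mem_filter.2 ⟨?_, h⟩⟩
    obtain ⟨a, -, ha⟩ := approxL (v := v) j s.out one_ne_zero 0
    obtain ⟨z, hz⟩ := sf_out (q := v.M ^ j) (a : F)
    have h3 : DK v j (a : F) := by
      simpa using (DK_of_L (k := j) ha.mem_L).add ((hD _ h).mono (by omega))
    refine mem_image.2 ⟨QuotientAddGroup.mk (a : F), (hA _).2 ?_, ?_⟩
    · rw [hz]
      exact ⟨add_mem a.2 (sf_R _ z), h3.add (DK_of_L (sf_LK j z).mem_L)⟩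
    · rw [hz, ← QuotientAddGroup.out_eq' s, QuotientAddGroup.eq]
      have := (ha.add (sf_LK j z)).neg.ws
      convert this using 1
      ring
  refine ⟨j, fun t => if DK v j t then ∑ s ∈ S, eS v (-s.out * t) else 0, A.card, ?_, ⟨⟨S.card, fun t => ?_⟩,
    fun t h => ?_, fun t t' h => ?_⟩, fun ν h h' a => ?_, fun ν hν => ?_⟩
  · obtain ⟨z, hz⟩ := sf_out (q := v.M ^ j) (0 : F)
    refine Nat.cast_ne_zero.2 (card_ne_zero.2 ⟨QuotientAddGroup.mk 0, (hA _).2 ?_⟩)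
    rw [hz, zero_add]
    exact ⟨sf_R _ z, DK_of_L (sf_LK j z).mem_L⟩
  · split_ifs
    · refine (norm_sum_le _ _).trans (le_of_eq ?_)
      simp [norm_eS]
    · simp
  · by_contra hn
    exact h (if_neg hn)
  · have h3 : DK v j t' ↔ DK v j t :=
      ⟨fun h' => by simpa using h'.sub (DK_of_L h.mem_L), fun h' => by simpa using h'.add (DK_of_L h.mem_L)⟩
    refine if_congr h3 (sum_congr rfl fun s hs => ?_) rfl
    rw [← eS_add_L (-s.out * t) (neg_mem (hD' _ ((hS s).1 hs) _ h))]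
    congr 1
    ring
  · obtain ⟨b, hb⟩ := v.inter (mul_mem h (sf_R _ a)) (hD' ν h' _ (sf_LK j a))
    rw [hb, eT_coe]
  · have hR := hν.mem_R.1
    rw [hat_eq_sum (A := A) fun t h h' => (hA t).2 ⟨h, by_contra fun hn => h' (if_neg hn)⟩,
      filter_true_of_mem fun t ht => ((hA t).1 ht).1,
      sum_congr rfl fun t ht => by
        rw [if_pos ((hA t).1 ht).2, sum_mul, ← eS_R (v := v) (mul_mem hR ((hA t).1 ht).1)],
      sum_comm]
    have h3 : ∀ s ∈ S, ∑ t ∈ A, eS v (-s.out * t.out) * eS v (ν * t.out) =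
        if s = QuotientAddGroup.mk ν then (A.card : ℂ) else 0 := fun s hs => by
      rw [sum_congr rfl fun t _ => by rw [← eS_add, ← add_mul], loc_char hA fun a => ?_]
      · refine if_congr ?_ rfl rfl
        rw [← QuotientAddGroup.eq, QuotientAddGroup.out_eq']
      · rw [add_mul, eS_add, eS_R (mul_mem hR (sf_R _ a)), hν a, mul_one, neg_mul]
        exact eS_L (neg_mem (hD' _ ((hS s).1 hs) _ (sf_LK j a)))
    rw [sum_congr rfl h3, sum_ite_eq']
    obtain ⟨⟨w, hw⟩, h4⟩ := QuotientAddGroup.mk_out_eq_add (WS v j) ν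
    refine if_congr ((hS _).trans ⟨fun h => ?_, fun h => ?_⟩) rfl rfl
    · simpa [h4] using hW _ _ h (neg_mem hw)
    · rw [h4]
      exact hW _ _ h hw

end Crest.Agent.R27.TH
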