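import Crest.Agent.R27.TH.FC
import Crest.Agent.R27.TH.Bes

/-! Row 27, THETA, block TA (owner helper14): the limit of `EN` is a Fourier-Bessel series; automorphy. -/

set_option autoImplicit false

namespace Crest.Agent.R27.TH

open Crest.Agent.R17 (sgK sg EntBdd gth)
open Crest.Agent.R17.D (Qf KB pw)
open Crest.NumberTheoryR.EisensteinField Crest.Agent.R27.G MeasureTheory Filter Set
open scoped NumberField ComplexConjugate Classical Real Topology MatrixGroups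

variable {F : Type} [Field F] [NumberField F] [Algebra K3 F]

variable {V : Subgroup (𝓞 F)ˣ} {η : (Pl F → ℝ) → ℝ} {ω ω' : F × F → ℂ} {q : ℕ}

theorem pair_test {D : Set (Pl F → ℂ)} (hD : IsFD q D) (ν : F) {h : (Pl F → ℝ) → ℂ} (hh : Tst h) :
    Measurable (fun w : X F => D.indicator 1 w.1 * kn ν h w) ∧ ∃ (B : ℝ) (C : Set (X F)), IsCompact C ∧
      (∀ w : X F, ‖D.indicator 1 w.1 * kn ν h w‖ ≤ B) ∧ ∀ w : X F, D.indicator 1 w.1 * kn ν h w ≠ 0 → w ∈ C := by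
  obtain ⟨B, hB⟩ := hh.bdd
  obtain ⟨R, hR⟩ := hD.bdd.exists_norm_le
  refine ⟨((measurable_one.indicator hD.meas).comp measurable_fst).mul
    (((Complex.continuous_conj.comp (continuous_eZ ν)).measurable.comp measurable_fst).mul
      (hh.meas.comp measurable_snd)), B, Metric.closedBall (0 : X F) (max R B),
    isCompact_closedBall _ _, fun w => ?_, fun w hw => ?_⟩
  · have h1 := (hB w.2).1
    by_cases hw : w.1 ∈ D
    · simpa [kn, hw] using h1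
    · simpa [hw] using (norm_nonneg _).trans h1
  · rw [mem_closedBall_zero_iff, Prod.norm_def]
    exact max_le_max (hR _ (Set.mem_of_indicator_ne_zero (left_ne_zero_of_mul hw)))
      ((hB _).2 (right_ne_zero_of_mul (right_ne_zero_of_mul hw)))

theorem taa_int (hη : Pou V η) (hω : Adm ω) {D : Set (Pl F → ℂ)} (hD : IsFD q D) (ν : F)
    {h : (Pl F → ℝ) → ℂ} (hh : Tst h) (Y : ℝ) :
    Integrable fun w : X F => EN η ω Y w * (D.indicator 1 w.1 * kn ν h w) := by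
  obtain ⟨hm, B, C, hC, hB, hs⟩ := pair_test hD ν hh
  obtain ⟨R, hR⟩ := hC.isBounded.exists_norm_le
  obtain ⟨E, hE⟩ := hω.EN_bdd hη Y R
  refine (integrableOn_iff_integrable_of_support_subset (s := C)
    fun w hw => hs w (right_ne_zero_of_mul hw)).1 (Measure.integrableOn_of_bounded (M := E * B)
      hC.measure_lt_top.ne ((measurable_EN hη ω Y).mul hm).aestronglyMeasurable ?_)
  filter_upwards [ae_restrict_mem hC.measurableSet] with w hw
  rw [norm_mul]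
  have h1 := hE w (hR w hw)
  exact mul_le_mul h1 (hB w) (norm_nonneg _) ((norm_nonneg _).trans h1)

/-- TA-a.  `L2z.pair` for the Cauchy differences, `fc_pair'`, completeness of `ℂ` -/
theorem exists_lim (hη : Pou V η) (hω : Fc V q ω) (hq : 0 < q) (hc : Cau η ω) {ν : F} (hν : Dl q ν)
    {h : (Pl F → ℝ) → ℂ} (hh : Tst h) :
    ∃ lam : ℂ, Tendsto (Lm (cv fc (kn ν h)) (co η q ω ν) an) atTop (𝓝 lam) := by
  obtain ⟨D, hD⟩ := exists_FD (F := F) hq
  obtain ⟨hm, B, C, hC, hB, hs⟩ := pair_test hD ν hh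
  have h1 := L2z.pair hc hm hB hC hs
  have h2 : CauchySeq fun Y : ℝ => ∫ w : X F, EN η ω Y w * (D.indicator 1 w.1 * kn ν h w) := by
    rw [cauchySeq_iff_tendsto_dist_atTop_0, ← prod_atTop_atTop_eq]
    refine (tendsto_zero_iff_norm_tendsto_zero.1 h1).congr fun p => ?_
    rw [dist_eq_norm, ← integral_sub (taa_int hη hω.adm hD ν hh _) (taa_int hη hω.adm hD ν hh _)]
    simp only [sub_mul]
  obtain ⟨lam, hl⟩ := cauchySeq_tendsto_of_complete h2
  exact ⟨lam, hl.congr' (fc_pair' hη hω hq hD hν hh)⟩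

/-- TA-a.  `exists_lim`, `hasT_of_kn` -/
theorem exists_hasT (hη : Pou V η) (hω : Fc V q ω) (hq : 0 < q) (hc : Cau η ω) {ν : F} (hν : Dl q ν) (h0 : ν ≠ 0) :
    ∃ τ : ℂ, HasT F (co η q ω ν) an τ := by
  obtain ⟨lam, hl⟩ := exists_lim hη hω hq hc hν (tst_h0.shift (lg ν))
  exact ⟨_, hasT_of_kn h0 hl⟩

/-- TA-a.  `L2z.pair`, `fc_pair'` for both weights, `HasT.kn`, `hasT_of_kn` -/
theorem hasT_of_l2z (hη : Pou V η) (hω : Fc V q ω) (hω' : Fc V q ω') (hq : 0 < q) {a : ℂ}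
    (hl : L2z atTop fun (Y : ℝ) w => EN η ω' Y w - a * EN η ω Y w) {ν : F} (hν : Dl q ν) (h0 : ν ≠ 0) {τ : ℂ}
    (h : HasT F (co η q ω ν) an τ) : HasT F (co η q ω' ν) an (a * τ) := by
  obtain ⟨D, hD⟩ := exists_FD (F := F) hq
  have hh := (tst_h0 (F := F)).shift (lg ν)
  obtain ⟨hm, B, C, hC, hB, hs⟩ := pair_test hD ν hh
  have h1 := (L2z.pair hl hm hB hC hs).add ((h.kn h0).const_mul a)
  have h5 : Tendsto (Lm (cv fc (kn ν fun l => TH.h0 F (l + lg ν))) (co η q ω' ν) an) atTop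
      (𝓝 (0 + a * ((an ν ^ (-(1 / 3) : ℝ) : ℝ) * τ))) := by
    refine h1.congr' ?_
    filter_upwards [fc_pair' hη hω hq hD hν hh, fc_pair' hη hω' hq hD hν hh] with Y e e'
    rw [← e, ← e', ← integral_const_mul, ← integral_add]
    · simp only [sub_mul, mul_assoc, sub_add_cancel]
    · simp only [sub_mul, mul_assoc]
      exact (taa_int hη hω'.adm hD ν hh Y).sub ((taa_int hη hω.adm hD ν hh Y).const_mul a)
    · exact (taa_int hη hω.adm hD ν hh Y).const_mul a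
  have h2 := hasT_of_kn h0 h5
  have h3 : 0 < an ν := by rw [← exp_sum_lg h0]; exact Real.exp_pos _
  have h4 : ((an ν ^ (1 / 3 : ℝ) : ℝ) : ℂ) * ((an ν ^ (-(1 / 3) : ℝ) : ℝ) : ℂ) = 1 := by
    rw [← Complex.ofReal_mul, ← Real.rpow_add h3, add_neg_cancel, Real.rpow_zero, Complex.ofReal_one]
  have e : a * τ = (an ν ^ (1 / 3 : ℝ) : ℝ) * (0 + a * ((an ν ^ (-(1 / 3) : ℝ) : ℝ) * τ)) := by
    linear_combination (-(a * τ)) * h4
  rw [e]
  exact h2

theorem tab_integrable {f φ : X F → ℂ} (hf : Measurable f) (hφ : Measurable φ) {B B' : ℝ} {C : Set (X F)}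
    (hC : IsCompact C) (hB : ∀ w, ‖φ w‖ ≤ B) (hs : ∀ w, φ w ≠ 0 → w ∈ C) (hf' : ∀ w ∈ C, ‖f w‖ ≤ B') :
    Integrable fun w => f w * φ w := by
  have h1 : IntegrableOn (fun w => f w * φ w) C := by
    refine Measure.integrableOn_of_bounded (M := B' * B) hC.measure_lt_top.ne
      (hf.mul hφ).aestronglyMeasurable ?_
    refine ae_restrict_of_forall_mem hC.measurableSet fun w hw => ?_
    rw [norm_mul]
    exact mul_le_mul (hf' w hw) (hB w) (norm_nonneg _) ((norm_nonneg _).trans (hf' w hw))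
  refine (integrableOn_iff_integrable_of_support_subset fun w hw => ?_).1 h1
  exact hs w fun h0 => hw (by simp [h0])

theorem tab_cf (hq : 0 < q) (c : ℂ) {T : F → ℂ} {B : ℝ} (hT : ∀ ν, ν ≠ 0 → Dl q ν → ‖T ν‖ ≤ B) :
    Cf fun ν => if ν ≠ 0 ∧ Dl q ν then c * T ν else 0 := by
  refine ⟨by simp, ⟨‖c‖ * max B 0, fun ν => ?_⟩, ?_⟩
  · split_ifs with h
    · rw [norm_mul]
      exact mul_le_mul_of_nonneg_left ((hT ν h.1 h.2).trans (le_max_left _ _)) (norm_nonneg _)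
    · rw [norm_zero]
      exact mul_nonneg (norm_nonneg _) (le_max_right _ _)
  · obtain ⟨m, hm, h⟩ := exists_Dl_inL (F := F) hq
    refine ⟨m, hm, fun ν hν => h ν ?_⟩
    by_contra hd
    exact hν (if_neg fun h' => hd h'.2)

/-- weak convergence to a Fourier-Bessel series gives convergence in `L²_loc` -/
theorem tab_isTh (hη : Pou V η) (hω : Fc V q ω) (hq : 0 < q) (hc : Cau η ω) {D : Set (Pl F → ℂ)}
    (hD : IsFD q D) {τ₀ : ℂ} {τ : F → ℂ} (hτ : Cf τ) (hs : ∀ ν, τ ν ≠ 0 → Dl q ν)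
    (hw : ∀ ν : F, Dl q ν → ∀ h, Tst h → Tendsto (Lm (cv fc (kn ν h)) (co η q ω ν) an) atTop
      (𝓝 ((volume.real D : ℝ) * if ν = 0 then τ₀ * ∫ l : Pl F → ℝ, (Real.exp (2 / 3 * ∑ i, l i) : ℝ) * h l
        else τ ν * ∫ l, WW ν l * h l))) : IsTh η ω τ₀ τ := by
  have hTc := continuous_Th τ₀ hτ
  have hEb : ∀ Y (C : Set (X F)), IsCompact C → ∃ B : ℝ, ∀ w ∈ C, ‖EN η ω Y w‖ ≤ B := by
    intro Y C hC
    obtain ⟨R, hR⟩ := hC.isBounded.exists_norm_le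
    obtain ⟨B, hB⟩ := hω.adm.EN_bdd hη Y R
    exact ⟨B, fun w hw => hB w (hR w hw)⟩
  have hTb : ∀ C : Set (X F), IsCompact C → ∃ B : ℝ, ∀ w ∈ C, ‖Th τ₀ τ w‖ ≤ B := fun C hC =>
    hC.exists_bound_of_continuousOn hTc.continuousOn
  refine ⟨hτ, l2z_of_weak hq hD (fun Y => (measurable_EN hη ω Y).sub hTc.measurable) ?_ ?_ ?_ ?_⟩
  · intro Y C hC
    obtain ⟨B, hB⟩ := hEb Y C hC
    obtain ⟨B', hB'⟩ := hTb C hC
    exact ⟨B + B', fun w hw => (norm_sub_le _ _).trans (add_le_add (hB w hw) (hB' w hw))⟩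
  · intro Y z l x
    rw [EN_per hω, Th_per τ₀ hs]
  · exact L2z.congr hc fun p w => by ring
  · intro ν hν h hh
    obtain ⟨hm, B, C, hC, hB, hsC⟩ := pair_test hD ν hh
    obtain ⟨B', hB'⟩ := hTb C hC
    have h1 := (hw ν hν h hh).sub_const (∫ w : X F, Th τ₀ τ w * (D.indicator 1 w.1 * kn ν h w))
    rw [Th_pair hq hD τ₀ hτ hs hν hh, sub_self] at h1
    refine h1.congr' ?_
    filter_upwards [fc_pair' hη hω hq hD hν hh] with Y hY
    obtain ⟨B'', hB''⟩ := hEb Y C hC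
    rw [← hY, ← Th_pair hq hD τ₀ hτ hs hν hh, ← integral_sub
      (tab_integrable (measurable_EN hη ω Y) hm hC hB hsC hB'')
      (tab_integrable hTc.measurable hm hC hB hsC hB')]
    refine integral_congr_ae (Eventually.of_forall fun w => ?_)
    simp only [sub_mul]

/-- TA-b.  THE LIMIT.  `c = cW / (mt (kn 1 h0) · vol D)`, `c₀ = vol D · ∫ exp (2/3 ∑ ℓ) h0`; `l2z_of_weak` for
`EN - Th`; the pairings converge by `exists_lim`, the limits are found by `conv_sym` (against `kn 1 h0` for `ν ≠ 0`,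
against `kn 0 h0` for `ν = 0`), `mt_kn`, `mt_kn_zero`, `Th_pair`. -/
theorem exists_isTh (hq : 0 < q) : ∃ c c₀ : ℂ, c ≠ 0 ∧ c₀ ≠ 0 ∧
    ∀ (V : Subgroup (𝓞 F)ˣ) (η : (Pl F → ℝ) → ℝ) (ω : F × F → ℂ) (T : F → ℂ) (B : ℝ), Pou V η → Fc V q ω → Cau η ω →
      (∀ ν, ν ≠ 0 → Dl q ν → HasT F (co η q ω ν) an (T ν) ∧ ‖T ν‖ ≤ B) →
      ∃ τ₀ : ℂ, IsTh η ω τ₀ (fun ν => if ν ≠ 0 ∧ Dl q ν then c * T ν else 0) ∧
        Tendsto (Lm (cv fc (kn (0 : F) (h0 F))) (co η q ω 0) an) atTop (𝓝 (c₀ * τ₀)) := by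
  obtain ⟨D, hD⟩ := exists_FD (F := F) hq
  obtain ⟨cW, hcW, hW⟩ := mt_kn (F := F)
  obtain ⟨c0, hc0, hW0⟩ := mt_kn_zero (F := F)
  have hv : ((volume.real D : ℝ) : ℂ) ≠ 0 := Complex.ofReal_ne_zero.2 hD.real_pos.ne'
  have hc0' : (c0 : ℂ) ≠ 0 := Complex.ofReal_ne_zero.2 hc0.ne'
  have hm1 := mt_h0_ne (F := F)
  have hI0 := integral_h0_ne (F := F)
  refine ⟨cW / (mt (kn (1 : F) (h0 F)) * (volume.real D : ℝ)),
    (volume.real D : ℝ) * ∫ l : Pl F → ℝ, ((Real.exp (2 / 3 * ∑ i, l i) : ℝ) : ℂ) * h0 F l,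
    div_ne_zero hcW (mul_ne_zero hm1 hv), mul_ne_zero hv hI0, ?_⟩
  intro V η ω T B hη hω hc hT
  obtain ⟨lam0, hlam0⟩ := exists_lim hη hω hq hc (Dl.zero q) (tst_h0 (F := F))
  refine ⟨lam0 / ((volume.real D : ℝ) * ∫ l : Pl F → ℝ, ((Real.exp (2 / 3 * ∑ i, l i) : ℝ) : ℂ) * h0 F l),
    ?_, ?_⟩
  · refine tab_isTh hη hω hq hc hD (tab_cf hq _ fun ν h0 hν => (hT ν h0 hν).2) (fun ν hν => ?_) ?_
    · by_contra hd
      exact hν (if_neg fun h' => hd h'.2)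
    · intro ν hν h hh
      obtain ⟨lam, hlam⟩ := exists_lim hη hω hq hc hν hh
      convert hlam using 2
      by_cases h0' : ν = 0
      · subst h0'
        have e := conv_sym (lf_co hη hω.adm q 0) prf_fc (ker_kn 0 hh) (ker_kn 0 tst_h0) hlam hlam0
        rw [hW0 _ hh, hW0 _ tst_h0] at e
        rw [if_pos rfl]
        generalize (∫ l : Pl F → ℝ, ((Real.exp (2 / 3 * ∑ i, l i) : ℝ) : ℂ) * h0 F l) = I0 at e hI0 ⊢
        generalize (∫ l : Pl F → ℝ, ((Real.exp (2 / 3 * ∑ i, l i) : ℝ) : ℂ) * h l) = I1 at e ⊢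
        field_simp
        apply mul_left_cancel₀ hc0'
        linear_combination -e
      · have e := conv_sym (lf_co hη hω.adm q ν) prf_fc (ker_kn ν hh) (ker_kn 1 tst_h0) hlam
          (hT ν h0' hν).1
        rw [hW ν h0' _ hh] at e
        rw [if_neg h0', if_pos ⟨h0', hν⟩]
        field_simp
        linear_combination -e
  · rw [mul_div_cancel₀ _ (mul_ne_zero hv hI0)]
    exact hlam0

/-- TA-c.  AUTOMORPHY.  `EN_act`, `EN_smul`, `L2z.act`, `L2z.eq_zero` -/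
theorem IsTh.aut {τ₀ τ₀' a : ℂ} {τ τ' : F → ℂ} (h : IsTh η ω τ₀ τ) (h' : IsTh η ω' τ₀' τ') {g : SL(2, F)}
    (hg : ∀ r, ω (rm r g⁻¹) = a * ω' r) (w : X F) : Th τ₀ τ (act g w) = a * Th τ₀' τ' w := by
  have h1 : L2z atTop fun (_ : ℝ) w => Th τ₀ τ (act g w) - a * Th τ₀' τ' w := by
    refine ((h'.2.smul a).sub (h.2.act g)).congr fun Y w => ?_
    rw [EN_act, funext hg, EN_smul]
    ring
  exact sub_eq_zero.1 (h1.eq_zero (((continuous_Th τ₀ h.1).comp (continuous_act g)).sub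
    (continuous_const.mul (continuous_Th τ₀' h'.1))) w)

end Crest.Agent.R27.TH
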