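import Crest.Agent.R27.TH.TsA
import Crest.Agent.R27.TH.Loc2
import Crest.Agent.R27.TH.CntF
import Crest.Agent.R27.TH.TA
import Crest.Agent.R27.TH.Dec
import Crest.Agent.R27.TH.Gram

/-! Row 27, THETA (helper14): the residues exist, are equidistributed and do not all vanish. -/

set_option autoImplicit false
set_option linter.unusedSectionVars false

namespace Crest.Agent.R27.TH

open Crest.NumberTheoryR.EisensteinField Crest.Agent.R27.G Filter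
open scoped NumberField Classical Topology ComplexConjugate MatrixGroups

variable {F : Type} [Field F] [NumberField F] [Algebra K3 F] {v : Lv F} [Md v]

theorem tau0_bd {n : v.R} (hn : n ≠ 0) : ‖Ab.tau0 n‖ * Ab.nm n ^ (-(1 / 6) : ℝ) ≤ 1 := by
  have h0 := Ab.nm_pos hn
  rw [Real.rpow_neg h0.le, mul_inv_le_iff₀ (Real.rpow_pos_of_pos h0 _), one_mul, Ab.tau0]
  split_ifs with h
  · obtain ⟨h1, -, h3, h4⟩ := h.choose_spec
    have h5 := Ab.nm_nonneg h.choose.2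
    rw [norm_mul, Complex.norm_conj, Ab.norm_g3 h3, one_mul, Complex.norm_real,
      Real.norm_of_nonneg (Real.sqrt_nonneg _), Real.sqrt_eq_rpow,
      show (1 / 2 : ℝ) = (3 : ℕ) * (1 / 6) by norm_num, Real.rpow_natCast_mul h5]
    refine Real.rpow_le_rpow (by positivity) ?_ (by norm_num)
    conv_rhs => rw [h4, Ab.nm_mul, Ab.nm_pow]
    exact le_mul_of_one_le_left (by positivity) (Ab.one_le_nm h3.ne_zero)
  · rw [norm_zero]
    positivity

theorem exists_un {ν : v.R} (hν : ν ≠ 0) : ∃ u n : v.R, IsUnit u ∧ Ab.Prim n ∧ ν = u * n := by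
  obtain ⟨n, hn, u, hu⟩ := Ab.Ar.pr_ex ν hν
  exact ⟨↑u⁻¹, n, u⁻¹.isUnit, hn, by rw [← hu, mul_comm, Units.mul_inv_cancel_right]⟩

theorem co_bch {K j : ℕ} (hK : 1 ≤ K) (ξ : F) {h : F → ℂ} (hh : Sch v j h) {ν : v.R}
    (hν : Dl (v.M ^ j) (ν : F)) (η : (Pl F → ℝ) → ℝ) : co η (v.M ^ j) (bch v K ξ h) ν = fun c =>
      hat v (v.M ^ j) h ν * if UK v K (c / ξ) then (η (lg c) : ℂ) * GF v ν c else 0 := by
  funext c
  rw [co, SS_bch hK ξ hh hν]
  split_ifs <;> ring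

theorem hh {K : ℕ} (hK : 1 ≤ K) : HH v K := by
  have key : ∀ (ν : v.R) (ξ : F), ν ≠ 0 → ξ ≠ 0 → ∃ τ, HT v (Gs v K ν ξ) τ ∧ ∀ p : v.R, Prime p →
      HT v (fun n => if p ∣ n then Gs v K ν ξ n else 0) (((Ab.nm p : ℂ) + 1)⁻¹ * τ) := fun ν ξ hν hξ => by
    have hν' : (ν : F) ≠ 0 := fun e => hν (Subtype.ext e)
    obtain ⟨j, h, m, hm, hh, h1, h2⟩ := exists_loc (v := v) K hν'
    have hD := h1 ν ν.2 (UK_refl hν')
    have h3 := h2 ν hD
    rw [if_pos (UK_refl hν')] at h3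
    obtain ⟨η, hη⟩ := exists_pou (VK v K)
    have hG := good_bch hK le_rfl hη hξ hh
    have hF := fc_bch hK hξ hh
    have hq : 0 < v.M ^ j := pow_pos v.pos _
    obtain ⟨τ, hτ⟩ := exists_hasT hη hF hq hG.cau hD hν'
    have hx : ((ns v ξ ^ (-(4 / 3) : ℝ) : ℝ) : ℂ) ≠ 0 :=
      Complex.ofReal_ne_zero.2 (Real.rpow_pos_of_pos (ns_pos hξ) _).ne'
    refine ⟨((ns v ξ ^ (-(4 / 3) : ℝ) : ℝ) : ℂ)⁻¹ * (m⁻¹ * τ), (hasT_cls' hK hη ν hξ _).1 ?_,
      fun p hp => (hasT_cls_dvd hK hη ν hξ hp.ne_zero _).1 ?_⟩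
    · have := hτ.smul m⁻¹
      simp only [co_bch hK ξ hh hD, h3, inv_mul_cancel_left₀ hm] at this
      rwa [mul_inv_cancel_left₀ hx]
    · have := (hasT_of_l2z hη hF (hF.cut v p) hq (hG.van p hp (0, 1) ⟨0, 1, isCoprime_one_right, rfl⟩) hD hν'
        hτ).smul m⁻¹
      convert this using 1
      · funext c
        rw [co, SS_cut, SS_bch hK ξ hh hD, h3]
        by_cases e1 : UK v K (c / ξ) <;> by_cases e2 : c / (p : F) ∈ v.R <;> simp [e1, e2]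
        field_simp
      · rw [nm_eq hp.ne_zero]
        push_cast
        field_simp
  have e : ∀ {ν : v.R} {ξ : F} {τ : ℂ}, HT v (Gs v K ν ξ) τ → rho v K ν ξ = τ := fun h => Tendsto.limUnder_eq h
  refine ⟨fun ν ξ hν hξ => ?_, fun ν ξ p hν hξ hp => ?_⟩ <;> obtain ⟨τ, h1, h2⟩ := key ν ξ hν hξ <;> rw [e h1]
  · exact h1
  · exact h2 p hp

/-- the theta series of a standard weight -/
theorem exists_th {k : ℕ} (hk : 1 ≤ k) {ω : F × F → ℂ} (h : Std v k ω) {η : (Pl F → ℝ) → ℝ}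
    (hη : Pou (VK v (2 * k)) η) (hc : Cau η ω) {B : ℝ} (hB : 0 ≤ B)
    (hr : ∀ (u n : v.R) (ξ : F), IsUnit u → Ab.Prim n → ξ ≠ 0 →
      ‖rho v (2 * k) (u * n) ξ‖ ≤ B * (‖Ab.tau0 n‖ * Ab.nm n ^ (-(1 / 6) : ℝ))) :
    ∃ (τ₀ : ℂ) (τ : F → ℂ), IsTh η ω τ₀ τ ∧ (∀ ν, τ ν ≠ 0 → Dl (v.M ^ (2 * k)) ν) ∧
      (∀ u ∈ VK v (2 * k), ∀ ν, τ (((u : (𝓞 F)ˣ) : 𝓞 F) * ν) = τ ν) ∧
      ∃ C : ℝ, ∀ u n : v.R, IsUnit u → Ab.Prim n →
        ‖τ (u * n : v.R)‖ ≤ C * B * (‖Ab.tau0 n‖ * Ab.nm n ^ (-(1 / 6) : ℝ)) := by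
  obtain ⟨C, hC⟩ := ts_std' hk (hh (by omega)) h hη hB hr
  obtain ⟨c, c₀, -, -, H⟩ := exists_isTh (F := F) (pow_pos v.pos (2 * k))
  set T : F → ℂ := fun ν => limUnder atTop (Lm (gst F) (co η (v.M ^ (2 * k)) ω ν) an) with hT
  have h1 : ∀ u n : v.R, IsUnit u → Ab.Prim n → Dl (v.M ^ (2 * k)) ((u * n : v.R) : F) →
      HasT F (co η (v.M ^ (2 * k)) ω (u * n : v.R)) an (T (u * n : v.R)) ∧
        ‖T (u * n : v.R)‖ ≤ |C| * B * (‖Ab.tau0 n‖ * Ab.nm n ^ (-(1 / 6) : ℝ)) := fun u n hu hn hν => by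
    obtain ⟨t, h1, h2⟩ := hC u n hu hn hν
    rw [show T (u * n : v.R) = t from Tendsto.limUnder_eq h1]
    have := Ab.nm_nonneg n
    exact ⟨h1, h2.trans (by gcongr; exact le_abs_self C)⟩
  obtain ⟨τ₀, h2, -⟩ := H _ η ω T (|C| * B) hη (h.fc hk) hc fun ν h0 hν => by
    obtain ⟨u, n, hu, hn, e⟩ := exists_un (v := v) (ν := ⟨ν, hν.mem_R.1⟩) fun e => h0 (congrArg Subtype.val e)
    obtain rfl : ν = (u * n : v.R) := congrArg Subtype.val e
    exact ⟨(h1 u n hu hn hν).1, (h1 u n hu hn hν).2.trans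
      (mul_le_of_le_one_right (by positivity) (tau0_bd hn.ne_zero))⟩
  refine ⟨τ₀, _, h2, fun ν e => by_contra fun hn => e (if_neg fun e' => hn e'.2), fun u hu ν => ?_,
    ‖c‖ * |C|, fun u n hu hn => ?_⟩
  · have e : Dl (v.M ^ (2 * k)) (((u : 𝓞 F) : F) * ν) ↔ Dl (v.M ^ (2 * k)) ν := ⟨fun e => by
      have := e.mul (↑u⁻¹ : 𝓞 F)
      rwa [← mul_assoc, ← ci_mul, Units.inv_mul, ci_one, one_mul] at this, fun e => e.mul _⟩
    by_cases hν : Dl (v.M ^ (2 * k)) ν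
    · simp only [hT, h.co_unit hk η hν hu, e, ne_eq, mul_eq_zero, unit_ne u, false_or]
    · simp only [e, hν, and_false, if_false]
  · have := Ab.nm_nonneg n
    split_ifs with e
    · rw [norm_mul, mul_assoc, mul_assoc, ← mul_assoc |C|]
      exact mul_le_mul_of_nonneg_left (h1 u n hu hn e.2).2 (norm_nonneg _)
    · rw [norm_zero]
      positivity

/-- NON-VANISHING -/
theorem exists_rho (v : Lv F) [Md v] : ∃ ξ : F, ξ ≠ 0 ∧ rho v 2 1 ξ ≠ 0 := by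
  by_contra hn
  obtain ⟨η, hη⟩ := exists_pou (VK v (2 * 1))
  have hV : VK v (2 * 1) ≤ VK v 1 := VK_mono (by omega)
  obtain ⟨τ₀, τ, h1, h2, -, C, h3⟩ := exists_th le_rfl (std_bw le_rfl) hη (good_bw le_rfl hη hV).cau le_rfl
    fun u n ξ hu hp hξ => by
      rw [mul_one, not_not.1 fun e => hn ((hh one_le_two).exists_one one_le_two
        (mul_ne_zero hu.ne_zero hp.ne_zero) hξ e), norm_zero, zero_mul]
  obtain rfl : τ = fun _ => 0 := funext fun ν => by_contra fun e => by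
    obtain ⟨u, n, hu, hp, e'⟩ := exists_un (v := v) (ν := ⟨ν, (h2 ν e).mem_R.1⟩) fun e' =>
      e ((show ν = 0 from congrArg Subtype.val e') ▸ h1.1.zero)
    obtain rfl : ν = (u * n : v.R) := congrArg Subtype.val e'
    exact e (by simpa using h3 u n hu hp)
  have h4 : τ₀ ≠ 0 := by
    rintro rfl
    exact nz_bw le_rfl hη hV (h1.2.congr fun Y w => by simp [Th])
  let g : SL(2, F) := ⟨!![1, 0; v.M, 1], by simp [Matrix.det_fin_two]⟩
  have hg : g⁻¹ ∈ Gam F (v.M ^ 1) := inv_mem ⟨by simp [g], by simp [g], ⟨1, by simp [g]⟩, by simp [g]⟩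
  have h5 := congrArg norm (h1.aut h1 (g := g) (fun r => ((kub_bw le_rfl).coc _ hg r).trans (mul_comm _ _)) 0)
  rw [norm_mul, (kub_bw le_rfl).nrm _ hg] at h5
  simp only [Th, zero_mul, tsum_zero, add_zero, norm_mul, Complex.norm_real, Real.norm_of_nonneg (Real.exp_nonneg _),
    one_mul, mul_eq_mul_left_iff, norm_eq_zero, h4, or_false, Real.exp_eq_exp, act] at h5
  have h6 : ∀ i : Pl F, -Real.log (Qi (0 : X F) (g 1 0, g 1 1) i) < 0 := fun i => by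
    refine neg_neg_of_pos (Real.log_pos ?_)
    have := v.pos
    simp [Qi, Crest.Agent.R17.D.Qf, g, em]
    positivity
  have := card_Pl_pos (F := F)
  have : Nonempty (Pl F) := Fintype.card_pos_iff.1 this
  have h7 := Finset.sum_neg (fun i _ => h6 i) Finset.univ_nonempty
  simp at h5
  simp at h7
  linarith

end Crest.Agent.R27.TH
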