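import Crest.Agent.R27.TH.Space
import Crest.Agent.R27.TH.EmbB

/-! Row 27, block TH/SPACE (owner helper53): the pseudo-Eisenstein series are locally finite sums. -/

set_option autoImplicit false

namespace Crest.Agent.R27.TH

open Crest.Agent.R17.D (Qf Qf_pos Qf_nonneg)
open Crest.NumberTheoryR.EisensteinField Crest.Agent.R27.G MeasureTheory Filter Set
open scoped NumberField ComplexConjugate Classical Real Topology MatrixGroups ENNReal

noncomputable section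

theorem Qf_bdd {z x y : ℂ} {l R B : ℝ} (hz : ‖z‖ ≤ R) (hl : |l| ≤ R) (h : Qf z (Real.exp l) x y ≤ B) :
    ‖x‖ ≤ (1 + B * Real.exp R) * (1 + R) ∧ ‖y‖ ≤ (1 + B * Real.exp R) * (1 + R) := by
  have hv := Real.exp_pos l
  have hB : 0 ≤ B := (Qf_nonneg z hv x y).trans h
  have hR : 0 ≤ R := (norm_nonneg z).trans hz
  have h1 : Real.exp l ≤ Real.exp R := Real.exp_le_exp.2 (abs_le.1 hl).2
  have h2 : 1 ≤ Real.exp l * Real.exp R := by
    rw [← Real.exp_add]
    exact Real.one_le_exp (by linarith [(abs_le.1 hl).1])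
  rw [Qf, div_le_iff₀ hv] at h
  have hE := Real.exp_pos R
  generalize Real.exp l = v at hv h1 h2 h
  generalize Real.exp R = E at h1 h2 hE
  have h3 : ‖x‖ ^ 2 * v ≤ B := by
    refine le_of_mul_le_mul_right ?_ hv
    nlinarith [sq_nonneg ‖x * z + y‖]
  have h4 : ‖x‖ ≤ 1 + B * E := by nlinarith [sq_nonneg (‖x‖ - 1), sq_nonneg ‖x‖]
  have h5 : ‖x * z + y‖ ≤ 1 + B * E := by
    nlinarith [sq_nonneg (‖x * z + y‖ - 1), mul_nonneg (sq_nonneg ‖x‖) (sq_nonneg v)]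
  have h6 : ‖y‖ ≤ ‖x * z + y‖ + ‖x‖ * ‖z‖ := by
    have := norm_sub_le (x * z + y) (x * z)
    rwa [add_sub_cancel_left, norm_mul] at this
  have h7 : ‖x‖ * ‖z‖ ≤ (1 + B * E) * R := mul_le_mul h4 hz (norm_nonneg _) (by positivity)
  have h8 : 0 ≤ (1 + B * E) * R := by positivity
  constructor <;> nlinarith

variable {F : Type} [Field F] [NumberField F] [Algebra K3 F]

theorem Qi_nonneg (w : X F) (r : F × F) (i : Pl F) : 0 ≤ Qi w r i := Qf_nonneg _ (Real.exp_pos _) _ _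

theorem Qi_pos (w : X F) {r : F × F} (hr : r ≠ 0) (i : Pl F) : 0 < Qi w r i := by
  refine Qf_pos _ (Real.exp_pos _) ?_
  by_contra h
  push Not at h
  refine hr (Prod.ext ?_ ?_)
  · exact not_not.1 fun h' => em_ne_zero h' i h.1
  · exact not_not.1 fun h' => em_ne_zero h' i h.2

theorem NQ_nonneg (w : X F) (r : F × F) : 0 ≤ NQ w r := Finset.prod_nonneg fun i _ => Qi_nonneg w r i

theorem NQ_pos (w : X F) {r : F × F} (hr : r ≠ 0) : 0 < NQ w r := Finset.prod_pos fun i _ => Qi_pos w hr i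

theorem NQ_zero (w : X F) : NQ w 0 = 0 := by
  simp [NQ, Qi, Qf]

theorem continuous_NQ (r : F × F) : Continuous fun w : X F => NQ w r :=
  continuous_finsetProd _ fun i _ => continuous_Qi r i

theorem measurable_lQ (r : F × F) : Measurable fun w : X F => lQ w r :=
  measurable_pi_lambda _ fun i => (continuous_Qi r i).measurable.log.div_const 2

theorem sum_lQ (w : X F) {r : F × F} (hr : r ≠ 0) : 2 * ∑ i, lQ w r i = Real.log (NQ w r) := by
  rw [NQ, Real.log_prod fun i _ => (Qi_pos w hr i).ne', Finset.mul_sum]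
  exact Finset.sum_congr rfl fun i _ => by rw [lQ]; ring

theorem Qi_smul (w : X F) (u c d : F) (i : Pl F) : Qi w (u * c, u * d) i = ‖em u i‖ ^ 2 * Qi w (c, d) i := by
  simp only [Qi, Qf, em_mul, Pi.mul_apply]
  rw [mul_assoc, ← mul_add, norm_mul, norm_mul]
  ring

theorem NQ_smul (w : X F) (u c d : F) : NQ w (u * c, u * d) = an u * NQ w (c, d) := by
  simp only [NQ, Qi_smul, an, Finset.prod_mul_distrib]

theorem lQ_smul (w : X F) {u c d : F} (hu : u ≠ 0) (hr : (c, d) ≠ 0) :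
    lQ w (u * c, u * d) = lQ w (c, d) + lg u := by
  funext i
  simp only [lQ, Qi_smul, Pi.add_apply, lg]
  rw [Real.log_mul (pow_pos (norm_em_pos hu i) 2).ne' (Qi_pos w hr i).ne', Real.log_pow]
  push_cast
  ring

theorem Qi_zero_left (w : X F) (d : F) (i : Pl F) : Qi w (0, d) i = ‖em d i‖ ^ 2 * Real.exp (-w.2 i) := by
  simp [Qi, Qf, Real.exp_neg, div_eq_mul_inv]

theorem NQ_zero_left (w : X F) (d : F) : NQ w (0, d) = an d * Real.exp (-∑ i, w.2 i) := by
  simp only [NQ, Qi_zero_left, an, Finset.prod_mul_distrib, ← Real.exp_sum, Finset.sum_neg_distrib]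

theorem lQ_zero_one (w : X F) : lQ w (0, 1) = fun i => -w.2 i / 2 := by
  funext i
  simp [lQ, Qi_zero_left]

/-- finitely many rows of a lattice are short for some point of a bounded set -/
theorem finite_rows {m : ℕ} (hm : 0 < m) (R B : ℝ) :
    {r : F × F | InL m r.1 ∧ InL m r.2 ∧ ∃ w : X F, ‖w‖ ≤ R ∧ ∀ i, Qi w r i ≤ B}.Finite := by
  have h := finite_InL (F := F) hm ((1 + B * Real.exp R) * (1 + R))
  refine (h.prod h).subset ?_
  rintro r ⟨h1, h2, w, hw, hQ⟩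
  have h3 := fun i => Qf_bdd ((norm_le_pi_norm w.1 i).trans ((norm_fst_le w).trans hw))
    ((norm_le_pi_norm w.2 i).trans ((norm_snd_le w).trans hw)) (hQ i)
  exact ⟨⟨h1, fun i => (h3 i).1⟩, h2, fun i => (h3 i).2⟩

theorem ff_nonneg (t : ℝ) : 0 ≤ ff t := by
  unfold ff
  split_ifs with h
  · exact inv_nonneg.2 (by linarith [h.1])
  · rfl

theorem ff_le_one (t : ℝ) : ff t ≤ 1 := by
  unfold ff
  split_ifs with h
  · exact inv_le_one_of_one_le₀ h.1.le
  · exact zero_le_one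

theorem ff_ne_zero {t : ℝ} (h : ff t ≠ 0) : 1 < t ∧ t ≤ 2 := by
  by_contra h'
  exact h (if_neg h')

theorem measurable_ff : Measurable ff := Measurable.ite measurableSet_Ioc measurable_inv measurable_const

/-- a balanced vector is controlled by its sum -/
theorem bal_le {l : Pl F → ℝ} {B : ℝ} (h : ∀ i j, |l i - l j| ≤ B) (i : Pl F) : |l i| ≤ |∑ j, l j| + B := by
  have hr : (1 : ℝ) ≤ Fintype.card (Pl F) := by exact_mod_cast card_Pl_pos
  have h1 : |Fintype.card (Pl F) * l i - ∑ j, l j| ≤ Fintype.card (Pl F) * B := by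
    have : Fintype.card (Pl F) * l i - ∑ j, l j = ∑ j, (l i - l j) := by
      rw [Finset.sum_sub_distrib]
      simp
    rw [this]
    refine (Finset.abs_sum_le_sum_abs _ _).trans ((Finset.sum_le_sum fun j _ => h i j).trans ?_)
    simp
  have h2 := abs_sub_abs_le_abs_sub (Fintype.card (Pl F) * l i) (∑ j, l j)
  rw [abs_mul, Nat.abs_cast] at h2
  refine le_of_mul_le_mul_left ?_ (zero_lt_one.trans_le hr)
  nlinarith [abs_nonneg (∑ j, l j)]

variable {V : Subgroup (𝓞 F)ˣ} {η : (Pl F → ℝ) → ℝ} {ω : F × F → ℂ}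

/-- the profile -/
def pf (η : (Pl F → ℝ) → ℝ) (Y : ℝ) (w : X F) (r : F × F) : ℝ := η (lQ w r) * ff (NQ w r / Y)

theorem EN_eq (η : (Pl F → ℝ) → ℝ) (ω : F × F → ℂ) (Y : ℝ) (w : X F) :
    EN η ω Y w = (Y ^ (-(4 / 3) : ℝ) : ℝ) * ∑' r, ω r * (pf η Y w r : ℂ) := rfl

theorem pf_nonneg (h : Pou V η) (Y : ℝ) (w : X F) (r : F × F) : 0 ≤ pf η Y w r :=
  mul_nonneg (h.nonneg _) (ff_nonneg _)

theorem pf_le_one (h : Pou V η) (Y : ℝ) (w : X F) (r : F × F) : pf η Y w r ≤ 1 :=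
  mul_le_one₀ (h.le_one _) (ff_nonneg _) (ff_le_one _)

theorem measurable_pf (h : Pou V η) (Y : ℝ) (r : F × F) : Measurable fun w => pf η Y w r :=
  (h.meas.comp (measurable_lQ r)).mul (measurable_ff.comp ((continuous_NQ r).measurable.div_const Y))

theorem pf_act (η : (Pl F → ℝ) → ℝ) (Y : ℝ) (g : SL(2, F)) (w : X F) (r : F × F) :
    pf η Y (act g w) r = pf η Y w (rm r g) := by
  rw [pf, pf, NQ_act, lQ_act]

theorem pf_ne_zero {Y : ℝ} {w : X F} {r : F × F} (h : pf η Y w r ≠ 0) :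
    0 < Y ∧ r ≠ 0 ∧ Y < NQ w r ∧ NQ w r ≤ 2 * Y := by
  obtain ⟨h1, h2⟩ := ff_ne_zero (right_ne_zero_of_mul h)
  have hY : 0 < Y := by
    by_contra hY
    exact absurd (div_nonpos_of_nonneg_of_nonpos (NQ_nonneg w r) (not_lt.1 hY)) (by linarith)
  refine ⟨hY, ?_, (one_lt_div hY).1 h1, (div_le_iff₀ hY).1 h2⟩
  rintro rfl
  rw [NQ_zero, zero_div] at h1
  linarith

theorem pf_bdd (h : Pou V η) (Y : ℝ) : ∃ B : ℝ, ∀ w r, pf η Y w r ≠ 0 → ∀ i, |lQ w r i| ≤ B := by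
  obtain ⟨B, hB⟩ := h.bal
  refine ⟨|Real.log Y| + |Real.log (2 * Y)| + B, fun w r hr i => ?_⟩
  obtain ⟨hY, h0, h1, h2⟩ := pf_ne_zero hr
  have h3 := bal_le (hB _ (left_ne_zero_of_mul hr)) i
  have h4 := sum_lQ w h0
  have h5 := Real.log_le_log hY h1.le
  have h6 := Real.log_le_log (NQ_pos w h0) h2
  have h7 : |∑ j, lQ w r j| ≤ |Real.log Y| + |Real.log (2 * Y)| := by
    have := neg_abs_le (Real.log Y)
    have := le_abs_self (Real.log (2 * Y))
    have := abs_nonneg (Real.log Y)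
    have := abs_nonneg (Real.log (2 * Y))
    rw [abs_le]
    constructor <;> linarith
  linarith

/-- on a bounded set only finitely many rows contribute -/
theorem exists_rows (h : Pou V η) {m : ℕ} (hm : 0 < m) (Y R : ℝ) : ∃ s : Finset (F × F),
    ∀ w : X F, ‖w‖ ≤ R → ∀ r : F × F, InL m r.1 → InL m r.2 → pf η Y w r ≠ 0 → r ∈ s := by
  obtain ⟨B, hB⟩ := pf_bdd h Y
  refine ⟨(finite_rows hm R (Real.exp (2 * B))).toFinset, fun w hw r h1 h2 hr => ?_⟩
  refine (Set.Finite.mem_toFinset _).2 ⟨h1, h2, w, hw, fun i => ?_⟩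
  have h3 := (abs_le.1 (hB w r hr i)).2
  rw [← Real.exp_log (Qi_pos w (pf_ne_zero hr).2.1 i), Real.exp_le_exp]
  rw [lQ] at h3
  linarith

theorem Adm.exists_rows (hω : Adm ω) (h : Pou V η) (Y R : ℝ) : ∃ s : Finset (F × F),
    ∀ w : X F, ‖w‖ ≤ R → ∀ r ∉ s, ω r * (pf η Y w r : ℂ) = 0 := by
  obtain ⟨m, hm, hs⟩ := hω.supp
  obtain ⟨s, hs'⟩ := TH.exists_rows h hm Y R
  refine ⟨s, fun w hw r hr => ?_⟩
  by_contra h0
  exact hr (hs' w hw r (hs r (left_ne_zero_of_mul h0)).1 (hs r (left_ne_zero_of_mul h0)).2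
    (Complex.ofReal_ne_zero.1 (right_ne_zero_of_mul h0)))

theorem Adm.summable (hω : Adm ω) (h : Pou V η) (Y : ℝ) (w : X F) : Summable fun r => ω r * (pf η Y w r : ℂ) := by
  obtain ⟨s, hs⟩ := hω.exists_rows h Y ‖w‖
  exact summable_of_ne_finset_zero (hs w le_rfl)

theorem measurable_EN (h : Pou V η) (ω : F × F → ℂ) (Y : ℝ) : Measurable (EN η ω Y) :=
  (Measurable.tsum fun r => (Complex.measurable_ofReal.comp (measurable_pf h Y r)).const_mul (ω r)).const_mul _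

theorem Adm.EN_bdd (hω : Adm ω) (h : Pou V η) (Y R : ℝ) : ∃ C : ℝ, ∀ w : X F, ‖w‖ ≤ R → ‖EN η ω Y w‖ ≤ C := by
  obtain ⟨s, hs⟩ := hω.exists_rows h Y R
  refine ⟨‖((Y ^ (-(4 / 3) : ℝ) : ℝ) : ℂ)‖ * ∑ r ∈ s, ‖ω r‖, fun w hw => ?_⟩
  rw [EN_eq, norm_mul, tsum_eq_sum (hs w hw)]
  refine mul_le_mul_of_nonneg_left ((norm_sum_le _ _).trans (Finset.sum_le_sum fun r _ => ?_)) (norm_nonneg _)
  rw [norm_mul, Complex.norm_real, Real.norm_of_nonneg (pf_nonneg h _ _ _)]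
  exact mul_le_of_le_one_right (norm_nonneg _) (pf_le_one h _ _ _)

/-- right multiplication by `g` as a permutation of the rows -/
def rmE (g : SL(2, F)) : F × F ≃ F × F where
  toFun r := rm r g
  invFun r := rm r g⁻¹
  left_inv r := by simp only [← rm_mul, mul_inv_cancel, rm_one]
  right_inv r := by simp only [← rm_mul, inv_mul_cancel, rm_one]

theorem EN_act (η : (Pl F → ℝ) → ℝ) (ω : F × F → ℂ) (Y : ℝ) (g : SL(2, F)) (w : X F) :
    EN η ω Y (act g w) = EN η (fun r => ω (rm r g⁻¹)) Y w := by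
  rw [EN_eq, EN_eq, ← (rmE g).tsum_eq fun r => ω (rm r g⁻¹) * (pf η Y w r : ℂ)]
  simp only [rmE, Equiv.coe_fn_mk, ← rm_mul, mul_inv_cancel, rm_one, pf_act]

theorem EN_smul (η : (Pl F → ℝ) → ℝ) (a : ℂ) (ω : F × F → ℂ) (Y : ℝ) (w : X F) :
    EN η (fun r => a * ω r) Y w = a * EN η ω Y w := by
  simp only [EN_eq, mul_assoc, tsum_mul_left]
  ring

theorem EN_add (h : Pou V η) {ω' : F × F → ℂ} (hω : Adm ω) (hω' : Adm ω') (Y : ℝ) (w : X F) :
    EN η (fun r => ω r + ω' r) Y w = EN η ω Y w + EN η ω' Y w := by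
  simp only [EN_eq, add_mul]
  rw [(hω.summable h Y w).tsum_add (hω'.summable h Y w), mul_add]

theorem EN_sum {ι : Type} (h : Pou V η) (s : Finset ι) {ω : ι → F × F → ℂ} (hω : ∀ i ∈ s, Adm (ω i)) (Y : ℝ)
    (w : X F) : EN η (fun r => ∑ i ∈ s, ω i r) Y w = ∑ i ∈ s, EN η (ω i) Y w := by
  simp only [EN_eq, Finset.sum_mul]
  rw [Summable.tsum_finsetSum fun i hi => (hω i hi).summable h Y w, Finset.mul_sum]

end

end Crest.Agent.R27.TH
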