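import Crest.Agent.R27.TH.StBr
import Crest.Agent.R27.TH.Br
import Crest.Agent.R27.G.Inst
import Crest.Agent.R27.Po.Idl

/-! Row 27, THETA (helper14): the model. -/

set_option autoImplicit false

namespace Crest.Agent.R27.TH

open Crest.NumberTheoryR.EisensteinField Crest.Agent.R27.G
open scoped NumberField

theorem md_sec {F : Type} [Field F] [NumberField F] [Algebra K3 F] {v : Lv F} {P : Submonoid v.R} (hP : v.Sec P)
    {n n' u : v.R} (hn : n ∈ P) (hn' : n' ∈ P) (hu : IsUnit u) (h : v.U ((u : F) * n / n')) :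
    v.cl n = v.cl n' ∧ ∀ b : v.R, b ≠ 0 → v.sx u b = 1 := by
  obtain ⟨E', hE, hc⟩ := hP.cpl
  have h1 := (v.clsa_div (v.clsd_ne (hP.ne _ hn')) h).2
  rw [v.cl_mul (v.clsd_ne hu.ne_zero) (v.clsd_ne (hP.ne _ hn))] at h1
  have h2 : v.cl u = 1 := Subgroup.disjoint_def.1 hE
    (eq_mul_inv_of_mul_eq h1 ▸ mul_mem (hc _ hn') (inv_mem (hc _ hn))) (v.mem_E.2 ⟨u, hu, rfl⟩)
  rw [h2, v.clsa_one_mul] at h1
  refine ⟨h1, fun b hb => ?_⟩
  obtain ⟨f, -, -, -, hf⟩ := v.exists_hil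
  have h3 := hf 1 b one_ne_zero hb
  rw [v.sx_unit_right _ isUnit_one, OneMemClass.coe_one, v.cl_one, ← h2] at h3
  have h4 := v.sx_mul_left 1 1 b
  have h5 := v.sx_pow_six 1 hb
  rw [if_pos isCoprime_one_left] at h5
  have h6 : v.sx 1 b ≠ 0 := fun e => by simp [e] at h5
  rw [hf u b hu.ne_zero hb, v.sx_unit_right _ hu, ← h3]
  exact mul_left_cancel₀ h6 (by rw [← h4, mul_one, mul_one])

theorem stThetaM (hL : StLv) : StThetaM := fun F _ _ _ => by
  obtain ⟨v, -⟩ := hL F 1 one_pos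
  refine ⟨v, fun P hP => ?_⟩
  obtain ⟨A, hA⟩ := stAr F v P hP.toGen
  have hc := Po.count v hP.toGen
  rw [← hA] at hc ⊢
  let : Md v :=
    { A with
      eQ_eq := fun y c => by rw [hA]; rfl
      sx_eq := fun y c => by rw [hA]; rfl
      al_eq := fun y => by rw [hA]; rfl
      sec := fun n n' u => by
        rw [hA]
        exact fun hn hn' hu h => ⟨(md_sec hP hn hn' hu h).1, hu, (md_sec hP hn hn' hu h).2⟩ }
  exact stTheta_of_br hc (stBr v)

end Crest.Agent.R27.TH
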