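import Crest.Agent.R27.TH.Lev
import Crest.Agent.R27.Api.Prim0

/-!
Row 27, block THETA / RHO (helper6), part A: residues of series over `Pr`, the coefficients `Gs`.
-/

set_option autoImplicit false
set_option linter.unusedSectionVars false

namespace Crest.Agent.R27.TH

open Crest.NumberTheoryR.EisensteinField Crest.Agent.R27.G Filter Set
open Crest.Agent.R27.Ab (Pr Prim nm gs gc cb)
open scoped NumberField ComplexConjugate Classical Topology

variable {F : Type} [Field F] [NumberField F] [Algebra K3 F]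

theorem one_le_PP {w : X F} (h : ∀ i, 0 ≤ w.2 i) : 1 ≤ PP w := by
  refine Finset.one_le_prod fun i _ => ?_
  have h1 : 1 ≤ Real.exp (w.2 i) := Real.one_le_exp (h i)
  simp only [Qi, R17.D.Qf, em, map_one, map_zero, one_mul, add_zero, norm_one, one_pow]
  rw [le_div_iff₀ (by positivity)]
  nlinarith [sq_nonneg ‖w.1 i‖]

theorem gst_top {t : ℝ} (ht : 2 < t) : gst F t = 0 := by
  have h : ∀ w : X F, fc (t * PP w) * kn (1 : F) (h0 F) w = 0 := fun w => by
    by_cases hw : w.2 ∈ Icc (0 : Pl F → ℝ) 1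
    · have h1 := one_le_PP (w := w) hw.1
      have h2 : ¬ (1 < t * PP w ∧ t * PP w ≤ 2) := fun h => by nlinarith [h.2]
      rw [fc, ff, if_neg h2, Complex.ofReal_zero, zero_mul]
    · rw [kn, h0, indicator_of_notMem hw, mul_zero, mul_zero]
  simp only [gst, cv, h, MeasureTheory.integral_zero]

variable {v : Lv F} [Md v]

theorem nm_eq_N {n : v.R} (hn : n ≠ 0) : nm n = v.N n := by rw [v.N_eq_card hn]; rfl

theorem finite_Pr (B : ℝ) : {n : Pr v.R | nm (n : v.R) ≤ B}.Finite := by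
  refine Finite.of_finite_image (f := fun n : Pr v.R => v.idl n)
    ((Ideal.finite_setOfPred_absNorm_le ⌊B⌋₊).subset ?_) fun m _ n _ h => ?_
  · rintro _ ⟨n, hn, rfl⟩
    refine Nat.le_floor ?_
    rw [mem_ofPred_eq, nm_eq_N (Ab.Pr_prim n).ne_zero] at hn
    exact hn
  · exact Subtype.ext ((Ab.Pr_prim m).eq_of_associated (Ab.Pr_prim n) (v.idl_eq_iff.1 h))

/-- `τ` is the residue of `∑_{n ∈ Pr} a n · N n ^ (-s)` -/
def HT (v : Lv F) [Md v] (a : v.R → ℂ) (τ : ℂ) : Prop :=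
  HasT F (fun n : Pr v.R => a n) (fun n => nm (n : v.R)) τ

variable {a b : v.R → ℂ} {σ τ : ℂ}

theorem summable_Pr (a : v.R → ℂ) {Y : ℝ} (hY : 0 < Y) :
    Summable fun n : Pr v.R => a n * gst F (nm (n : v.R) / Y) := by
  refine summable_of_hasFiniteSupport ((finite_Pr (2 * Y)).subset fun n hn => ?_)
  by_contra h
  rw [mem_ofPred_eq, not_le, ← lt_div_iff₀ hY] at h
  exact hn (by simp only [gst_top h, mul_zero])

theorem HT.unique (h : HT v a σ) (h' : HT v a τ) : σ = τ := tendsto_nhds_unique h h'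

theorem HT.congr (h : HT v a τ) (e : ∀ n, Prim n → a n = b n) : HT v b τ := by
  have : (fun n : Pr v.R => a n) = fun n : Pr v.R => b n := funext fun n => e n n.2
  unfold HT at *
  rwa [← this]

theorem HT.add (h : HT v a σ) (h' : HT v b τ) : HT v (fun n => a n + b n) (σ + τ) := by
  refine (Tendsto.add h h').congr' ?_
  filter_upwards [eventually_gt_atTop 0] with Y hY
  simp only [Lm, add_mul]
  rw [(summable_Pr a hY).tsum_add (summable_Pr b hY), mul_add]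

theorem HT.const_mul (c : ℂ) (h : HT v a τ) : HT v (fun n => c * a n) (c * τ) := by
  refine (Tendsto.const_mul c h).congr fun Y => ?_
  simp only [Lm, mul_assoc, tsum_mul_left]
  ring

theorem HT.sub (h : HT v a σ) (h' : HT v b τ) : HT v (fun n => a n - b n) (σ - τ) := by
  simpa [sub_eq_add_neg] using h.add (h'.const_mul (-1))

theorem HT_zero : HT v (fun _ => 0) 0 := by
  simp only [HT, HasT]
  exact tendsto_const_nhds.congr fun Y => by simp [Lm]

/-- the shift `n ↦ p n` -/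
theorem HT.shift {p : v.R} (hp : Prim p) (h : HT v a τ) (h0 : ∀ n, Prim n → ¬ p ∣ n → b n = 0)
    (h1 : ∀ n, Prim n → b (p * n) = a n) : HT v b ((nm p ^ (-(4 / 3) : ℝ) : ℝ) * τ) := by
  have hq : 0 < nm p := Ab.nm_pos hp.ne_zero
  have ht : Tendsto (fun Y : ℝ => Y / nm p) atTop atTop := tendsto_id.atTop_div_const hq
  refine (Tendsto.const_mul _ (Tendsto.comp h ht)).congr' ?_
  filter_upwards [eventually_gt_atTop 0] with Y hY
  let f : Pr v.R → Pr v.R := fun n => ⟨p * n, hp.mul n.2⟩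
  have hf : Function.Injective f := fun m n e =>
    Subtype.ext (mul_left_cancel₀ hp.ne_zero (congrArg Subtype.val e))
  have e := hf.tsum_eq (f := fun n : Pr v.R => b n * gst F (nm (n : v.R) / Y)) fun n hn => by
    by_contra h
    refine hn (by
      simp only
      rw [h0 n n.2, zero_mul]
      intro hd
      obtain ⟨m, hm, e⟩ := hp.exists_mul n.2 hd
      exact h ⟨⟨m, hm⟩, Subtype.ext e.symm⟩)
  simp only [Lm, Function.comp]
  rw [← e, ← mul_assoc, ← Complex.ofReal_mul, ← Real.mul_rpow hq.le (by positivity), mul_div_cancel₀ _ hq.ne']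
  congr 1
  refine tsum_congr fun n => ?_
  simp only [f]
  rw [h1 n n.2, Ab.nm_mul, div_div_eq_mul_div, mul_comm (nm p)]

/-! ### Gauss sums -/

theorem gs_two (m c : v.R) : gs 2 m c = gc 1 m c := Ab.gs_two_mul 1 m c

theorem cb_mul_conj' {x c : v.R} (hc : c ≠ 0) (h : IsCoprime x c) : cb x c * conj (cb x c) = 1 := by
  rw [Ab.cb_mul_conj, if_pos ⟨hc, h⟩]

theorem gs_arg {x c : v.R} (hc : c ≠ 0) (h : IsCoprime x c) (m : v.R) :
    gs 2 (x * m) c = conj (cb x c) * gs 2 m c := by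
  rw [gs_two, gs_two, Ab.gc_mul_arg 1 hc h, pow_one]

theorem gs_unit_right {u c : v.R} (hu : IsUnit u) (hc : c ≠ 0) (m : v.R) :
    gs 2 m (u * c) = hil v u c * gs 2 m c := by
  obtain ⟨u', hu'⟩ := hu.exists_right_inv
  have hc' : IsCoprime u c := ⟨u', 0, by linear_combination hu'⟩
  have h1 := Ab.gs_unit_mul 2 hu (u' * m) c
  have h2 := gs_arg hc hc' (u' * m)
  rw [← mul_assoc, hu', one_mul] at h1 h2
  rw [h1, h2, ← cb_unit hu hc, ← mul_assoc, cb_mul_conj' hc hc', one_mul]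

/-- twisted multiplicativity -/
theorem gs_tw {x c : v.R} (hx : x ≠ 0) (hc : c ≠ 0) (h : IsCoprime x c) (m : v.R) :
    gs 2 m (x * c) = gs 2 m x * hil v c x * gs 2 (x * m) c := by
  rw [gs_arg hc h, gs_two, gs_two, gs_two, Ab.gc_mul 1 hx hc h, pow_one, pow_one, cb_recip' hc hx, Ab.conj_cb]
  ring

/-! ### The coefficients `Gs` -/

variable {K : ℕ} {ξ ξ' : F} {ν n c : v.R}

theorem Gs_eq (hK : 1 ≤ K) (h : Associated n c) (hc : UK v K (c / ξ)) : Gs v K ν ξ n = gs 2 ν c := by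
  have hex : ∃ c : v.R, Associated n c ∧ UK v K (c / ξ) := ⟨c, h, hc⟩
  obtain ⟨h1, h2⟩ := hex.choose_spec
  rw [Gs, dif_pos hex]
  obtain ⟨u, hu⟩ := h.symm.trans h1
  have hc0 : (c : F) ≠ 0 := hc.ne_left hK
  have h3 := h2.trans hK (hc.symm hK)
  rw [← hu, mul_comm] at h3 ⊢
  rw [gs_unit_right u.isUnit (fun e => hc0 (by rw [e]; rfl)), hil_U_left, one_mul]
  push_cast at h3
  rw [mul_div_cancel_right₀ _ hc0] at h3
  exact h3.U hK

theorem Gs_eq_zero (h : ¬ ∃ c : v.R, Associated n c ∧ UK v K (c / ξ)) : Gs v K ν ξ n = 0 := dif_neg h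

/-- to prove an identity between two `Gs` -/
theorem Gs_rel (hK : 1 ≤ K) {ν' n' : v.R} {z : ℂ}
    (h1 : ∀ c : v.R, Associated n c → UK v K (c / ξ) → ∃ c' : v.R, Associated n' c' ∧ UK v K (c' / ξ'))
    (h2 : ∀ c' : v.R, Associated n' c' → UK v K (c' / ξ') →
      ∃ c : v.R, Associated n c ∧ UK v K (c / ξ) ∧ gs 2 ν c = z * gs 2 ν' c') :
    Gs v K ν ξ n = z * Gs v K ν' ξ' n' := by
  by_cases h : ∃ c' : v.R, Associated n' c' ∧ UK v K (c' / ξ')
  · obtain ⟨c', a1, a2⟩ := h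
    obtain ⟨c, b1, b2, e⟩ := h2 c' a1 a2
    rw [Gs_eq hK a1 a2, Gs_eq hK b1 b2, e]
  · rw [Gs_eq_zero h, mul_zero, Gs_eq_zero fun ⟨c, b1, b2⟩ => h (h1 c b1 b2)]

theorem Gs_congr (hK : 1 ≤ K) (h : UK v K (ξ / ξ')) : Gs v K ν ξ n = Gs v K ν ξ' n := by
  rw [← one_mul (Gs v K ν ξ' n)]
  exact Gs_rel hK (fun c a1 a2 => ⟨c, a1, a2.trans hK h⟩) fun c a1 a2 =>
    ⟨c, a1, a2.trans hK (h.symm hK), (one_mul _).symm⟩

theorem Gs_unit_left (hK : 1 ≤ K) {u : v.R} (hu : IsUnit u) :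
    Gs v K (u * ν) ξ n = conj (hil v u ξ) * Gs v K ν ξ n := by
  refine Gs_rel hK (fun c a1 a2 => ⟨c, a1, a2⟩) fun c a1 a2 => ⟨c, a1, a2, ?_⟩
  have hc : c ≠ 0 := fun e => a2.ne_left hK (by rw [e]; rfl)
  obtain ⟨u', hu'⟩ := hu.exists_right_inv
  rw [gs_arg hc ⟨u', 0, by linear_combination hu'⟩, cb_unit hu hc, hil_UK_right hK _ a2]

theorem Gs_unit_right (hK : 1 ≤ K) {u : v.R} (hu : IsUnit u) :
    Gs v K ν (u * ξ) n = hil v u ξ * Gs v K ν ξ n := by
  have hu0 : (u : F) ≠ 0 := v.clsd_ne hu.ne_zero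
  refine Gs_rel hK (fun c a1 a2 => ?_) fun c a1 a2 => ⟨u * c, ?_, ?_, ?_⟩
  · obtain ⟨c', rfl⟩ := hu.dvd (a := c)
    refine ⟨c', a1.trans (associated_unit_mul_left _ _ hu), ?_⟩
    push_cast at a2
    rwa [mul_div_mul_left _ _ hu0] at a2
  · exact a1.trans (associated_unit_mul_right _ _ hu)
  · push_cast
    rwa [mul_div_mul_left _ _ hu0]
  · rw [gs_unit_right hu (fun e => a2.ne_left hK (by rw [e]; rfl)), hil_UK_right hK _ a2]

theorem Gs_cube (hK : 1 ≤ K) {x : v.R} (h : IsCoprime x n) : Gs v K (x ^ 3 * ν) ξ n = Gs v K ν ξ n := by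
  rw [← one_mul (Gs v K ν ξ n)]
  refine Gs_rel hK (fun c a1 a2 => ⟨c, a1, a2⟩) fun c a1 a2 => ⟨c, a1, a2, ?_⟩
  have hc : c ≠ 0 := fun e => a2.ne_left hK (by rw [e]; rfl)
  have h' : IsCoprime x c := h.of_isCoprime_of_dvd_right a1.symm.dvd
  rw [gs_arg hc h'.pow_left, Ab.cb_pow_left _ _ three_ne_zero, Ab.cb_pow_three, if_pos ⟨hc, h'⟩, map_one]

theorem Gs_tw (hK : 1 ≤ K) {x : v.R} (hx : x ≠ 0) (h : IsCoprime x n) :
    Gs v K ν ξ (x * n) = gs 2 ν x * hil v ξ x * Gs v K (x * ν) (ξ / x) n := by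
  have hx0 : (x : F) ≠ 0 := v.clsd_ne hx
  have key : ∀ c : v.R, ((x * c : v.R) : F) / ξ = c / (ξ / x) := fun c => by
    push_cast
    rw [div_div_eq_mul_div, mul_comm]
  refine Gs_rel hK (fun c a1 a2 => ?_) fun c a1 a2 => ⟨x * c, a1.mul_left x, by rwa [key], ?_⟩
  · obtain ⟨c', rfl⟩ := (dvd_mul_right x n).trans a1.dvd
    exact ⟨c', a1.of_mul_left (Associated.refl x) hx, by rwa [← key]⟩
  · have hc : c ≠ 0 := fun e => a2.ne_left hK (by rw [e]; rfl)
    have hξ : ξ ≠ 0 := fun e => a2.ne_right hK (by rw [e, zero_div])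
    rw [gs_tw hx hc (h.of_isCoprime_of_dvd_right a1.symm.dvd), hil_UK_left hK a2, div_eq_mul_inv,
      hil_mul_left hξ (inv_ne_zero hx0), hil_inv_left, hil_self, map_one, mul_one]

/-- `Gs` vanishes when the Gauss sums of all multiples of `x` vanish -/
theorem Gs_zero_of (hK : 1 ≤ K) (h : ∀ c, c ≠ 0 → n ∣ c → c ∣ n → gs 2 ν c = 0) : Gs v K ν ξ n = 0 := by
  by_cases h' : ∃ c : v.R, Associated n c ∧ UK v K (c / ξ)
  · obtain ⟨c, a1, a2⟩ := h'
    rw [Gs_eq hK a1 a2, h c (fun e => a2.ne_left hK (by rw [e]; rfl)) a1.dvd a1.symm.dvd]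
  · exact Gs_eq_zero h'

end Crest.Agent.R27.TH
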