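import Crest.Agent.R27.TH.RhoA

/-!
Row 27, block THETA / RHO (helper6), part B: the Hecke relations and the shape of `rho`.
-/

set_option autoImplicit false
set_option linter.unusedSectionVars false

namespace Crest.Agent.R27.TH

open Crest.NumberTheoryR.EisensteinField Crest.Agent.R27.G Filter Set
open Crest.Agent.R27.Ab (Pr Prim nm gs gc cb tau0 g3)
open scoped NumberField ComplexConjugate Classical Topology

variable {F : Type} [Field F] [NumberField F] [Algebra K3 F] {v : Lv F} [Md v] {K : ℕ} {ξ ξ' : F} {ν p : v.R}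

theorem rho_congr (hK : 1 ≤ K) (h : UK v K (ξ / ξ')) : rho v K ν ξ = rho v K ν ξ' := by
  simp only [rho, Gs_congr hK h]

theorem HH.ht (H : HH v K) (hν : ν ≠ 0) (hξ : ξ ≠ 0) : HT v (Gs v K ν ξ) (rho v K ν ξ) := H.ex ν ξ hν hξ

theorem HH.unit_left (H : HH v K) (hK : 1 ≤ K) {u : v.R} (hu : IsUnit u) (hν : ν ≠ 0) (hξ : ξ ≠ 0) :
    rho v K (u * ν) ξ = conj (hil v u ξ) * rho v K ν ξ :=
  (H.ht (mul_ne_zero hu.ne_zero hν) hξ).unique
    (((H.ht hν hξ).const_mul _).congr fun _ _ => (Gs_unit_left hK hu).symm)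

theorem HH.unit_right (H : HH v K) (hK : 1 ≤ K) {u : v.R} (hu : IsUnit u) (hν : ν ≠ 0) (hξ : ξ ≠ 0) :
    rho v K ν (u * ξ) = hil v u ξ * rho v K ν ξ :=
  (H.ht hν (mul_ne_zero (v.clsd_ne hu.ne_zero) hξ)).unique
    (((H.ht hν hξ).const_mul _).congr fun _ _ => (Gs_unit_right hK hu).symm)

theorem HH.bdd (H : HH v K) (hK : 1 ≤ K) (hν : ν ≠ 0) : ∃ B : ℝ, ∀ ξ : F, ξ ≠ 0 → ‖rho v K ν ξ‖ ≤ B := by
  obtain ⟨S, hS, h⟩ := fin_classes v hK
  refine ⟨∑ s ∈ S, ‖rho v K ν s‖, fun ξ hξ => ?_⟩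
  obtain ⟨s, hs, u, hu, h⟩ := h ξ hξ
  rw [rho_congr hK h, H.unit_right hK hu hν fun e => (hS s hs).1 (NumberField.RingOfIntegers.ext e), norm_mul,
    norm_hil, one_mul]
  exact Finset.single_le_sum (f := fun s : 𝓞 F => ‖rho v K ν s‖) (fun _ _ => norm_nonneg _) hs

theorem nm_add_one_ne (p : v.R) : (nm p : ℂ) + 1 ≠ 0 := by
  have := Ab.nm_nonneg p
  exact_mod_cast (by linarith : nm p + 1 ≠ 0)

theorem nm_ne (hp : p ≠ 0) : (nm p : ℂ) ≠ 0 := by exact_mod_cast (Ab.nm_pos hp).ne'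

theorem HH.np (H : HH v K) (hp : Prime p) (hν : ν ≠ 0) (hξ : ξ ≠ 0) :
    HT v (fun n => if p ∣ n then 0 else Gs v K ν ξ n) (nm p * ((nm p : ℂ) + 1)⁻¹ * rho v K ν ξ) := by
  have h := (H.ht hν hξ).sub (b := fun n => if p ∣ n then Gs v K ν ξ n else 0) (H.van ν ξ p hν hξ hp)
  have e : rho v K ν ξ - ((nm p : ℂ) + 1)⁻¹ * rho v K ν ξ = nm p * ((nm p : ℂ) + 1)⁻¹ * rho v K ν ξ := by
    field_simp [nm_add_one_ne p]
    ring
  rw [e] at h
  exact h.congr fun n _ => by split_ifs <;> simp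

theorem HH.cube_prime (H : HH v K) (hK : 1 ≤ K) (hp : Prime p) (hν : ν ≠ 0) (hξ : ξ ≠ 0) :
    rho v K (p ^ 3 * ν) ξ = rho v K ν ξ := by
  have h := (H.np hp (mul_ne_zero (pow_ne_zero 3 hp.ne_zero) hν) hξ).unique
    ((H.np hp hν hξ).congr fun n _ => by
      split_ifs with h
      · rfl
      · exact (Gs_cube hK (hp.irreducible.coprime_iff_not_dvd.2 h)).symm)
  exact mul_left_cancel₀ (mul_ne_zero (nm_ne hp.ne_zero) (inv_ne_zero (nm_add_one_ne p))) h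

theorem HH.cube_left (H : HH v K) (hK : 1 ≤ K) {b : v.R} (hb : Prim b) (hν : ν ≠ 0) (hξ : ξ ≠ 0) :
    rho v K (ν * b ^ 3) ξ = rho v K ν ξ := by
  refine hb.induction (P := fun b => rho v K (ν * b ^ 3) ξ = rho v K ν ξ) (by simp) fun p m hp _ hm ih => ?_
  rw [show ν * (p * m) ^ 3 = p ^ 3 * (ν * m ^ 3) by ring,
    H.cube_prime hK hp (mul_ne_zero hν (pow_ne_zero 3 hm.ne_zero)) hξ, ih]

/-- `N p ^ (-1/3)` -/
noncomputable def xq (p : v.R) : ℂ := (nm p ^ (-(1 / 3) : ℝ) : ℝ)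

theorem xq_cube (hp : p ≠ 0) : xq p ^ 3 * nm p = 1 := by
  have h := Ab.nm_pos hp
  rw [xq, ← Complex.ofReal_pow, ← Complex.ofReal_mul, ← Real.rpow_natCast, ← Real.rpow_mul h.le,
    ← Real.rpow_add_one h.ne']
  norm_num

theorem xq_ne (hp : p ≠ 0) : xq p ≠ 0 := fun h => by simpa [h] using xq_cube hp

theorem xq_mul (a b : v.R) : xq (a * b) = xq a * xq b := by
  rw [xq, xq, xq, Ab.nm_mul, Real.mul_rpow (Ab.nm_nonneg a) (Ab.nm_nonneg b), Complex.ofReal_mul]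

theorem xq_pow (p : v.R) (k : ℕ) : ((nm (p ^ k) ^ (-(4 / 3) : ℝ) : ℝ) : ℂ) = xq p ^ (4 * k) := by
  have h := Ab.nm_nonneg p
  rw [xq, ← Complex.ofReal_pow, Ab.nm_pow, ← Real.rpow_natCast, ← Real.rpow_natCast, ← Real.rpow_mul h,
    ← Real.rpow_mul h]
  congr 2
  push_cast
  ring

/-- only the valuations `0` and `k` contribute -/
theorem HH.one_term (H : HH v K) (hK : 1 ≤ K) (hp : Prime p) (hP : Prim p) (hν : ν ≠ 0) (hξ : ξ ≠ 0) {k : ℕ}
    (hk : 1 ≤ k) (h : ∀ j, 1 ≤ j → j ≠ k → gs 2 ν (p ^ j) = 0) :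
    rho v K ν ξ = nm p * xq p ^ (4 * k) * gs 2 ν (p ^ k) * hil v ξ p ^ k * rho v K (p ^ k * ν) (ξ / p ^ k) := by
  have hp0 : (p : F) ≠ 0 := v.clsd_ne hp.ne_zero
  have tw : ∀ (j : ℕ) (m : v.R), ¬ p ∣ m → Gs v K ν ξ (p ^ j * m) =
      gs 2 ν (p ^ j) * hil v ξ p ^ j * Gs v K (p ^ j * ν) (ξ / p ^ j) m := fun j m hm => by
    rw [Gs_tw hK (pow_ne_zero j hp.ne_zero) (hp.irreducible.coprime_iff_not_dvd.2 hm).pow_left]
    push_cast
    rw [hil_pow_right _ hp0]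
  have h1 := ((H.np hp (mul_ne_zero (pow_ne_zero k hp.ne_zero) hν) (div_ne_zero hξ (pow_ne_zero k hp0))).const_mul
    (gs 2 ν (p ^ k) * hil v ξ p ^ k)).shift (hP.pow k) (b := fun n => if p ∣ n then Gs v K ν ξ n else 0)
    (fun n hn hd => by
      split_ifs with h1
      · obtain ⟨j, m, hm, rfl⟩ := WfDvdMonoid.max_power_factor hn.ne_zero hp.irreducible
        rcases j.eq_zero_or_pos with rfl | hj
        · exact absurd (by simpa using h1) hm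
        · rw [tw j m hm, h j hj (by rintro rfl; exact hd (dvd_mul_right _ _)), zero_mul, zero_mul]
      · rfl)
    (fun n hn => by
      rw [if_pos ((dvd_pow_self p (by omega)).mul_right n)]
      split_ifs with h1
      · obtain ⟨j, m, hm, rfl⟩ := WfDvdMonoid.max_power_factor hn.ne_zero hp.irreducible
        rcases j.eq_zero_or_pos with rfl | hj
        · exact absurd (by simpa using h1) hm
        · rw [← mul_assoc, ← pow_add, tw _ m hm, h (k + j) (by omega) (by omega), zero_mul, zero_mul, mul_zero]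
      · exact tw k n h1)
  have h2 := HT.unique (a := fun n => if p ∣ n then Gs v K ν ξ n else 0) (H.van ν ξ p hν hξ hp) h1
  rw [xq_pow] at h2
  refine mul_left_cancel₀ (inv_ne_zero (nm_add_one_ne p)) (h2.trans ?_)
  ring

theorem gc_dvd (hp : Prime p) {j : ℕ} (hj : ¬ 3 ∣ j) {m : v.R} (hm : p ∣ m) : gc j m p = 0 := by
  rw [Ab.gc_sqfree hp.squarefree hj, (Ab.cb_prime_eq_zero hp).2 hm, map_zero, zero_pow (by omega), zero_mul]

theorem gs_high (hp : Prime p) (hν : ¬ p ∣ ν) {i j : ℕ} (h : i + 2 ≤ j) : gs 2 (p ^ i * ν) (p ^ j) = 0 := by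
  obtain ⟨k, rfl⟩ := Nat.exists_eq_add_of_le h
  rw [gs_two, show i + 2 + k = i + 1 + k + 1 by ring]
  refine Ab.gc_pow_succ_zero 1 _ hp.ne_zero fun hd => hν ?_
  rw [show p ^ (i + 1 + k) = p ^ i * (p * p ^ k) by ring, mul_dvd_mul_iff_left (pow_ne_zero i hp.ne_zero)] at hd
  exact (dvd_mul_right _ _).trans hd

theorem gs_mul_conj (hp : Prime p) (hν : ¬ p ∣ ν) : gs 2 ν p * conj (gs 2 ν p) = nm p := by
  have hc : IsCoprime ν p := (hp.irreducible.coprime_iff_not_dvd.2 hν).symm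
  rw [Complex.mul_conj, Complex.normSq_eq_norm_sq, gs_two, Ab.gc_sqfree hp.squarefree (by norm_num), norm_mul,
    Ab.norm_gc hp.squarefree (by norm_num), pow_one, Complex.norm_conj, Ab.norm_cb hp.ne_zero hc, one_mul,
    Real.sq_sqrt (Ab.nm_nonneg p)]

theorem HH.prime (H : HH v K) (hK : 1 ≤ K) (hp : Prime p) (hP : Prim p) (hν : ¬ p ∣ ν) (hξ : ξ ≠ 0) :
    rho v K (p * ν) ξ = conj (gs 2 ν p) * conj (hil v ξ p) * xq p ^ 2 * rho v K ν (ξ * p) := by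
  have hp0 : (p : F) ≠ 0 := v.clsd_ne hp.ne_zero
  have h := H.one_term hK hp hP (ν := ν) (fun e => hν (e ▸ dvd_zero p)) (mul_ne_zero hξ hp0) le_rfl
    fun j h1 h2 => by simpa using gs_high hp hν (i := 0) (j := j) (by omega)
  simp only [pow_one] at h
  rw [mul_div_cancel_right₀ _ hp0, hil_mul_left hξ hp0, hil_self, mul_one] at h
  rw [h]
  have h1 := gs_mul_conj hp hν
  have h2 := hil_mul_conj (v := v) ξ p
  have h3 := xq_cube hp.ne_zero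
  generalize rho v K (p * ν) ξ = r at *
  calc r = (xq p ^ 3 * nm p) ^ 2 * (hil v ξ p * conj (hil v ξ p)) * r := by rw [h2, h3]; ring
    _ = xq p ^ 6 * nm p * (gs 2 ν p * conj (gs 2 ν p)) * (hil v ξ p * conj (hil v ξ p)) * r := by rw [h1]; ring
    _ = _ := by ring

theorem HH.prime' (H : HH v K) (hK : 1 ≤ K) (hp : Prime p) (hP : Prim p) (hν : ¬ p ∣ ν) (hξ : ξ ≠ 0) :
    rho v K (p * ν) ξ = conj (gs 2 ν p) * conj (hil v ξ p) * xq p ^ 2 * rho v K ν (ξ / p ^ 2) := by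
  have hp0 : (p : F) ≠ 0 := v.clsd_ne hp.ne_zero
  have hν0 : ν ≠ 0 := fun e => hν (e ▸ dvd_zero p)
  have h := H.one_term hK hp hP (ν := p * ν) (mul_ne_zero hp.ne_zero hν0) hξ (k := 2) (by norm_num)
    fun j h1 h2 => by
      rcases (by omega : j = 1 ∨ 3 ≤ j) with rfl | h3
      · rw [pow_one, gs_two, gc_dvd hp (by norm_num) (dvd_mul_right _ _)]
      · simpa using gs_high hp hν (i := 1) (j := j) h3
  have h1 : gs 2 (p * ν) (p ^ 2) = nm p * conj (gs 2 ν p) := by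
    have := Ab.gc_pow_succ 1 1 ν hp.ne_zero
    rw [pow_one, pow_one] at this
    rw [gs_two, gs_two, Ab.conj_gc 1 ν hp.ne_zero, this]
  rw [h, h1, show p ^ 2 * (p * ν) = p ^ 3 * ν by ring,
    H.cube_prime hK hp hν0 (div_ne_zero hξ (pow_ne_zero 2 hp0)), conj_hil]
  linear_combination (xq p ^ 3 * nm p + 1) * xq p ^ 2 * conj (gs 2 ν p) * hil v ξ p ^ 2 *
    rho v K ν (ξ / p ^ 2) * xq_cube hp.ne_zero

theorem HH.cube_right_prime (H : HH v K) (hK : 1 ≤ K) (hp : Prime p) (hP : Prim p) (hν : ¬ p ∣ ν) (hξ : ξ ≠ 0) :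
    rho v K ν (ξ * p ^ 3) = rho v K ν ξ := by
  have hp0 : (p : F) ≠ 0 := v.clsd_ne hp.ne_zero
  have h0 := mul_ne_zero hξ (pow_ne_zero 2 hp0)
  have h := (H.prime hK hp hP hν h0).symm.trans (H.prime' hK hp hP hν h0)
  rw [mul_div_cancel_right₀ _ (pow_ne_zero 2 hp0), mul_assoc ξ, ← pow_succ] at h
  refine mul_left_cancel₀ (mul_ne_zero (mul_ne_zero ?_ ?_) (pow_ne_zero 2 (xq_ne hp.ne_zero))) h
  · exact right_ne_zero_of_mul (gs_mul_conj hp hν ▸ nm_ne hp.ne_zero)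
  · exact right_ne_zero_of_mul_eq_one (hil_mul_conj _ _)

theorem HH.sq (H : HH v K) (hK : 1 ≤ K) (hp : Prime p) (hP : Prim p) (hν : ¬ p ∣ ν) (hξ : ξ ≠ 0) :
    rho v K (p ^ 2 * ν) ξ = 0 := by
  have hp0 : (p : F) ≠ 0 := v.clsd_ne hp.ne_zero
  have hν0 : p ^ 2 * ν ≠ 0 := mul_ne_zero (pow_ne_zero 2 hp.ne_zero) fun e => hν (e ▸ dvd_zero p)
  have step : ∀ ξ : F, ξ ≠ 0 → nm p * rho v K (p ^ 2 * ν) ξ = -rho v K (p ^ 2 * ν) (ξ / p ^ 3) := fun ξ hξ => by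
    have h := H.one_term hK hp hP hν0 hξ (k := 3) (by norm_num) fun j h1 h2 => by
      rcases (by omega : j = 1 ∨ j = 2 ∨ 4 ≤ j) with rfl | rfl | h3
      · rw [pow_one, gs_two, gc_dvd hp (by norm_num) ((dvd_pow_self p two_ne_zero).mul_right _)]
      · have := Ab.gc_pow_succ 1 1 (p * ν) hp.ne_zero
        rw [gc_dvd hp (by norm_num) (dvd_mul_right _ _), mul_zero, ← mul_assoc, ← pow_succ] at this
        rw [gs_two, this]
      · exact gs_high hp hν h3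
    have h1 : gs 2 (p ^ 2 * ν) (p ^ 3) = -(nm p : ℂ) ^ 2 := by
      rw [gs_two, Ab.gc_pow_succ 1 2 ν hp.ne_zero, Ab.gc_prime_three hp (by norm_num) (by norm_num), if_neg hν]
      ring
    rw [h, h1, hil_pow_three, H.cube_prime hK hp hν0 (div_ne_zero hξ (pow_ne_zero 3 hp0))]
    have h3 := xq_cube hp.ne_zero
    calc _ = -(xq p ^ 3 * nm p) ^ 4 * rho v K (p ^ 2 * ν) (ξ / p ^ 3) := by ring
      _ = _ := by rw [h3]; ring
  obtain ⟨B, hB⟩ := H.bdd hK hν0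
  have h : ∀ (j : ℕ) (ξ : F), ξ ≠ 0 → ‖rho v K (p ^ 2 * ν) ξ‖ ≤ B * (1 / 2) ^ j := fun j => by
    induction j with
    | zero => simpa using hB
    | succ j ih =>
      intro ξ hξ
      have h1 := congrArg norm (step ξ hξ)
      have h2 := ih _ (div_ne_zero hξ (pow_ne_zero 3 hp0))
      rw [norm_neg, norm_mul, Complex.norm_real, Real.norm_of_nonneg (Ab.nm_nonneg p)] at h1
      have h3 := mul_le_mul_of_nonneg_right (Ab.two_le_nm hp) (norm_nonneg (rho v K (p ^ 2 * ν) ξ))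
      rw [pow_succ (1 / 2 : ℝ)]
      linarith
  have h4 := (tendsto_pow_atTop_nhds_zero_of_lt_one (r := (1 / 2 : ℝ)) (by norm_num) (by norm_num)).const_mul B
  rw [mul_zero] at h4
  exact norm_le_zero_iff.1 (ge_of_tendsto' h4 fun j => h j ξ hξ)

/-! ### `rho 1` is a class function -/

theorem HH.one_cube_R (H : HH v K) (hK : 1 ≤ K) {z : v.R} (hz : z ≠ 0) (hξ : ξ ≠ 0) :
    rho v K 1 (ξ * z ^ 3) = rho v K 1 ξ := by
  obtain ⟨u, m, hu, hm, rfl⟩ := Ab.exists_unit_prim hz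
  have h : rho v K 1 (ξ * m ^ 3) = rho v K 1 ξ := by
    refine hm.induction (P := fun m : v.R => rho v K 1 (ξ * m ^ 3) = rho v K 1 ξ) (by simp) fun p m hp hP hm ih => ?_
    push_cast
    rw [show ξ * ((p : F) * m) ^ 3 = ξ * m ^ 3 * p ^ 3 by ring, H.cube_right_prime hK hp hP hp.not_dvd_one
      (mul_ne_zero hξ (pow_ne_zero 3 (v.clsd_ne hm.ne_zero))), ih]
  have h1 := H.unit_right hK (hu.pow 3) one_ne_zero (mul_ne_zero hξ (pow_ne_zero 3 (v.clsd_ne hm.ne_zero)))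
  push_cast at h1 ⊢
  rw [hil_pow_left (v.clsd_ne hu.ne_zero), hil_pow_three, one_mul, h] at h1
  rw [← h1]
  congr 1
  ring

theorem HH.one_cube (H : HH v K) (hK : 1 ≤ K) {z : F} (hz : z ≠ 0) (hξ : ξ ≠ 0) :
    rho v K 1 (ξ * z ^ 3) = rho v K 1 ξ := by
  obtain ⟨m, a, hm, ha⟩ := Lv.exists_nat_mul z
  have hm0 : (m : F) ≠ 0 := Nat.cast_ne_zero.2 hm.ne'
  have h1 := H.one_cube_R hK (z := (m : v.R)) (Nat.cast_ne_zero.2 hm.ne') (mul_ne_zero hξ (pow_ne_zero 3 hz))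
  have h2 := H.one_cube_R hK (z := v.up a) (fun e => mul_ne_zero hm0 hz (ha.trans (congrArg Subtype.val e))) hξ
  rw [← h1, ← h2, v.coe_up, ← ha]
  congr 1
  push_cast
  ring

/-- Hensel: `1 + M L ⊆ cubes · (1 + M^k L)` -/
theorem exists_cube {x : F} (hx : v.U x) (k : ℕ) : ∃ z : F, z ≠ 0 ∧ UK v k (x / z ^ 3) := by
  obtain ⟨e, he⟩ := v.dvd
  have he' : (v.M : F) = 72 * e := by exact_mod_cast he
  have hL : ∀ n : ℕ, (n : F) ∈ v.L := fun n => natCast_mem _ n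
  have key : ∀ i : ℕ, ∃ z : F, z ≠ 0 ∧ ∃ l ∈ v.L, x / z ^ 3 = 1 + v.M * (24 * e) ^ i * l := fun i => by
    induction i with
    | zero => obtain ⟨l, hl, h⟩ := hx; exact ⟨1, one_ne_zero, l, hl, by simpa using h⟩
    | succ i ih =>
      obtain ⟨z, hz, l, hl, h⟩ := ih
      set t : F := (24 * e) ^ i * l with ht
      have htL : t ∈ v.L := mul_mem (pow_mem (mul_mem (hL 24) (hL e)) i) hl
      have hU : v.U ((1 + 24 * e * t) ^ 3) := ⟨t + 24 * e * t ^ 2 + 192 * e ^ 2 * t ^ 3,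
        add_mem (add_mem htL (mul_mem (mul_mem (hL 24) (hL e)) (pow_mem htL 2)))
          (mul_mem (mul_mem (hL 192) (pow_mem (hL e) 2)) (pow_mem htL 3)), by rw [he']; ring⟩
      have h0 := v.U_ne_zero hU
      refine ⟨z * (1 + 24 * e * t), mul_ne_zero hz (pow_ne_zero_iff three_ne_zero |>.1 h0),
        -(l * t + 8 * e * l * t ^ 2) * ((1 + 24 * e * t) ^ 3)⁻¹, mul_mem (neg_mem (add_mem (mul_mem hl htL)
          (mul_mem (mul_mem (mul_mem (hL 8) (hL e)) hl) (pow_mem htL 2)))) (v.U_mem_L (v.U_inv hU)), ?_⟩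
      rw [mul_pow z, ← div_div, h, he', div_eq_iff h0, pow_succ (24 * (e : F)) i]
      have h1 := inv_mul_cancel₀ h0
      generalize ((1 + 24 * (e : F) * t) ^ 3)⁻¹ = y at h1 ⊢
      rw [ht] at h1 ⊢
      generalize (24 * (e : F)) ^ i = w at h1 ⊢
      linear_combination (72 * 24 * e ^ 2 * w * (l * (w * l) + 8 * e * l * (w * l) ^ 2)) * h1
  obtain ⟨z, hz, l, hl, h⟩ := key (2 * k)
  refine ⟨z, hz, v.M * (8 * e) ^ k * l, mul_mem (mul_mem (M_mem_L v) (pow_mem (mul_mem (hL 8) (hL e)) k)) hl, ?_⟩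
  rw [h, pow_mul, show (24 * (e : F)) ^ 2 = v.M * (8 * e) by rw [he']; ring, mul_pow]
  ring

theorem HH.one_cl (H : HH v K) (hK : 1 ≤ K) (hξ : ξ ≠ 0) (hξ' : ξ' ≠ 0) (h : v.cl ξ = v.cl ξ') :
    rho v K 1 ξ = rho v K 1 ξ' := by
  obtain ⟨z, u, hz, hu, rfl⟩ := (v.cl_eq_iff hξ hξ').1 h
  obtain ⟨y, hy, h⟩ := exists_cube hu K
  rw [← H.one_cube hK (mul_ne_zero (pow_ne_zero 2 hz) hy) hξ]
  refine (rho_congr hK ?_).symm
  rwa [show ξ * z ^ 6 * u / (ξ * (z ^ 2 * y) ^ 3) = u / y ^ 3 by field_simp]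

/-! ### The shape -/

theorem HH.sqfree (H : HH v K) (hK : 1 ≤ K) {m : v.R} (hm : Prim m) (hs : Squarefree m) (hξ : ξ ≠ 0) :
    rho v K m ξ = conj (gs 2 1 m) * conj (hil v ξ m) * xq m ^ 2 * rho v K 1 (ξ * m) := by
  refine hm.induction_sqfree hs (P := fun m => ∀ ξ : F, ξ ≠ 0 →
    rho v K m ξ = conj (gs 2 1 m) * conj (hil v ξ m) * xq m ^ 2 * rho v K 1 (ξ * m)) (fun ξ _ => ?_)
    (fun p m hp hP hm _ hd ih ξ hξ => ?_) ξ hξ
  · simp [Ab.gs_unit 2 (1 : v.R) isUnit_one, xq]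
  · have hp0 : (p : F) ≠ 0 := v.clsd_ne hp.ne_zero
    have hm0 : (m : F) ≠ 0 := v.clsd_ne hm.ne_zero
    have h1 := gs_tw hm.ne_zero hp.ne_zero (hp.irreducible.coprime_iff_not_dvd.2 hd).symm 1
    rw [mul_one, mul_comm m] at h1
    rw [H.prime hK hp hP hd hξ, ih _ (mul_ne_zero hξ hp0), h1, xq_mul]
    push_cast
    rw [hil_mul_left hξ hp0, hil_mul_right ξ hp0 hm0, mul_assoc ξ]
    simp only [map_mul]
    ring

theorem cube_cases {n : v.R} (hn : Prim n) : (∃ m b, Prim m ∧ Prim b ∧ Squarefree m ∧ n = m * b ^ 3) ∨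
    ∃ p r b, Prime p ∧ Prim p ∧ Prim b ∧ ¬ p ∣ r ∧ n = p ^ 2 * r * b ^ 3 := by
  induction h : Ab.nN n using Nat.strong_induction_on generalizing n with
  | _ N ih =>
  by_cases hs : Squarefree n
  · exact Or.inl ⟨n, 1, hn, Ab.prim_one, hs, by simp⟩
  rw [squarefree_iff_irreducible_sq_not_dvd_of_ne_zero hn.ne_zero] at hs
  push Not at hs
  obtain ⟨z, hz, hd⟩ := hs
  obtain ⟨p, hp, hP, ha⟩ := Ab.pra_prime_prim hz.prime
  obtain ⟨r, hr, rfl⟩ := (hP.pow 2).exists_mul hn (by rw [pow_two]; exact (ha.mul_mul ha).dvd.trans hd)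
  by_cases h1 : p ∣ r
  · obtain ⟨s, hs, rfl⟩ := hP.exists_mul hr h1
    have hlt : Ab.nN s < N := by
      rw [← h, ← mul_assoc, ← pow_succ]
      exact Ab.pra_nN_lt hp hs.ne_zero 2
    rcases ih _ hlt hs rfl with ⟨m, b, a1, a2, a3, rfl⟩ | ⟨p', r, b, a1, a2, a3, a4, rfl⟩
    · exact Or.inl ⟨m, p * b, a1, hP.mul a2, a3, by ring⟩
    · exact Or.inr ⟨p', r, p * b, a1, a2, hP.mul a3, a4, by ring⟩
  · exact Or.inr ⟨p, r, 1, hp, hP, Ab.prim_one, h1, by ring⟩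

/-- THE SHAPE of the residues -/
theorem HH.shape (H : HH v K) (hK : 1 ≤ K) {n : v.R} (hn : Prim n) (hξ : ξ ≠ 0) :
    rho v K n ξ = tau0 n * (nm n ^ (-(1 / 6) : ℝ) : ℝ) * conj (hil v ξ n) * rho v K 1 (ξ * n) := by
  by_cases h : ∃ p : v.R × v.R, Prim p.1 ∧ Prim p.2 ∧ Squarefree p.1 ∧ n = p.1 * p.2 ^ 3
  · rw [tau0, dif_pos h]
    obtain ⟨h1, h2, h3, h4⟩ := h.choose_spec
    generalize h.choose.1 = m at *
    generalize h.choose.2 = b at *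
    subst h4
    have hm0 : (m : F) ≠ 0 := v.clsd_ne h1.ne_zero
    have hb0 : (b : F) ≠ 0 := v.clsd_ne h2.ne_zero
    have hm := Ab.nm_pos h1.ne_zero
    have hb := Ab.nm_pos h2.ne_zero
    have e : √(nm m) * (nm m ^ (-(1 / 3) : ℝ)) ^ 2 = √(nm b) * nm (m * b ^ 3) ^ (-(1 / 6) : ℝ) := by
      rw [Ab.nm_mul, Ab.nm_pow, Real.mul_rpow hm.le (by positivity), Real.sqrt_eq_rpow, Real.sqrt_eq_rpow,
        ← Real.rpow_natCast, ← Real.rpow_natCast, ← Real.rpow_mul hm.le, ← Real.rpow_mul hb.le,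
        ← Real.rpow_add hm, mul_left_comm, ← Real.rpow_add hb]
      norm_num
    have e' := congrArg (fun x : ℝ => (x : ℂ)) e
    rw [H.cube_left hK h2 h1.ne_zero hξ, H.sqfree hK h1 h3 hξ, gs_two, Ab.gc_one h1.ne_zero, xq]
    push_cast at e' ⊢
    rw [← mul_assoc ξ, H.one_cube hK hb0 (mul_ne_zero hξ hm0), hil_mul_right ξ hm0 (pow_ne_zero 3 hb0),
      hil_pow_right _ hb0, hil_pow_three, mul_one, map_mul, Complex.conj_ofReal]
    linear_combination conj (g3 m) * conj (hil v ξ m) * rho v K 1 (ξ * m) * e'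
  · rw [tau0, dif_neg h, zero_mul, zero_mul, zero_mul]
    rcases cube_cases hn with ⟨m, b, h'⟩ | ⟨p, r, b, a1, a2, a3, a4, rfl⟩
    · exact absurd ⟨(m, b), h'⟩ h
    · rw [H.cube_left hK a3 (left_ne_zero_of_mul hn.ne_zero) hξ, H.sq hK a1 a2 a4 hξ]

theorem HH.shape' (H : HH v K) (hK : 1 ≤ K) {u n : v.R} (hu : IsUnit u) (hn : Prim n) (hξ : ξ ≠ 0) :
    rho v K (u * n) ξ =
      tau0 n * (nm n ^ (-(1 / 6) : ℝ) : ℝ) * conj (hil v u ξ * hil v ξ n) * rho v K 1 (ξ * n) := by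
  rw [H.unit_left hK hu hn.ne_zero hξ, H.shape hK hn hξ, map_mul]
  ring

theorem HH.norm_le (H : HH v K) (hK : 1 ≤ K) : ∃ B : ℝ, 0 ≤ B ∧ ∀ (u n : v.R) (ξ : F), IsUnit u → Prim n → ξ ≠ 0 →
    ‖rho v K (u * n) ξ‖ ≤ B * (‖tau0 n‖ * nm n ^ (-(1 / 6) : ℝ)) := by
  obtain ⟨B, hB⟩ := H.bdd hK one_ne_zero
  refine ⟨B, (norm_nonneg _).trans (hB 1 one_ne_zero), fun u n ξ hu hn hξ => ?_⟩
  have h0 : 0 ≤ nm n ^ (-(1 / 6) : ℝ) := Real.rpow_nonneg (Ab.nm_nonneg n) _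
  rw [H.shape' hK hu hn hξ, norm_mul, norm_mul, norm_mul, Complex.norm_conj, norm_mul, norm_hil, norm_hil,
    Complex.norm_real, Real.norm_of_nonneg h0, mul_one, mul_one, mul_comm]
  exact mul_le_mul_of_nonneg_right (hB _ (mul_ne_zero hξ (v.clsd_ne hn.ne_zero))) (by positivity)

/-- if `rho 1` vanishes identically, then all residues vanish -/
theorem HH.exists_one (H : HH v K) (hK : 1 ≤ K) (hν : ν ≠ 0) (hξ : ξ ≠ 0) (h : rho v K ν ξ ≠ 0) :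
    ∃ ξ₀ : F, ξ₀ ≠ 0 ∧ rho v K 1 ξ₀ ≠ 0 := by
  obtain ⟨u, n, hu, hn, rfl⟩ := Ab.exists_unit_prim hν
  rw [H.shape' hK hu hn hξ] at h
  exact ⟨_, mul_ne_zero hξ (v.clsd_ne hn.ne_zero), right_ne_zero_of_mul h⟩

end Crest.Agent.R27.TH
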