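import Crest.Agent.R27.TH.Lvl
import Crest.Agent.R27.TH.CntE

/-! Row 27, block THETA / SF (helper79): factorisation of the complete sums `SS`. -/

set_option autoImplicit false
set_option linter.unusedSectionVars false

namespace Crest.Agent.R27.TH

open Crest.NumberTheoryR.EisensteinField Crest.Agent.R27.G Filter Finset
open scoped NumberField Classical Topology ComplexConjugate

variable {F : Type} [Field F] [NumberField F] [Algebra K3 F] {v : Lv F}

theorem sf_out {q : ℕ} (x : F) : ∃ a : 𝓞 F, (QuotientAddGroup.mk x : F ⧸ Lat F q).out = x + q * a := by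
  obtain ⟨⟨_, a, rfl⟩, h⟩ := QuotientAddGroup.mk_out_eq_add (Lat F q) x
  exact ⟨a, h⟩

theorem sf_mk {q : ℕ} {x y : F} :
    (QuotientAddGroup.mk x : F ⧸ Lat F q) = QuotientAddGroup.mk y ↔ ∃ a : 𝓞 F, y = x + q * a := by
  rw [QuotientAddGroup.eq]
  exact exists_congr fun a => ⟨fun h => by linear_combination h, fun h => by linear_combination h⟩

theorem sf_LK (j : ℕ) (a : 𝓞 F) : LK v j (((v.M ^ j : ℕ) : F) * a) := ⟨a, v.coe_mem_L a, by push_cast; rfl⟩

theorem sf_R (q : ℕ) (a : 𝓞 F) : (q : F) * a ∈ v.R := mul_mem (natCast_mem _ _) (v.coe_mem_R a)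

theorem sf_dvd {x c : v.R} (hc : c ≠ 0) : c ∣ x ↔ (x : F) / c ∈ v.R := by
  have hc' : (c : F) ≠ 0 := fun e => hc (Subtype.ext e)
  constructor
  · rintro ⟨y, rfl⟩
    rw [MulMemClass.coe_mul, mul_div_cancel_left₀ _ hc']
    exact y.2
  · exact fun h => ⟨⟨_, h⟩, Subtype.ext (by simp only [MulMemClass.coe_mul]; field_simp)⟩

theorem sf_card [Md v] (k j : ℕ) {c : v.R} (hc : c ≠ 0) (hD : DK v k c) :
    ∃ A : Finset (F ⧸ Lat F (v.M ^ j)), (A.card : ℝ) ≤ an ((v.M : F) ^ (k + j)) * ns v c ∧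
      ∀ t : F ⧸ Lat F (v.M ^ j), t.out ∈ v.R → DK v k (c * t.out) → t ∈ A := by
  have hc' : (c : F) ≠ 0 := fun e => hc (Subtype.ext e)
  obtain ⟨a, ha⟩ := hD.inter c.2
  have ha0 : (a : F) ≠ 0 := ha ▸ mul_ne_zero (pow_ne_zero _ v.M_ne) hc'
  have hb : a * (v.M : 𝓞 F) ^ j ≠ 0 := mul_ne_zero (fun h => ha0 (by simp [h])) (pow_ne_zero _ v.M_ne')
  have hup : v.up (a * (v.M : 𝓞 F) ^ j) = (v.M : v.R) ^ (k + j) * c := Subtype.ext (by
    simp only [Lv.coe_up, map_mul, map_pow, map_natCast, MulMemClass.coe_mul, SubmonoidClass.coe_pow,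
      SubringClass.coe_natCast]
    rw [← ha]
    ring)
  have hass : Associated (v.up (a * (v.M : 𝓞 F) ^ j)) c := by
    rw [hup]
    exact associated_unit_mul_left _ _ (v.isUnit_M.pow _)
  have := Ideal.finiteQuotientOfFreeOfNeBot (Ideal.span {a * (v.M : 𝓞 F) ^ j})
    fun h => hb (Ideal.span_singleton_eq_bot.1 h)
  have := Fintype.ofFinite (𝓞 F ⧸ Ideal.span {a * (v.M : 𝓞 F) ^ j})
  have hp : Ab.Per c fun _ => (1 : ℂ) := fun _ _ _ => rfl
  have h1 := sum_quot_int v hb (f := fun y => if c ∣ y - 0 then 1 else 0) (fun y y' h => by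
    have := hass.symm.dvd.trans h
    exact if_congr (by rw [sub_zero, sub_zero, ← dvd_add_left this.neg_right]; simp) rfl rfl)
  rw [Ab.rsum_assoc hass, Ab.rsum_ite hc hp, Ab.nm_assoc hass, finsum_eq_sum_of_fintype, sum_boole,
    mul_one, nm_eq hc] at h1
  refine ⟨(univ.filter fun x : 𝓞 F ⧸ Ideal.span {a * (v.M : 𝓞 F) ^ j} => c ∣ v.up x.out - 0).image
    fun x => QuotientAddGroup.mk (((x.out : 𝓞 F) : F) / a), ?_, fun t ht hd => ?_⟩
  · refine (Nat.cast_le.2 card_image_le).trans (le_of_eq ?_)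
    have h2 : (0 : ℝ) < v.N c := nm_eq hc ▸ Ab.nm_pos hc
    apply mul_left_cancel₀ h2.ne'
    have h3 : ((a * (v.M : 𝓞 F) ^ j : 𝓞 F) : F) = (v.M : F) ^ (k + j) * c := by
      have := congrArg (fun x : v.R => (x : F)) hup
      simpa using this
    rw [h3, an_mul, ns_coe hc] at h1
    have h4 := Complex.ofReal_injective (a₁ := v.N c * ((univ.filter
      fun x : 𝓞 F ⧸ Ideal.span {a * (v.M : 𝓞 F) ^ j} => c ∣ v.up x.out - 0).card : ℝ)) (by push_cast; exact h1)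
    rw [h4]
    ring
  · obtain ⟨d, hd'⟩ := hd.inter (mul_mem c.2 ht)
    obtain ⟨z, hz⟩ : a * (v.M : 𝓞 F) ^ j ∣ d - (Ideal.Quotient.mk (Ideal.span {a * (v.M : 𝓞 F) ^ j}) d).out := by
      rw [← Ideal.mem_span_singleton, ← Ideal.Quotient.eq, Ideal.Quotient.mk_out]
    refine mem_image.2 ⟨Ideal.Quotient.mk _ d, mem_filter.2 ⟨mem_univ _, ?_⟩, ?_⟩
    · rw [sub_zero, show (Ideal.Quotient.mk (Ideal.span {a * (v.M : 𝓞 F) ^ j}) d).out =
        d - a * (v.M : 𝓞 F) ^ j * z by linear_combination -hz, Lv.up, map_sub,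
        map_mul _ _ z]
      refine dvd_sub ⟨(v.M : v.R) ^ k * ⟨_, ht⟩, Subtype.ext ?_⟩ (hass.symm.dvd.mul_right _)
      simp only [Lv.coe_up, MulMemClass.coe_mul, SubmonoidClass.coe_pow, SubringClass.coe_natCast]
      rw [← hd']
      ring
    · rw [← QuotientAddGroup.out_eq' t, sf_mk]
      refine ⟨z, ?_⟩
      have h5 := congrArg (fun x : 𝓞 F => (x : F)) hz
      simp only [map_sub, map_mul, map_pow, map_natCast] at h5
      rw [← NumberField.RingOfIntegers.coe_eq_algebraMap, ← NumberField.RingOfIntegers.coe_eq_algebraMap,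
        ← NumberField.RingOfIntegers.coe_eq_algebraMap, ← NumberField.RingOfIntegers.coe_eq_algebraMap] at h5
      push_cast
      field_simp
      linear_combination hd' - t.out * ha + h5

theorem sf_fin [Md v] (k j : ℕ) : ∃ A : Finset (F ⧸ Lat F (v.M ^ j)),
    ∀ t : F ⧸ Lat F (v.M ^ j), t.out ∈ v.R → DK v k t.out → t ∈ A := by
  obtain ⟨A, -, h⟩ := sf_card k j (c := (1 : v.R)) one_ne_zero (DK_of_L (one_mem _))
  exact ⟨A, fun t h1 h2 => h t h1 (by simpa using h2)⟩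

theorem hat_eq_sum {q : ℕ} {h : F → ℂ} {A : Finset (F ⧸ Lat F q)}
    (hA : ∀ t : F ⧸ Lat F q, t.out ∈ v.R → h t.out ≠ 0 → t ∈ A) (ν : F) :
    hat v q h ν = ∑ t ∈ A.filter fun t => t.out ∈ v.R, h t.out * eT (ν * t.out) := by
  rw [hat, finsum_eq_sum_of_support_subset _ (s := A), sum_filter]
  intro t ht
  by_contra hn
  refine ht ?_
  simp only
  split_ifs with h1
  · rw [not_not.1 fun h2 => hn (hA t h1 h2), zero_mul]
  · rfl

theorem norm_hat_le {q : ℕ} {h : F → ℂ} {A : Finset (F ⧸ Lat F q)}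
    (hA : ∀ t : F ⧸ Lat F q, t.out ∈ v.R → h t.out ≠ 0 → t ∈ A) {B : ℝ} (hB : ∀ t, ‖h t‖ ≤ B) (ν : F) :
    ‖hat v q h ν‖ ≤ A.card * B := by
  rw [hat_eq_sum hA]
  refine (norm_sum_le _ _).trans ((sum_le_card_nsmul _ _ B fun t _ => ?_).trans ?_)
  · rw [norm_mul, norm_eT, mul_one]
    exact hB _
  · rw [nsmul_eq_mul]
    exact mul_le_mul_of_nonneg_right (Nat.cast_le.2 (card_filter_le _ _)) ((norm_nonneg _).trans (hB 0))

theorem sf_crt [Md v] {j : ℕ} {ν c : v.R} (hc : c ≠ 0) (hν : Dl (v.M ^ j) (ν : F)) {h : F → ℂ}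
    (hper : ∀ t t', LK v j (t' - t) → h t' = h t) {A : Finset (F ⧸ Lat F (v.M ^ j))}
    (hA : ∀ t : F ⧸ Lat F (v.M ^ j), t.out ∈ v.R → h t.out ≠ 0 → t ∈ A) :
    ∑ᶠ t : F ⧸ Lat F (v.M ^ j), cbF v (c * t.out) c * h t.out * eT (ν * t.out) =
      Ab.gs 2 ν c * hat v (v.M ^ j) h ν := by
  have hc' : (c : F) ≠ 0 := fun e => hc (Subtype.ext e)
  choose a ha1 ha2 using fun y : v.R => approxL' j hc' hc y
  have hG : ∀ (r : F) (hr : r ∈ v.R) (y : v.R), cbF v (c * (r + a y / c)) c * h (r + a y / c) *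
      eT (ν * (r + a y / c)) = Ab.sx y c ^ 2 * Ab.eQ (ν * y) c * (h r * eT (ν * r)) := by
    intro r hr y
    have e1 : (c : F) * (r + a y / c) = ((c * ⟨r, hr⟩ + a y : v.R) : F) := by
      simp only [AddMemClass.coe_add, MulMemClass.coe_mul]
      field_simp
    have e2 : Ab.eQ (ν * y) c = eT ((ν : F) * ((a y : F) / c)) := by
      rw [← hν.psi_eq (ha2 y), Ab.eQ_congr (y' := ν * a y) (by
        rw [← mul_sub]; exact (dvd_sub_comm.1 (ha1 y)).mul_left _), Md.eQ_eq, MulMemClass.coe_mul, mul_div_assoc]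
    rw [e1, cbF_eq, Ab.cb_congr (v := y) (by rw [add_sub_assoc]; exact (dvd_mul_right _ _).add (ha1 y)),
      hper r _ (by simpa using ha2 y), mul_add, eT_add, e2, Ab.cb]
    ring
  let Ψ : v.R × (F ⧸ Lat F (v.M ^ j)) → F ⧸ Lat F (v.M ^ j) := fun p =>
    QuotientAddGroup.mk (p.2.out + a p.1 / c)
  rw [hat_eq_sum hA, Ab.gs, Ab.FT, Ab.rsum_eq_sum hc, sum_mul_sum, ← sum_product',
    finsum_eq_sum_of_support_subset _ (s := (Ab.res c ×ˢ A.filter fun t => t.out ∈ v.R).image Ψ), sum_image]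
  · refine sum_congr rfl fun p hp => ?_
    have hr := (mem_filter.1 (mem_product.1 hp).2).2
    obtain ⟨z, hz⟩ := sf_out (q := v.M ^ j) (p.2.out + a p.1 / c)
    have e : (Ψ p).out = (p.2.out + ((v.M ^ j : ℕ) : F) * z) + a p.1 / c := by rw [hz]; ring
    rw [e, hG _ (add_mem hr (sf_R _ z)), hper p.2.out _ (by simpa using sf_LK j z), mul_add, eT_add, hν z, mul_one]
  · rintro ⟨y, t⟩ hp ⟨y', t'⟩ hp' hh
    obtain ⟨hy, ht⟩ := mem_product.1 (mem_coe.1 hp)
    obtain ⟨hy', ht'⟩ := mem_product.1 (mem_coe.1 hp')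
    obtain ⟨z, hz⟩ := sf_mk.1 hh
    simp only at hz hy hy' ht ht'
    have h1 : c ∣ a y - a y' := by
      rw [sf_dvd hc, AddSubgroupClass.coe_sub, show ((a y : F) - a y') / c =
        t'.out - t.out - ((v.M ^ j : ℕ) : F) * z by rw [sub_div]; linear_combination -hz]
      exact sub_mem (sub_mem (mem_filter.1 ht').2 (mem_filter.1 ht).2) (sf_R _ z)
    obtain rfl : y = y' := Ab.res_inj hy hy' (by
      have := (h1.sub (ha1 y)).add (ha1 y')
      rwa [show a y - a y' - (a y - y) + (a y' - y') = y - y' by ring] at this)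
    refine Prod.ext rfl ?_
    rw [← QuotientAddGroup.out_eq' t, ← QuotientAddGroup.out_eq' t', sf_mk]
    exact ⟨z, by linear_combination hz⟩
  · intro t ht
    have h1 : (c : F) * t.out ∈ v.R := by
      by_contra hn
      exact ht (by simp only; rw [cbF_eq_zero fun h => hn h.1, zero_mul, zero_mul])
    have h2 : h t.out ≠ 0 := right_ne_zero_of_mul (left_ne_zero_of_mul ht)
    obtain ⟨y, hy, hd⟩ := Ab.exists_res hc ⟨_, h1⟩
    have h3 : t.out - a y / c ∈ v.R := by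
      have := (sf_dvd hc).1 (hd.sub (ha1 y))
      rwa [show (⟨_, h1⟩ : v.R) - y - (a y - y) = ⟨_, h1⟩ - a y by ring, AddSubgroupClass.coe_sub, sub_div,
        mul_div_cancel_left₀ _ hc'] at this
    obtain ⟨z, hz⟩ := sf_out (q := v.M ^ j) (t.out - a y / c)
    have h4 : (QuotientAddGroup.mk (t.out - a y / c) : F ⧸ Lat F (v.M ^ j)).out ∈ v.R :=
      hz ▸ add_mem h3 (sf_R _ z)
    refine mem_coe.2 (mem_image.2 ⟨(y, QuotientAddGroup.mk (t.out - a y / c)),
      mem_product.2 ⟨hy, mem_filter.2 ⟨hA _ h4 ?_, h4⟩⟩, ?_⟩)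
    · rw [hz, hper t.out _ (by
        rw [show t.out - a y / c + ((v.M ^ j : ℕ) : F) * z - t.out = ((v.M ^ j : ℕ) : F) * z - a y / c by ring]
        exact (sf_LK j z).sub (ha2 y))]
      exact h2
    · conv_rhs => rw [← QuotientAddGroup.out_eq' t]
      refine sf_mk.2 ⟨-z, ?_⟩
      simp only [hz, map_neg]
      push_cast
      ring

theorem GF_coe [Md v] (ν c : v.R) : GF v ν c = Ab.gs 2 ν c := dif_pos c.2

/-- `ω (c, c t) = (c t / c)₃ h t` -/
theorem SS_of_form [Md v] {j : ℕ} {ν : v.R} {c : F} (hc : c ≠ 0) (hν : Dl (v.M ^ j) (ν : F)) {ω : F × F → ℂ}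
    {h : F → ℂ} (hω : ∀ t, ω (c, c * t) = cbF v (c * t) c * h t)
    (hper : ∀ t t', LK v j (t' - t) → h t' = h t) {A : Finset (F ⧸ Lat F (v.M ^ j))}
    (hA : ∀ t : F ⧸ Lat F (v.M ^ j), t.out ∈ v.R → h t.out ≠ 0 → t ∈ A) :
    SS (v.M ^ j) ω ν c = GF v ν c * hat v (v.M ^ j) h ν := by
  rw [SS, if_neg hc]
  simp only [hω]
  by_cases hR : c ∈ v.R
  · exact (sf_crt (c := ⟨c, hR⟩) (fun e => hc (congrArg Subtype.val e)) hν hper hA).trans
      (by rw [← GF_coe])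
  · have : ∀ x, cbF v x c = 0 := fun x => cbF_eq_zero fun h => hR h.2
    simp [this, GF, hR]

theorem SS_bch [Md v] {K j : ℕ} (hK : 1 ≤ K) (ξ : F) {h : F → ℂ} (hh : Sch v j h) {ν : v.R}
    (hν : Dl (v.M ^ j) (ν : F)) (c : F) :
    SS (v.M ^ j) (bch v K ξ h) ν c = if UK v K (c / ξ) then GF v ν c * hat v (v.M ^ j) h ν else 0 := by
  split_ifs with hc
  · have hc0 := hc.ne_left hK
    obtain ⟨A, hA⟩ := sf_fin (v := v) j j
    refine SS_of_form hc0 hν (fun t => ?_) hh.per (A := A) fun t h1 h2 => hA t h1 (hh.supp _ h2)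
    rw [bch, if_pos hc, mul_div_cancel_left₀ _ hc0]
  · simp [SS, bch, hc]

end Crest.Agent.R27.TH
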