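import Crest.Agent.R27.TH.Defs

/-! Row 27, block TH/SPACE (owner helper53): the action on `(H³)^r`. -/

set_option autoImplicit false

namespace Crest.Agent.R27.TH

open Crest.Agent.R17.D (Qf QX QX_inj continuous_QX good_SL Qf_pos Qf_nonneg)
open Crest.NumberTheoryR.EisensteinField Crest.Agent.R27.G MeasureTheory Filter Set
open scoped NumberField ComplexConjugate Classical Real Topology MatrixGroups ENNReal

noncomputable section

/-- scaling of the coordinates -/
theorem map_mul_pi {ι : Type} [Fintype ι] {a : ι → ℂ} (ha : ∀ i, a i ≠ 0) :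
    (volume : Measure (ι → ℂ)).map (fun z i => a i * z i) =
      ENNReal.ofReal (∏ i, ‖a i‖ ^ 2)⁻¹ • volume := by
  let f : (ι → ℂ) →ₗ[ℝ] (ι → ℂ) := LinearMap.pi fun i => (Algebra.lmul ℝ ℂ (a i)).comp (LinearMap.proj i)
  have hd : LinearMap.det f = ∏ i, ‖a i‖ ^ 2 := by
    rw [LinearMap.det_pi]
    refine Finset.prod_congr rfl fun i _ => ?_
    rw [← Algebra.norm_apply, Algebra.norm_complex_apply, Complex.sq_norm]
  have hp : 0 < ∏ i, ‖a i‖ ^ 2 := Finset.prod_pos fun i _ => pow_pos (norm_pos_iff.2 (ha i)) 2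
  have := Measure.map_linearMap_addHaar_eq_smul_addHaar (volume : Measure (ι → ℂ)) (f := f) (hd ▸ hp.ne')
  rw [hd, abs_of_pos (inv_pos.2 hp)] at this
  exact this

theorem lintegral_mul_pi {ι : Type} [Fintype ι] {a : ι → ℂ} (ha : ∀ i, a i ≠ 0) {f : (ι → ℂ) → ℝ≥0∞}
    (hf : Measurable f) : ∫⁻ z : ι → ℂ, f (fun i => a i * z i) =
      ENNReal.ofReal (∏ i, ‖a i‖ ^ 2)⁻¹ * ∫⁻ z, f z := by
  rw [← lintegral_map hf (by fun_prop), map_mul_pi ha, lintegral_smul_measure, smul_eq_mul]

variable {F : Type} [Field F] [NumberField F] [Algebra K3 F]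

/-- from the coordinates `(u, ℓ)`, `z = e^ℓ u` -/
def sc (w : X F) : X F := (fun i => (Real.exp (w.2 i) : ℂ) * w.1 i, w.2)

theorem measurable_sc : Measurable (sc : X F → X F) := by
  unfold sc
  fun_prop

theorem prod_exp_sq (l : Pl F → ℝ) : (∏ i, ‖(Real.exp (l i) : ℂ)‖ ^ 2)⁻¹ = Real.exp (-(2 * ∑ i, l i)) := by
  rw [Real.exp_neg, Finset.mul_sum, Real.exp_sum]
  congr 1
  refine Finset.prod_congr rfl fun i _ => ?_
  rw [Complex.norm_real, Real.norm_of_nonneg (Real.exp_pos _).le, ← Real.exp_nat_mul]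
  norm_num

theorem mp_sc : MeasurePreserving (sc : X F → X F) volume mu := by
  refine ⟨measurable_sc, Measure.ext fun s hs => ?_⟩
  have hd : Measurable fun w : X F => ENNReal.ofReal (Real.exp (-(2 * ∑ i, w.2 i))) := by fun_prop
  have hi : Measurable (s.indicator (1 : X F → ℝ≥0∞)) := measurable_one.indicator hs
  rw [← lintegral_indicator_one hs, ← lintegral_indicator_one hs, lintegral_map hi measurable_sc, mu,
    lintegral_withDensity_eq_lintegral_mul _ hd hi, Measure.volume_eq_prod,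
    lintegral_prod_symm _ (hi.fun_comp measurable_sc).aemeasurable, lintegral_prod_symm _ (hd.mul hi).aemeasurable]
  refine lintegral_congr fun l => ?_
  have h1 := lintegral_mul_pi (a := fun i => (Real.exp (l i) : ℂ))
    (fun i => Complex.ofReal_ne_zero.2 (Real.exp_pos _).ne') (f := fun z => s.indicator 1 (z, l))
    (hi.comp measurable_prodMk_right)
  rw [prod_exp_sq] at h1
  simp only [Pi.mul_apply]
  rw [lintegral_const_mul _ (hi.fun_comp measurable_prodMk_right)]
  exact h1

theorem em_det (g : SL(2, F)) (i : Pl F) :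
    em (g 0 0) i * em (g 1 1) i - em (g 0 1) i * em (g 1 0) i = 1 := by
  have h := g.det_coe
  rw [Matrix.det_fin_two] at h
  simp only [em]
  rw [← map_mul, ← map_mul, ← map_sub, h, map_one]

theorem Qf_mob {a b c d : ℂ} (h : a * d - b * c = 1) (z : ℂ) {v : ℝ} (hv : 0 < v) (x y : ℂ) :
    Qf (((a * z + b) * conj (c * z + d) + a * conj c * (v : ℂ) ^ 2) / ((v * Qf z v c d : ℝ) : ℂ))
      (Qf z v c d)⁻¹ x y = Qf z v (x * a + y * c) (x * b + y * d) := by
  have hQ : 0 < Qf z v c d := Qf_pos z hv (by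
    by_contra hh
    push Not at hh
    simp [hh.1, hh.2] at h)
  have hD : ((c * z + d) * conj (c * z + d) + c * conj c * (v : ℂ) ^ 2) = ((v * Qf z v c d : ℝ) : ℂ) := by
    rw [Qf, mul_div_cancel₀ _ hv.ne', Complex.mul_conj', Complex.mul_conj']
    push_cast
    ring
  have hv' : (v : ℂ) ≠ 0 := Complex.ofReal_ne_zero.2 hv.ne'
  have hQ' : ((Qf z v c d : ℝ) : ℂ) ≠ 0 := Complex.ofReal_ne_zero.2 hQ.ne'
  have hc : conj a * conj d - conj b * conj c = 1 := by
    rw [← map_mul, ← map_mul, ← map_sub, h, map_one]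
  generalize Qf z v c d = Q at hQ hD hQ' ⊢
  apply Complex.ofReal_injective
  simp only [Qf]
  push_cast at hD ⊢
  simp only [← Complex.mul_conj', map_add, map_mul, map_div₀, map_pow, Complex.conj_conj,
    Complex.conj_ofReal] at hD ⊢
  field_simp
  rw [← hD]
  linear_combination (-(x * conj x * (v : ℂ) ^ 2 * (conj a * conj d - conj b * conj c))) * h +
    (-(x * conj x * (v : ℂ) ^ 2)) * hc

theorem row_ne (g : SL(2, F)) (i : Pl F) : em (g 1 0) i ≠ 0 ∨ em (g 1 1) i ≠ 0 := by
  by_contra hh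
  push Not at hh
  simpa [hh.1, hh.2] using em_det g i

theorem Qi_row_pos (g : SL(2, F)) (w : X F) (i : Pl F) : 0 < Qi w (g 1 0, g 1 1) i :=
  Qf_pos _ (Real.exp_pos _) (row_ne g i)

/-- the complex-valued version of `Qi_act` -/
theorem Qf_act (g : SL(2, F)) (w : X F) (i : Pl F) (x y : ℂ) :
    Qf ((act g w).1 i) (Real.exp ((act g w).2 i)) x y =
      Qf (w.1 i) (Real.exp (w.2 i)) (x * em (g 0 0) i + y * em (g 1 0) i) (x * em (g 0 1) i + y * em (g 1 1) i) := by
  have e : Real.exp ((act g w).2 i) = (Qi w (g 1 0, g 1 1) i)⁻¹ := by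
    simp only [act, Real.exp_neg, Real.exp_log (Qi_row_pos g w i)]
  rw [e]
  exact Qf_mob (em_det g i) (w.1 i) (Real.exp_pos (w.2 i)) x y

theorem Qi_act (g : SL(2, F)) (w : X F) (r : F × F) (i : Pl F) : Qi (act g w) r i = Qi w (rm r g) i := by
  rw [Qi, Qf_act]
  simp only [Qi, rm, em, map_add, map_mul]

theorem NQ_act (g : SL(2, F)) (w : X F) (r : F × F) : NQ (act g w) r = NQ w (rm r g) := by
  simp only [NQ, Qi_act]

theorem lQ_act (g : SL(2, F)) (w : X F) (r : F × F) : lQ (act g w) r = lQ w (rm r g) := by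
  funext i
  simp only [lQ, Qi_act]

omit [NumberField F] [Algebra K3 F] in
theorem rm_one (r : F × F) : rm r 1 = r := by simp [rm]

omit [NumberField F] [Algebra K3 F] in
theorem rm_mul (r : F × F) (g g' : SL(2, F)) : rm r (g * g') = rm (rm r g) g' := by
  simp only [rm, Matrix.SpecialLinearGroup.coe_mul, Matrix.mul_apply, Fin.sum_univ_two, Prod.mk.injEq]
  constructor <;> ring

theorem Qf_inj {z z' : ℂ} {l l' : ℝ} (h : ∀ x y, Qf z (Real.exp l) x y = Qf z' (Real.exp l') x y) :
    z = z' ∧ l = l' := by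
  have h0 : ∀ t : ℝ, (Real.exp t : ℂ) ≠ 0 := fun t => Complex.ofReal_ne_zero.2 (Real.exp_pos t).ne'
  have := QX_inj (w := (z / Real.exp l, l)) (w' := (z' / Real.exp l', l')) fun x y => by
    simp only [QX, div_mul_cancel₀ _ (h0 _), h]
  obtain ⟨h1, rfl⟩ := Prod.mk.inj this
  exact ⟨(div_left_inj' (h0 l)).1 h1, rfl⟩

theorem X_ext {w w' : X F} (h : ∀ i x y, Qf (w.1 i) (Real.exp (w.2 i)) x y = Qf (w'.1 i) (Real.exp (w'.2 i)) x y) :
    w = w' := Prod.ext (funext fun i => (Qf_inj (h i)).1) (funext fun i => (Qf_inj (h i)).2)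

theorem act_one (w : X F) : act 1 w = w := X_ext fun i x y => by simp [Qf_act, em]

theorem act_mul (g g' : SL(2, F)) (w : X F) : act (g * g') w = act g (act g' w) := X_ext fun i x y => by
  simp only [Qf_act, em, Matrix.SpecialLinearGroup.coe_mul, Matrix.mul_apply, Fin.sum_univ_two, map_add, map_mul]
  congr 1 <;> ring

theorem continuous_Qi (r : F × F) (i : Pl F) : Continuous fun w : X F => Qi w r i := by
  unfold Qi Qf
  exact Continuous.div (by fun_prop) (by fun_prop) fun w => (Real.exp_pos _).ne'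

theorem continuous_act (g : SL(2, F)) : Continuous (act g : X F → X F) := by
  refine Continuous.prodMk (continuous_pi fun i => ?_) (continuous_pi fun i => ?_)
  · have := continuous_Qi (g 1 0, g 1 1) i
    refine Continuous.div (by fun_prop) (by fun_prop) fun w => Complex.ofReal_ne_zero.2 ?_
    exact (mul_pos (Real.exp_pos _) (Qi_row_pos g w i)).ne'
  · exact ((continuous_Qi _ i).log fun w => (Qi_row_pos g w i).ne').neg

theorem act_mp (g : SL(2, F)) : MeasurePreserving (act g : X F → X F) mu mu := by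
  choose σ h1 h2 using fun i => good_SL (em_det g i)
  have e := volume_measurePreserving_arrowProdEquivProdArrow ℂ ℝ (Pl F)
  have hp : MeasurePreserving (fun (w : Pl F → ℂ × ℝ) i => σ i (w i)) volume volume := measurePreserving_pi _ _ h1
  have h3 := (mp_sc (F := F)).comp e
  have h4 := h3.comp hp
  refine ⟨(continuous_act g).measurable, ?_⟩
  rw [← h3.map_eq, Measure.map_map (continuous_act g).measurable h3.measurable, h3.map_eq, ← h4.map_eq]
  congr 1
  funext w
  refine X_ext fun i x y => ?_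
  have := h2 i (w i) x y
  simp only [Function.comp_apply, Qf_act]
  simp only [QX, mul_comm (w i).1, mul_comm (σ i (w i)).1] at this
  exact this.symm

end

end Crest.Agent.R27.TH
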