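import Crest.Agent.R27.TH.HH
import Crest.Agent.R27.TH.Dw
import Crest.Agent.R27.TH.BrDefs

/-! Row 27, THETA (helper14): the theta series of the big cell weights and their reflections. -/

set_option autoImplicit false
set_option linter.unusedSectionVars false

namespace Crest.Agent.R27.TH

open Crest.NumberTheoryR.EisensteinField Crest.Agent.R27.G Filter
open scoped NumberField Classical Topology ComplexConjugate MatrixGroups

variable {F : Type} [Field F] [NumberField F] [Algebra K3 F]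

theorem Th_smul (a τ₀ : ℂ) (τ : F → ℂ) (w : X F) : Th (a * τ₀) (fun ν => τ ν * a) w = a * Th τ₀ τ w := by
  rw [Th, Th, mul_add, mul_assoc, ← tsum_mul_left]
  congr 1
  exact tsum_congr fun ν => by ring

theorem IsTh.level {V V' : Subgroup (𝓞 F)ˣ} [V'.FiniteIndex] {η η' : (Pl F → ℝ) → ℝ} {ω : F × F → ℂ} {q : ℕ}
    {τ₀ : ℂ} {τ : F → ℂ} (h : IsTh η ω τ₀ τ) (hη : Pou V η) (hη' : Pou V' η') (hV : V' ≤ V) (hω : Fc V q ω) :
    IsTh η' ω (V'.relIndex V * τ₀) fun ν => τ ν * V'.relIndex V :=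
  ⟨h.1.mul fun _ => le_rfl, (h.2.smul (V'.relIndex V)).congr fun Y w => by
    rw [EN_level hη hη' hV hω.adm hω.inv, Th_smul, mul_sub]⟩

variable {v : Lv F} [Md v]

theorem hil_U1 {u : v.R} (hu : Ab.U1 u) {x : F} (hx : x ≠ 0) : hil v u x = 1 := by
  obtain ⟨c, hc, hU, -⟩ := exists_RU v hx
  rw [← hil_congr_right _ hU, ← cb_unit hu.1 hc, Ab.cb, hu.2 c hc, one_pow]

theorem cbF_col {g : SL(2, F)} (hg : InR v g) (hc : g 1 0 ≠ 0) : cbF v (g 0 0) (g 1 0) ≠ 0 := by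
  refine cbF_ne_zero.2 ⟨hc, ⟨_, hg 0 0⟩, ⟨_, hg 1 0⟩, ⟨⟨_, hg 1 1⟩, -⟨_, hg 0 1⟩, Subtype.ext ?_⟩, rfl⟩
  have := g.det_coe
  rw [Matrix.det_fin_two] at this
  simp only [AddMemClass.coe_add, MulMemClass.coe_mul, NegMemClass.coe_neg, OneMemClass.coe_one]
  linear_combination this

theorem dua_zero (m : ℕ) : Dua v m fun _ => 0 :=
  ⟨⟨rfl, ⟨0, by simp⟩, 1, one_pos, by simp⟩, ⟨0, by simp⟩, by simp, 0, by simp⟩

/-- the primal series -/
theorem exists_prm {y : v.R} (hy : Ab.Prim y) {η : (Pl F → ℝ) → ℝ} (hη : Pou (VK v 2) η) :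
    ∃ (ξ : F) (j : ℕ) (h : F → ℂ) (τ₀ : ℂ) (τ : F → ℂ), ξ ≠ 0 ∧ Sch v j h ∧ Prm v 2 y τ ∧
      IsTh η (bch v 2 ξ h) τ₀ τ := by
  obtain ⟨ξ₀, h0, h1⟩ := exists_rho v
  have hy' : (y : F) ≠ 0 := fun e => hy.ne_zero (Subtype.ext e)
  have hξ := div_ne_zero h0 hy'
  have H : HH v 2 := hh one_le_two
  obtain ⟨j, h, m, hm, hh, h2, h3⟩ := exists_loc (v := v) 2 hy'
  obtain ⟨c, c₀, hc, -, H'⟩ := exists_isTh (F := F) (pow_pos v.pos j)
  obtain ⟨B, hB, h4⟩ := H.norm_le one_le_two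
  set x : ℝ := ns v (ξ₀ / y) ^ (-(4 / 3) : ℝ)
  have hx : 0 < x := Real.rpow_pos_of_pos (ns_pos hξ) _
  obtain ⟨τ₀, h5, -⟩ := H' _ η (bch v 2 (ξ₀ / y) h)
    (fun ν => if e : ν ∈ v.R then hat v (v.M ^ j) h ν * (x * rho v 2 ⟨ν, e⟩ (ξ₀ / y)) else 0) (‖m‖ * (x * B)) hη
    (fc_bch one_le_two hξ hh) (good_bch one_le_two le_rfl hη hξ hh).cau fun ν h0 hν => by
      obtain ⟨ν, rfl⟩ : ∃ ν' : v.R, ν = ν' := ⟨⟨ν, hν.mem_R.1⟩, rfl⟩
      have h6 : ν ≠ 0 := fun e => h0 (congrArg Subtype.val e)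
      rw [dif_pos ν.2, co_bch one_le_two _ hh hν]
      refine ⟨((hasT_cls' one_le_two hη ν hξ _).2 (H.ht h6 hξ)).smul _, ?_⟩
      obtain ⟨u, n, hu, hn, rfl⟩ := exists_un h6
      rw [norm_mul, norm_mul, Complex.norm_real, Real.norm_of_nonneg hx.le, h3 _ hν]
      have := (h4 u n _ hu hn hξ).trans (mul_le_of_le_one_right hB (tau0_bd hn.ne_zero))
      gcongr
      split_ifs <;> simp
  refine ⟨_, j, h, τ₀, _, hξ, hh, ⟨h5.1, fun ν e => ?_, c * m * x * conj (hil v (ξ₀ / y) y) * rho v 2 1 ξ₀,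
    ?_, fun u n hu hn e => ?_⟩, h5⟩
  · by_cases e1 : ν ≠ 0 ∧ Dl (v.M ^ j) ν
    · refine ⟨e1.2.mem_R.1, by_contra fun e2 => e ?_⟩
      simp only [h3 ν e1.2, if_neg e2, zero_mul, dite_eq_ite, ite_self, mul_zero]
    · exact absurd (if_neg e1) e
  · have : hil v (ξ₀ / y) y ≠ 0 := norm_ne_zero_iff.1 (by simp [norm_hil])
    simp [hc, hm, hx.ne', this, h1]
  · have hn' : (n : F) ≠ 0 := fun e => hn.ne_zero (Subtype.ext e)
    have hu' : (u : F) ≠ 0 := fun e => hu.ne_zero (Subtype.ext e)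
    have hD := h2 _ (u * n).2 e
    have hU := (Md.sec n y u hn hy hu (e.U one_le_two)).2
    have e1 : hil v (ξ₀ / y) y = hil v (ξ₀ / y) n := by
      rw [← hil_UK_right one_le_two _ e, MulMemClass.coe_mul, hil_mul_right _ hu' hn', hil_swap (u : F),
        hil_U1 hU hξ, map_one, one_mul]
    have e2 : rho v 2 1 ξ₀ = rho v 2 1 (ξ₀ / y * n) := by
      rw [← one_mul (rho v 2 1 (ξ₀ / y * n)), ← hil_U1 hU (mul_ne_zero hξ hn'),
        ← H.unit_right one_le_two hu one_ne_zero (mul_ne_zero hξ hn')]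
      refine (rho_congr one_le_two ?_).symm
      convert e using 1
      rw [MulMemClass.coe_mul]
      field_simp
    rw [if_pos ⟨e.ne_left one_le_two, hD⟩, dif_pos (u * n).2, h3 _ hD, if_pos e, e1, e2,
      H.shape' one_le_two hu hn hξ, hil_U1 hU hξ, one_mul]
    ring

theorem stBr (v : Lv F) [Md v] : StBr v := by
  refine ⟨2, one_le_two, fun y hy => ?_⟩
  obtain ⟨η, hη⟩ := exists_pou (VK v 2)
  obtain ⟨ξ, j, h, τ₀, τ, hξ, hh, h1, h2⟩ := exists_prm hy hη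
  refine ⟨τ₀, τ, 2 + 2 * j, h1, fun c₀ hc₀ => ?_⟩
  have hc : (c₀ : F) ≠ 0 := fun e => hc₀.ne_zero (Subtype.ext e)
  obtain ⟨N, hN⟩ := exists_DK v (c₀ : F)
  obtain ⟨N', hN'⟩ := exists_DK v (c₀ : F)⁻¹
  have key : ∀ g : SL(2, F), InR v g → UK v (2 + 2 * j) (g 1 0 / c₀) → LK v (N + N' + (2 + 3 * j)) (g 0 0) →
      LK v (N + N' + (2 + 3 * j)) (g 1 1) → ∀ r,
        bch v 2 ξ h (rm r g⁻¹) = cbF v (g 0 0) (g 1 0) * dw v 2 ξ h c₀ r := fun g hg e e0 e1 r => by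
    have e2 := e.ne_left (by omega)
    rw [← dw_congr one_le_two hh e]
    refine dw_eq one_le_two hh hg e2 ?_ ?_ r
    · have := (LK.mul_DK (j := N') (k := j) (e0.mono (by omega)) hN').mul_L (e.inv_mem_L (by omega))
      convert this using 1
      field_simp
    · have := (LK.DK_mul (j := N) (k := 2 + 3 * j) (e1.mono (by omega)) hN).mul_L e.mem_L
      convert this using 1
      field_simp
  by_cases hex : ∃ g : SL(2, F), InR v g ∧ UK v (2 + 2 * j) (g 1 0 / c₀) ∧ LK v (N + N' + (2 + 3 * j)) (g 0 0) ∧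
      LK v (N + N' + (2 + 3 * j)) (g 1 1)
  swap
  · exact ⟨0, _, 0, _, dua_zero 0, fun g a b c d => absurd ⟨g, a, b, c, d⟩ hex⟩
  obtain ⟨g₁, a, b, c, d⟩ := hex
  obtain ⟨k₀, hk₀⟩ := std_dw one_le_two hξ hc hh
  have hk : 1 ≤ k₀ + 1 := by omega
  obtain ⟨η', hη'⟩ := exists_pou (VK v (2 * (k₀ + 1)))
  have hV : VK v (2 * (k₀ + 1)) ≤ VK v 2 := VK_mono (by omega)
  have hG := ((good_bch one_le_two hV hη' hξ hh).act v a).smul v (cbF v (g₁ 0 0) (g₁ 1 0))⁻¹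
  simp only [key g₁ a b c d, inv_mul_cancel_left₀ (cbF_col a (b.ne_left (by omega)))] at hG
  obtain ⟨B, hB, hr⟩ := (TH.hh (v := v) (K := 2 * (k₀ + 1)) (by omega)).norm_le (by omega)
  obtain ⟨σ₀, σ, s1, s2, s3, C, s4⟩ := exists_th hk (hk₀ _ (by omega)) hη' hG.cau hB hr
  have hi : (((VK v (2 * (k₀ + 1))).relIndex (VK v 2) : ℕ) : ℂ) ≠ 0 :=
    Nat.cast_ne_zero.2 (Subgroup.isFiniteRelIndex_of_finiteIndex).relIndex_ne_zero
  set i : ℂ := (((VK v (2 * (k₀ + 1))).relIndex (VK v 2) : ℕ) : ℂ)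
  refine ⟨i⁻¹ * σ₀, fun ν => σ ν * i⁻¹, 2 * (k₀ + 1), N + N' + (2 + 3 * j), ⟨s1.1.mul fun _ => le_rfl,
    ⟨_, fun ν e => (s2 ν (left_ne_zero_of_mul e)).mem_R⟩, fun u hu ν => by rw [s3 u hu],
    ‖i⁻¹‖ * (C * B), fun u n hu hn => ?_⟩, fun g a b c d w => ?_⟩
  · rw [norm_mul, mul_comm, mul_assoc]
    exact mul_le_mul_of_nonneg_left (s4 u n hu hn) (norm_nonneg _)
  · have := (h2.level hη hη' hV (fc_bch one_le_two hξ hh)).aut s1 (key g a b c d) w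
    rw [Th_smul] at this
    rw [Th_smul, mul_left_comm, ← this, inv_mul_cancel_left₀ hi]

end Crest.Agent.R27.TH
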