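import Crest.Agent.R27.TH.SfA
import Crest.Agent.R27.TH.RhoB

/-! Row 27, block THETA / TS (helper79): the Fourier coefficients of standard weights. -/

set_option autoImplicit false
set_option linter.unusedSectionVars false

namespace Crest.Agent.R27.TH

open Crest.NumberTheoryR.EisensteinField Crest.Agent.R27.G Filter Finset
open scoped NumberField Classical Topology ComplexConjugate

variable {F : Type} [Field F] [NumberField F] [Algebra K3 F] {v : Lv F}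

theorem ts_up_unit (u : (𝓞 F)ˣ) : IsUnit (v.up (u : 𝓞 F)) := u.isUnit.map (algebraMap (𝓞 F) v.R)

theorem hasSum_cls [Md v] {K : ℕ} (hK : 1 ≤ K) {η : (Pl F → ℝ) → ℝ} (hη : Pou (VK v K) η) (ν : v.R) (ξ : F)
    {Q : F → Prop} (hQ : ∀ a b : v.R, Associated a b → (Q a ↔ Q b)) {G : ℝ → ℂ} {B : ℝ}
    (hG : ∀ t, B < t → G t = 0) :
    HasSum (fun c : F => (if UK v K (c / ξ) ∧ Q c then (η (lg c) : ℂ) * GF v ν c else 0) * G (an c))
      (∑' n : Ab.Pr v.R, (if Q (n : v.R) then Gs v K ν ξ n else 0) * G (ns v ξ * Ab.nm (n : v.R))) := by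
  let Ω := {n : Ab.Pr v.R // ∃ c : v.R, Associated (n : v.R) c ∧ UK v K (c / ξ)}
  choose c hc1 hc2 using fun n : Ω => n.2
  let f : Ab.Pr v.R → ℂ := fun n => (if Q (n : v.R) then Gs v K ν ξ n else 0) * G (ns v ξ * Ab.nm (n : v.R))
  let Φ : Ω × VK v K → v.R := fun q => v.up ((q.2 : (𝓞 F)ˣ) : 𝓞 F) * c q.1
  have hA : ∀ q, Associated (q.1.1 : v.R) (Φ q) := fun q =>
    (hc1 q.1).trans (associated_unit_mul_right _ _ (ts_up_unit _))
  have hU : ∀ q, UK v K ((Φ q : F) / ξ) := fun q => by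
    have := (mem_VK.1 q.2.2).mul (hc2 q.1)
    rwa [← mul_div_assoc] at this
  have hc0 : ∀ n, (c n : F) ≠ 0 := fun n => (hc2 n).ne_left hK
  have hΦ : Function.Injective fun q => (Φ q : F) := by
    rintro ⟨n, u⟩ ⟨n', u'⟩ h
    have h0 : Φ (n, u) = Φ (n', u') := Subtype.ext h
    obtain rfl : n = n' := Subtype.ext (Subtype.ext (Ab.Ar.pr_uniq _ _ n.1.2 n'.1.2
      ((hA (n, u)).trans (h0 ▸ (hA (n', u')).symm))))
    exact Prod.ext rfl (Subtype.ext (Units.ext (v.up_injective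
      (mul_right_cancel₀ (fun e => hc0 n (congrArg Subtype.val e)) h0))))
  have hf : (Function.support f).Finite := by
    by_cases hξ : ξ = 0
    · refine Set.finite_empty.subset fun n hn => hn ?_
      simp only [f]
      rw [Gs_eq_zero fun ⟨c, _, h⟩ => h.ne_right hK hξ, ite_self, zero_mul]
    · refine (finite_Pr (B / ns v ξ)).subset fun n hn => ?_
      by_contra h
      exact hn (mul_eq_zero_of_right _ (hG _ (by
        rw [mul_comm, ← div_lt_iff₀ (ns_pos hξ)]; exact not_le.1 h)))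
  have h1 : HasSum (fun n : Ω => f n.1) (∑' n, f n) := by
    refine (hasSum_subtype_iff_of_support_subset fun n hn => ?_).2 (summable_of_hasFiniteSupport hf).hasSum
    by_contra h
    refine hn ?_
    simp only [f]
    rw [Gs_eq_zero h, ite_self, zero_mul]
  have ht : ∀ q : Ω × VK v K, (if UK v K ((Φ q : F) / ξ) ∧ Q (Φ q) then (η (lg (Φ q : F)) : ℂ) * GF v ν (Φ q) else 0) *
      G (an (Φ q : F)) = (η (lg (c q.1 : F) + lu (q.2 : (𝓞 F)ˣ)) : ℂ) * f q.1.1 := by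
    intro q
    have h0 : Φ q ≠ 0 := fun e => (hU q).ne_left hK (congrArg Subtype.val e)
    have e1 : lg (Φ q : F) = lg (c q.1 : F) + lu (q.2 : (𝓞 F)ˣ) :=
      (lg_mul (unit_ne _) (hc0 _)).trans (add_comm _ _)
    simp only [f]
    rw [ns_coe h0, ns_U ((hU q).U hK), ← nm_eq h0, ← Ab.nm_assoc (hA q), GF_coe, ← Gs_eq hK (hA q) (hU q),
      ← hQ _ _ (hA q), e1]
    simp only [hU q, true_and]
    split_ifs <;> ring
  have h2 : ∀ n : Ω, HasSum (fun u : VK v K => (η (lg (c n : F) + lu (u : (𝓞 F)ˣ)) : ℂ) * f n.1) (f n.1) := by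
    intro n
    simpa using (Complex.hasSum_ofReal.2 (hη.sum (lg (c n : F)))).mul_right (f n.1)
  have h3 : Summable fun q : Ω × VK v K => (η (lg (c q.1 : F) + lu (q.2 : (𝓞 F)ˣ)) : ℂ) * f q.1.1 := by
    have h4 : ∀ n : Ω, HasSum (fun u : VK v K => ‖(η (lg (c n : F) + lu (u : (𝓞 F)ˣ)) : ℂ) * f n.1‖) ‖f n.1‖ := by
      intro n
      simpa [abs_of_nonneg (hη.nonneg _)] using (hη.sum (lg (c n : F))).mul_right ‖f n.1‖
    refine Summable.of_norm ((summable_prod_of_nonneg fun _ => norm_nonneg _).2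
      ⟨fun n => (h4 n).summable, h1.summable.norm.congr fun n => (h4 n).tsum_eq.symm⟩)
  rw [h1.unique (h3.hasSum.prod_fiberwise h2)]
  refine (hΦ.hasSum_iff fun x hx => ?_).1 (h3.hasSum.congr_fun ht)
  by_contra hn
  have h5 := left_ne_zero_of_mul hn
  have h6 : UK v K (x / ξ) := by
    by_contra h
    exact h5 (if_neg fun h' => h h'.1)
  have h7 : x ∈ v.R := by
    by_contra h
    exact h5 (by simp [GF, h])
  have h8 : (⟨x, h7⟩ : v.R) ≠ 0 := fun e => h6.ne_left hK (congrArg Subtype.val e)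
  obtain ⟨n, hn1, hn2⟩ := Ab.Ar.pr_ex _ h8
  let m : Ω := ⟨⟨n, hn1⟩, ⟨x, h7⟩, hn2.symm, h6⟩
  obtain ⟨w, hw⟩ := (hc1 m).symm.trans hn2.symm
  have h9 : (c m : F) * (w : v.R) = x := congrArg Subtype.val hw
  obtain ⟨u, hu, e⟩ := exists_VK hK w.isUnit (by
    have := h6.trans hK ((hc2 m).symm hK)
    rwa [← h9, mul_div_cancel_left₀ _ (hc0 m)] at this)
  refine hx ⟨(m, ⟨u, hu⟩), ?_⟩
  simp only [Φ, MulMemClass.coe_mul, Lv.coe_up]
  rw [e, ← h9, mul_comm]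

theorem Lm_cls [Md v] {K : ℕ} (hK : 1 ≤ K) {η : (Pl F → ℝ) → ℝ} (hη : Pou (VK v K) η) (ν : v.R) {ξ : F}
    (hξ : ξ ≠ 0) {Q : F → Prop} (hQ : ∀ a b : v.R, Associated a b → (Q a ↔ Q b)) {Y : ℝ} (hY : 0 < Y) :
    Lm (gst F) (fun c : F => if UK v K (c / ξ) ∧ Q c then (η (lg c) : ℂ) * GF v ν c else 0) an Y =
      (ns v ξ ^ (-(4 / 3) : ℝ) : ℝ) * Lm (gst F) (fun n : Ab.Pr v.R => if Q (n : v.R) then Gs v K ν ξ n else 0)
        (fun n => Ab.nm (n : v.R)) (Y / ns v ξ) := by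
  have h0 := ns_pos (v := v) hξ
  rw [Lm, Lm, (hasSum_cls hK hη ν ξ hQ (G := fun t => gst F (t / Y)) (B := 2 * Y)
    fun t ht => gst_top ((lt_div_iff₀ hY).2 ht)).tsum_eq, ← mul_assoc, ← Complex.ofReal_mul,
    ← Real.mul_rpow h0.le (div_pos hY h0).le, mul_div_cancel₀ _ h0.ne']
  congr 1
  refine tsum_congr fun n => ?_
  rw [div_div_eq_mul_div, mul_comm (ns v ξ)]

/-- residues on `F` and on `Pr` -/
theorem hasT_cls [Md v] {K : ℕ} (hK : 1 ≤ K) {η : (Pl F → ℝ) → ℝ} (hη : Pou (VK v K) η) (ν : v.R) {ξ : F}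
    (hξ : ξ ≠ 0) {Q : F → Prop} (hQ : ∀ a b : v.R, Associated a b → (Q a ↔ Q b)) (τ : ℂ) :
    HasT F (fun c : F => if UK v K (c / ξ) ∧ Q c then (η (lg c) : ℂ) * GF v ν c else 0) an
        ((ns v ξ ^ (-(4 / 3) : ℝ) : ℝ) * τ) ↔
      HT v (fun n => if Q n then Gs v K ν ξ n else 0) τ := by
  have h0 := ns_pos (v := v) hξ
  have h1 : ((ns v ξ ^ (-(4 / 3) : ℝ) : ℝ) : ℂ) ≠ 0 := Complex.ofReal_ne_zero.2 (Real.rpow_pos_of_pos h0 _).ne'
  constructor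
  · intro h
    have h2 := (Tendsto.comp h (tendsto_id.atTop_mul_const h0)).const_mul ((ns v ξ ^ (-(4 / 3) : ℝ) : ℝ) : ℂ)⁻¹
    rw [inv_mul_cancel_left₀ h1] at h2
    refine h2.congr' ?_
    filter_upwards [eventually_gt_atTop 0] with Y hY
    rw [Function.comp, id, Lm_cls hK hη ν hξ hQ (mul_pos hY h0), inv_mul_cancel_left₀ h1,
      mul_div_cancel_right₀ _ h0.ne']
  · intro h
    refine ((Tendsto.comp h (tendsto_id.atTop_div_const h0)).const_mul _).congr' ?_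
    filter_upwards [eventually_gt_atTop 0] with Y hY
    rw [Lm_cls hK hη ν hξ hQ hY]
    rfl

theorem hasT_cls' [Md v] {K : ℕ} (hK : 1 ≤ K) {η : (Pl F → ℝ) → ℝ} (hη : Pou (VK v K) η) (ν : v.R) {ξ : F}
    (hξ : ξ ≠ 0) (τ : ℂ) :
    HasT F (fun c : F => if UK v K (c / ξ) then (η (lg c) : ℂ) * GF v ν c else 0) an
        ((ns v ξ ^ (-(4 / 3) : ℝ) : ℝ) * τ) ↔ HT v (Gs v K ν ξ) τ := by
  simpa using hasT_cls hK hη ν hξ (Q := fun _ => True) (fun _ _ _ => Iff.rfl) τ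

theorem hasT_cls_dvd [Md v] {K : ℕ} (hK : 1 ≤ K) {η : (Pl F → ℝ) → ℝ} (hη : Pou (VK v K) η) (ν : v.R) {ξ : F}
    (hξ : ξ ≠ 0) {p : v.R} (hp : p ≠ 0) (τ : ℂ) :
    HasT F (fun c : F => if UK v K (c / ξ) ∧ c / (p : F) ∈ v.R then (η (lg c) : ℂ) * GF v ν c else 0) an
        ((ns v ξ ^ (-(4 / 3) : ℝ) : ℝ) * τ) ↔ HT v (fun n => if p ∣ n then Gs v K ν ξ n else 0) τ := by
  simpa only [sf_dvd hp] using hasT_cls hK hη ν hξ (Q := fun c => c / (p : F) ∈ v.R)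
    (fun a b h => by rw [← sf_dvd hp, ← sf_dvd hp, h.dvd_iff_dvd_right]) τ

/-! ### standard weights -/

theorem Std.adm {k : ℕ} {ω : F × F → ℂ} (h : Std v k ω) : Adm ω :=
  ⟨h.bdd, v.M ^ k, pow_pos v.pos k, fun r hr =>
    ⟨(h.supp r hr).2.2.1.inL (h.supp r hr).1, (h.supp r hr).2.2.2.inL (h.supp r hr).2.1⟩⟩

section
variable {k : ℕ} {φ : F → F → ℂ}

theorem ts_cls (hk : 1 ≤ k) (h2 : ∀ x y, φ x y ≠ 0 → DK v k x ∧ DK v k y)
    (h3 : ∀ x x' y y', UK v k (x' / x) → LK v k (y' - y) → φ x' y' = φ x y) {c c' : F}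
    (h : UK v (2 * k) (c' / c)) (t : F) : φ c' (c' * t) = φ c (c * t) := by
  have hk2 : 1 ≤ 2 * k := by omega
  have key : ∀ {c c' : F}, UK v (2 * k) (c' / c) → DK v k (c * t) → φ c' (c' * t) = φ c (c * t) := by
    intro c c' h hd
    refine h3 _ _ _ _ (h.mono (by omega)) ?_
    have h0 := h.ne_right hk2
    rw [show c' * t - c * t = (c' / c - 1) * (c * t) by field_simp]
    exact LK.mul_DK (j := k) (by rwa [← two_mul]) hd
  by_cases h4 : φ c (c * t) = 0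
  · by_contra h5
    rw [h4] at h5
    exact h5 ((key (h.symm hk2) (h2 _ _ h5).2).symm.trans h4)
  · exact key h (h2 _ _ h4).2

theorem ts_per (h2 : ∀ x y, φ x y ≠ 0 → DK v k x ∧ DK v k y)
    (h3 : ∀ x x' y y', UK v k (x' / x) → LK v k (y' - y) → φ x' y' = φ x y) {c : F} (hc : c ≠ 0)
    (t t' : F) (h : LK v (2 * k) (t' - t)) : φ c (c * t') = φ c (c * t) := by
  by_cases hd : DK v k c
  · refine h3 _ _ _ _ (UK_refl hc) ?_
    rw [← mul_sub]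
    exact LK.DK_mul (j := k) (by rwa [← two_mul]) hd
  · rw [not_not.1 fun h => hd (h2 _ _ h).1, not_not.1 fun h => hd (h2 _ _ h).1]

end

theorem Std.fc [Md v] {k : ℕ} (hk : 1 ≤ k) {ω : F × F → ℂ} (h : Std v k ω) :
    Fc (VK v (2 * k)) (v.M ^ (2 * k)) ω := by
  obtain ⟨φ, -, h2, h3, h4⟩ := h.form
  refine ⟨h.adm, fun u hu c d => ?_, fun c d a => ?_, h.zero⟩
  · by_cases hc : c = 0
    · rw [hc, mul_zero]
      exact h.inv0 u hu d
    have hU := mem_VK.1 hu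
    have e := ts_cls hk h2 h3 (c := c) (c' := ((u : 𝓞 F) : F) * c) (by rwa [mul_div_cancel_right₀ _ hc]) (d / c)
    rw [mul_assoc, mul_div_cancel₀ _ hc] at e
    rw [h4 _ _ (mul_ne_zero (unit_ne u) hc), h4 _ _ hc, e]
    congr 1
    have hi : ∀ x : F, ((u : 𝓞 F) : F) * x ∈ v.R → x ∈ v.R := fun x hx => by
      have := mul_mem (v.coe_mem_R ((u⁻¹ : (𝓞 F)ˣ) : 𝓞 F)) hx
      rwa [← mul_assoc, ← map_mul, Units.inv_mul, map_one, one_mul] at this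
    by_cases hR : d ∈ v.R ∧ c ∈ v.R
    · have hc' : (⟨c, hR.2⟩ : v.R) ≠ 0 := fun e => hc (congrArg Subtype.val e)
      change cbF v (v.up (u : 𝓞 F) * ⟨d, hR.1⟩ : v.R) (v.up (u : 𝓞 F) * ⟨c, hR.2⟩ : v.R) =
        cbF v (⟨d, hR.1⟩ : v.R) (⟨c, hR.2⟩ : v.R)
      rw [cbF_eq, cbF_eq, Ab.cb_assoc _ (associated_unit_mul_left _ _ (ts_up_unit u)), Ab.cb_mul_left,
        cb_unit (ts_up_unit u) hc', Lv.coe_up, hil_U_left (hU.U (by omega)), one_mul]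
    · rw [cbF_eq_zero hR, cbF_eq_zero fun h => hR ⟨hi _ h.1, hi _ h.2⟩]
  · by_cases hc : c = 0
    · simp [hc]
    have e := ts_per h2 h3 hc (d / c) (d / c + ((v.M ^ (2 * k) : ℕ) : F) * a) (by simpa using sf_LK (2 * k) a)
    rw [mul_add, mul_div_cancel₀ _ hc] at e
    rw [h4 _ _ hc, h4 _ _ hc, e]
    congr 1
    by_cases hR : d ∈ v.R ∧ c ∈ v.R
    · change cbF v (⟨d, hR.1⟩ + ⟨c, hR.2⟩ * ⟨_, sf_R (v.M ^ (2 * k)) a⟩ : v.R) (⟨c, hR.2⟩ : v.R) =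
        cbF v (⟨d, hR.1⟩ : v.R) (⟨c, hR.2⟩ : v.R)
      rw [cbF_eq, cbF_eq]
      exact Ab.cb_congr (by rw [add_sub_cancel_left]; exact dvd_mul_right _ _)
    · rw [cbF_eq_zero hR, cbF_eq_zero fun h => hR ⟨?_, h.2⟩]
      simpa using sub_mem h.1 (mul_mem h.2 (sf_R (v.M ^ (2 * k)) a))

theorem ts_reindex {q : ℕ} {G : F → ℂ} (hG : ∀ t (a : 𝓞 F), G (t + q * a) = G t) (u : (𝓞 F)ˣ) (s : F) :
    ∑ᶠ t : F ⧸ Lat F q, G (((u : 𝓞 F) : F) * t.out + s) = ∑ᶠ t : F ⧸ Lat F q, G t.out := by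
  have hu : (((u⁻¹ : (𝓞 F)ˣ) : 𝓞 F) : F) * ((u : 𝓞 F) : F) = 1 := by rw [← map_mul, Units.inv_mul, map_one]
  refine finsum_eq_of_bijective (fun t => QuotientAddGroup.mk (((u : 𝓞 F) : F) * t.out + s)) ⟨fun t t' h => ?_,
    fun t => ?_⟩ fun t => ?_
  · obtain ⟨a, ha⟩ := sf_mk.1 h
    rw [← QuotientAddGroup.out_eq' t, ← QuotientAddGroup.out_eq' t', sf_mk]
    refine ⟨(u⁻¹ : (𝓞 F)ˣ) * a, ?_⟩
    rw [ci_mul]
    linear_combination (((u⁻¹ : (𝓞 F)ˣ) : 𝓞 F) : F) * ha + (t.out - t'.out) * hu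
  · obtain ⟨a, ha⟩ := sf_out (q := q) ((((u⁻¹ : (𝓞 F)ˣ) : 𝓞 F) : F) * (t.out - s))
    refine ⟨QuotientAddGroup.mk ((((u⁻¹ : (𝓞 F)ˣ) : 𝓞 F) : F) * (t.out - s)), ?_⟩
    conv_rhs => rw [← QuotientAddGroup.out_eq' t]
    refine sf_mk.2 ⟨-(u * a), ?_⟩
    rw [ha, ci_neg, ci_mul]
    linear_combination (s - t.out) * hu
  · obtain ⟨a, ha⟩ := sf_out (q := q) (((u : 𝓞 F) : F) * t.out + s)
    simp only [ha, hG]

theorem hat_van {j k : ℕ} {x ν : F} (hx : x ≠ 0) (hν : Dl (v.M ^ j) ν) {h : F → ℂ}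
    (hper : ∀ t t', LK v j (t' - t) → h t' = h t) (hs : ∀ t s, LK v k (x * s) → h (t + s) = h t)
    (h0 : hat v (v.M ^ j) h ν ≠ 0) : DK v (k + 1) (ν / x) := by
  have key : ∀ s ∈ v.R, LK v k (x * s) → eT (ν * s) = 1 := by
    intro s h1 h2
    have e := ts_reindex (q := v.M ^ j) (G := fun t => if t ∈ v.R then h t * eT (ν * t) else 0) (fun t a => by
      rw [hper t _ (by simpa using sf_LK j a), mul_add, eT_add, hν a, mul_one]
      exact if_congr (add_mem_cancel_right (sf_R _ a)) rfl rfl) 1 s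
    simp only [Units.val_one, map_one, one_mul, add_mem_cancel_right h1, hs _ _ h2, mul_add, eT_add] at e
    have e2 : hat v (v.M ^ j) h ν * eT (ν * s) = hat v (v.M ^ j) h ν * 1 := by
      rw [mul_one, hat, finsum_mul]
      refine Eq.trans (finsum_congr fun t => ?_) e
      split_ifs <;> ring
    exact mul_left_cancel₀ h0 e2
  have hM : (v.M : F) ^ k ≠ 0 := pow_ne_zero _ v.M_ne
  obtain ⟨s, -, hU⟩ := approxK (v := v) 1 (div_ne_zero hM hx) one_ne_zero 0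
  obtain ⟨a, ha⟩ := v.dual (ν * s) fun y => eT_eq_one.1 (by
    rw [mul_assoc]
    refine key _ (mul_mem s.2 (v.coe_mem_R y)) ?_
    rw [show x * (s * y) = (v.M : F) ^ k * (s / ((v.M : F) ^ k / x) * y) by field_simp]
    exact (LK_pow v k).mul_L (mul_mem hU.mem_L (v.coe_mem_L y)))
  have hs0 := hU.ne_left le_rfl
  rw [DK, show (v.M : F) ^ (k + 1) * (ν / x) = (v.M * (ν * s)) * (s / ((v.M : F) ^ k / x))⁻¹ by
    field_simp; ring, ha]
  exact mul_mem (v.coe_mem_L a) (hU.inv_mem_L le_rfl)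

theorem Std.co_unit [Md v] {k : ℕ} (hk : 1 ≤ k) {ω : F × F → ℂ} (h : Std v k ω) (η : (Pl F → ℝ) → ℝ) {ν : F}
    (hν : Dl (v.M ^ (2 * k)) ν) {u : (𝓞 F)ˣ} (hu : u ∈ VK v (2 * k)) :
    co η (v.M ^ (2 * k)) ω (((u : 𝓞 F) : F) * ν) = co η (v.M ^ (2 * k)) ω ν := by
  funext c
  by_cases hc : c = 0
  · simp [co, SS, hc]
  have hF := h.fc hk
  obtain ⟨φ, -, h2, h3, h4⟩ := h.form
  have hU := mem_VK.1 hu
  have e : ∀ t, ω (c, c * (((u : 𝓞 F) : F) * t)) = ω (c, c * t) := by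
    intro t
    have hc' : ((u : 𝓞 F) : F)⁻¹ * c ≠ 0 := mul_ne_zero (inv_ne_zero (unit_ne u)) hc
    have e1 := hF.inv u hu (((u : 𝓞 F) : F)⁻¹ * c) (c * t)
    rw [mul_inv_cancel_left₀ (unit_ne u), mul_left_comm] at e1
    have e2 : UK v (2 * k) (((u : 𝓞 F) : F)⁻¹ * c / c) := by
      rw [mul_div_cancel_right₀ _ hc]
      exact hU.inv (by omega)
    rw [e1, h4 _ _ hc', h4 _ _ hc, h3 c _ (c * t) _ (e2.mono (by omega)) (by rw [sub_self]; exact LK.zero)]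
    congr 1
    have hi : ((u : 𝓞 F) : F)⁻¹ = (((u⁻¹ : (𝓞 F)ˣ) : 𝓞 F) : F) :=
      inv_eq_of_mul_eq_one_right (by rw [← map_mul, Units.mul_inv, map_one])
    by_cases hR : c * t ∈ v.R ∧ c ∈ v.R
    · rw [hi]
      change cbF v (⟨_, hR.1⟩ : v.R) (v.up ((u⁻¹ : (𝓞 F)ˣ) : 𝓞 F) * ⟨c, hR.2⟩ : v.R) =
        cbF v (⟨_, hR.1⟩ : v.R) (⟨c, hR.2⟩ : v.R)
      rw [cbF_eq, cbF_eq, Ab.cb_assoc _ (associated_unit_mul_left _ _ (ts_up_unit _))]
    · rw [cbF_eq_zero hR, cbF_eq_zero fun h => hR ⟨h.1, ?_⟩]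
      have := mul_mem (v.coe_mem_R (u : 𝓞 F)) h.2
      rwa [mul_inv_cancel_left₀ (unit_ne u)] at this
  rw [co, co, SS, SS, if_neg hc, if_neg hc, ← ts_reindex (G := fun t => ω (c, c * t) * eT (ν * t)) (fun t a => by
    rw [mul_add, hF.per, mul_add, eT_add, hν a, mul_one]) u 0]
  congr 1
  refine finsum_congr fun t => ?_
  rw [add_zero, e, mul_comm _ ν, mul_assoc]

theorem ts_std' [Md v] {k : ℕ} (hk : 1 ≤ k) (H : HH v (2 * k)) {ω : F × F → ℂ} (h : Std v k ω)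
    {η : (Pl F → ℝ) → ℝ} (hη : Pou (VK v (2 * k)) η) {B₂ : ℝ} (hB₂ : 0 ≤ B₂)
    (hr : ∀ (u n : v.R) (ξ : F), IsUnit u → Ab.Prim n → ξ ≠ 0 →
      ‖rho v (2 * k) (u * n) ξ‖ ≤ B₂ * (‖Ab.tau0 n‖ * Ab.nm n ^ (-(1 / 6) : ℝ))) :
    ∃ C : ℝ, ∀ u n : v.R, IsUnit u → Ab.Prim n →
      Dl (v.M ^ (2 * k)) ((u * n : v.R) : F) → ∃ T : ℂ, HasT F (co η (v.M ^ (2 * k)) ω ((u * n : v.R) : F)) an T ∧
        ‖T‖ ≤ C * B₂ * (‖Ab.tau0 n‖ * Ab.nm n ^ (-(1 / 6) : ℝ)) := by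
  have hk2 : 1 ≤ 2 * k := by omega
  obtain ⟨φ, ⟨B₁, h1⟩, h2, h3, h4⟩ := h.form
  obtain ⟨T, hT0, hT⟩ := exists_reps v hk2
  obtain ⟨C, hC⟩ := sum_ns v hk2 k (δ := 1 / 3) (by norm_num)
  have hB₁ : 0 ≤ B₁ := (norm_nonneg _).trans (h1 0 0)
  have hT1 : ∀ x ∈ T, ∀ y ∈ T, UK v (2 * k) (y / x) → y = x := fun x hx y hy e =>
    (hT y (hT0 y hy)).unique ⟨hy, UK_refl (hT0 y hy)⟩ ⟨hx, e⟩
  refine ⟨an ((v.M : F) ^ (k + 2 * k)) * B₁ * C, fun u n hu hn hν => ?_⟩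
  have hν0 : u * n ≠ 0 := mul_ne_zero hu.ne_zero hn.ne_zero
  have hν1 : ((u * n : v.R) : F) ≠ 0 := fun e => hν0 (Subtype.ext e)
  let S := (finite_cls hk2 k (k + 1) hν1 hT1).toFinset
  have hS : ∀ x, x ∈ S ↔ x ∈ T ∧ x ≠ 0 ∧ DK v k x ∧ DK v (k + 1) (((u * n : v.R) : F) / x) := fun x =>
    Set.Finite.mem_toFinset _
  let Φ : F → ℂ := fun x => hat v (v.M ^ (2 * k)) (fun t => φ x (x * t)) ((u * n : v.R) : F)
  have hΦ : ∀ {c ξ : F}, UK v (2 * k) (c / ξ) → Φ c = Φ ξ := fun e => by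
    simp only [Φ, ts_cls hk h2 h3 e]
  have hA : ∀ c : v.R, c ≠ 0 → ∃ A : Finset (F ⧸ Lat F (v.M ^ (2 * k))),
      (A.card : ℝ) ≤ an ((v.M : F) ^ (k + 2 * k)) * ns v c ∧
      ∀ t : F ⧸ Lat F (v.M ^ (2 * k)), t.out ∈ v.R → φ c (c * t.out) ≠ 0 → t ∈ A := by
    intro c hc
    by_cases hd : DK v k c
    · obtain ⟨A, e1, e2⟩ := sf_card k (2 * k) hc hd
      exact ⟨A, e1, fun t ht e => e2 t ht (h2 _ _ e).2⟩
    · exact ⟨∅, by simpa using mul_nonneg (an_nonneg _) (ns_pos fun e => hc (Subtype.ext e)).le,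
        fun t _ e => absurd (h2 _ _ e).1 hd⟩
  have hco : co η (v.M ^ (2 * k)) ω ((u * n : v.R) : F) = fun c => ∑ ξ ∈ S, Φ ξ *
      if UK v (2 * k) (c / ξ) then (η (lg c) : ℂ) * GF v (u * n) c else 0 := by
    funext c
    by_cases hc : c = 0
    · rw [co, SS, if_pos hc, mul_zero]
      exact (sum_eq_zero fun ξ _ => by rw [if_neg fun e => e.ne_left hk2 hc, mul_zero]).symm
    by_cases hR : c ∈ v.R
    swap
    · have : ∀ x, cbF v x c = 0 := fun x => cbF_eq_zero fun h => hR h.2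
      simp [co, SS, h4 _ _ hc, this, GF, hR]
    obtain ⟨A, -, e2⟩ := hA ⟨c, hR⟩ fun e => hc (congrArg Subtype.val e)
    obtain ⟨ξ, ⟨hξ, hU⟩, hu'⟩ := hT c hc
    rw [co, SS_of_form hc hν (fun t => h4 _ _ hc) (ts_per h2 h3 hc) e2, sum_eq_single ξ, if_pos hU, ← hΦ hU]
    · ring
    · intro y hy hne
      rw [if_neg fun e => hne (hu' y ⟨((hS y).1 hy).1, e⟩), mul_zero]
    · intro hn
      have h0 := hT0 ξ hξ
      refine mul_eq_zero_of_left (not_not.1 fun e => hn ((hS ξ).2 ⟨hξ, h0, ?_, ?_⟩)) _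
      · by_contra hd
        have : ∀ y, φ ξ y = 0 := fun y => not_not.1 fun e => hd (h2 _ _ e).1
        exact e (by simp [Φ, hat, this])
      · exact hat_van h0 hν (ts_per h2 h3 h0) (fun t s e => h3 _ _ _ _ (UK_refl h0) (by
          rwa [mul_add, add_sub_cancel_left])) e
  refine ⟨∑ ξ ∈ S, Φ ξ * ((ns v ξ ^ (-(4 / 3) : ℝ) : ℝ) * rho v (2 * k) (u * n) ξ), ?_, ?_⟩
  · rw [hco]
    refine (tendsto_finsetSum S fun ξ hξ => Tendsto.const_mul (Φ ξ) ((hasT_cls' hk2 hη (u * n) ((hS ξ).1 hξ).2.1 _).2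
      (H.ht hν0 ((hS ξ).1 hξ).2.1))).congr' ?_
    filter_upwards [eventually_gt_atTop 0] with Y hY
    have e : ∀ ξ ∈ S, Summable fun c : F => Φ ξ * ((if UK v (2 * k) (c / ξ) then (η (lg c) : ℂ) * GF v (u * n) c
        else 0) * gst F (an c / Y)) := fun ξ _ => by
      simpa using (hasSum_cls hk2 hη (u * n) ξ (Q := fun _ => True) (fun _ _ _ => Iff.rfl)
        (G := fun t => gst F (t / Y)) (B := 2 * Y) fun t ht => gst_top ((lt_div_iff₀ hY).2 ht)).summable.mul_left (Φ ξ)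
    simp only [Lm, sum_mul, mul_assoc]
    rw [Summable.tsum_finsetSum e, mul_sum]
    refine sum_congr rfl fun ξ _ => ?_
    rw [tsum_mul_left]
    ring
  · have hx : 0 ≤ ‖Ab.tau0 n‖ * Ab.nm n ^ (-(1 / 6) : ℝ) :=
      mul_nonneg (norm_nonneg _) (Real.rpow_nonneg (Ab.nm_nonneg _) _)
    have ha := an_nonneg ((v.M : F) ^ (k + 2 * k))
    calc _ ≤ ∑ ξ ∈ S, an ((v.M : F) ^ (k + 2 * k)) * B₁ * B₂ * (‖Ab.tau0 n‖ * Ab.nm n ^ (-(1 / 6) : ℝ)) *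
          ns v ξ ^ (-(1 / 3) : ℝ) := by
          refine (norm_sum_le _ _).trans (sum_le_sum fun ξ hξ => ?_)
          have h0 := ((hS ξ).1 hξ).2.1
          have h5 := ns_pos (v := v) h0
          obtain ⟨c, -, hU⟩ := approxK (v := v) (2 * k) h0 one_ne_zero 0
          obtain ⟨A, e1, e2⟩ := hA c fun e => hU.ne_left hk2 (congrArg Subtype.val e)
          have e3 : ‖Φ ξ‖ ≤ an ((v.M : F) ^ (k + 2 * k)) * ns v ξ * B₁ := by
            rw [← hΦ hU, ← ns_U (hU.U hk2)]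
            exact (norm_hat_le e2 (fun t => h1 _ _) _).trans (mul_le_mul_of_nonneg_right e1 hB₁)
          have e4 : ns v ξ ^ (-(1 / 3) : ℝ) = ns v ξ * ns v ξ ^ (-(4 / 3) : ℝ) := by
            rw [mul_comm, ← Real.rpow_add_one h5.ne']
            norm_num
          rw [norm_mul, norm_mul, Complex.norm_real, Real.norm_of_nonneg (Real.rpow_nonneg h5.le _), e4]
          calc _ ≤ an ((v.M : F) ^ (k + 2 * k)) * ns v ξ * B₁ * (ns v ξ ^ (-(4 / 3) : ℝ) *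
                (B₂ * (‖Ab.tau0 n‖ * Ab.nm n ^ (-(1 / 6) : ℝ)))) := by
                have := hr u n ξ hu hn h0
                gcongr
            _ = _ := by ring
      _ ≤ _ := by
          rw [← mul_sum, mul_right_comm _ C, mul_right_comm _ C]
          exact mul_le_mul_of_nonneg_left (hC S (fun x hx => ⟨((hS x).1 hx).2.1, ((hS x).1 hx).2.2.1⟩)
            fun x hx y hy => hT1 x ((hS x).1 hx).1 y ((hS y).1 hy).1) (by positivity)

/-- **TS** -/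
theorem ts_std [Md v] {k : ℕ} (hk : 1 ≤ k) (H : HH v (2 * k)) {ω : F × F → ℂ} (h : Std v k ω)
    {η : (Pl F → ℝ) → ℝ} (hη : Pou (VK v (2 * k)) η) : ∃ B : ℝ, ∀ u n : v.R, IsUnit u → Ab.Prim n →
      Dl (v.M ^ (2 * k)) ((u * n : v.R) : F) → ∃ T : ℂ, HasT F (co η (v.M ^ (2 * k)) ω ((u * n : v.R) : F)) an T ∧
        ‖T‖ ≤ B * (‖Ab.tau0 n‖ * Ab.nm n ^ (-(1 / 6) : ℝ)) := by
  obtain ⟨B₂, hB₂, hr⟩ := H.norm_le (by omega)
  obtain ⟨C, hC⟩ := ts_std' hk H h hη hB₂ hr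
  exact ⟨_, hC⟩

end Crest.Agent.R27.TH
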